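import Vale.Agent.P280.H83.Api3
import Vale.Agent.P280.H981.Sl2
import Vale.Agent.P280.H754.Low

/-! P280, plan N: package A10. -/

open DirectSum Vale.Agent.P280.T Vale.Agent.P280.H127

namespace Vale.Agent.P280.N

variable {r : ℕ} {R : Type} [CommRing R] [IsDomain R] [Algebra ℂ R]
  {𝒜 : ℕ × (Fin r → ℤ) → Submodule ℂ R} [GradedAlgebra 𝒜]

/-- A10 (LF5). -/
theorem lf5 (H : Hyp 𝒜) (y : FP 𝒜) {ι : Type} [Fintype ι] {w : ι → VF R} {χ : ι → Fin r → ℤ}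
    (hw : Ind y w χ) (x : ι → FractionRing R) (hr : RgV y.q (∑ i, x i • w i)) :
    ∀ i, Rg y.q (x i) := by
  classical
  exact fun i => coeff_rg H.hX (fun i => (hw.glob i).rgV) hw.hv hw.inj hw.ne hr i

/-- A11. `RM` with homogeneous coefficients. -/
theorem rm_hom (H : Hyp 𝒜) (y : FP 𝒜) {ι : Type} [Fintype ι] {w : ι → VF R} {χ : ι → Fin r → ℤ}
    (hw : Ind y w χ) {lam : Fin r → ℤ} {v : VF R} (hv : HV 𝒜 lam v)
    (hr : RM y.q (Set.range w) v) : ∃ (ρ : VF R) (g : ι → FractionRing R), RgV y.q ρ ∧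
      HV 𝒜 lam ρ ∧ (∀ i, HK 𝒜 0 (χ i - lam) (g i)) ∧ v = ρ + ∑ i, g i • w i := by
  classical
  obtain ⟨g, hg, h1⟩ := exists_hnorm H.hX (fun i => (hw.glob i).rgV) hw.hv hw.inj hw.ne hv
  refine ⟨v - ∑ i, g i • w i, g, h1.1 hr, ?_, hg, (sub_add_cancel _ _).symm⟩
  refine hv.sub (HV.sum _ fun i _ => ?_)
  exact (HV.smul (hg i) (hw.hv i)).cast (by abel)

end Vale.Agent.P280.N
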