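import Vale.Agent.P280.N.A06
import Vale.Agent.P280.N.A10
import Vale.Agent.P280.H347.A12Core

/-! P280, plan N: package A12. -/

open DirectSum Vale.Agent.P280.T Vale.Agent.P280.H127

namespace Vale.Agent.P280.N

variable {r : ℕ} {R : Type} [CommRing R] [IsDomain R] [Algebra ℂ R]
  {𝒜 : ℕ × (Fin r → ℤ) → Submodule ℂ R} [GradedAlgebra 𝒜]

/-- A12 (LF4). -/
theorem lf4 (H : Hyp 𝒜) (y : FP 𝒜) {ι : Type} [Fintype ι] {w : ι → VF R} {χ : ι → Fin r → ℤ}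
    (hw : Ind y w χ) (l : (Fin r → ℤ) →+ ℤ) (hl : Pos l y) {om : Fin r → ℤ}
    (htop : ∀ ψ, y.Pi ψ → (∀ i, ψ ≠ χ i) → l ψ < l om) (hpos : 0 < l om) {v : VF R}
    (hv : HV 𝒜 om v) (hr : RgV y.q v) : ∃ x : ι → FractionRing R,
      (∀ i, Rg y.q (x i) ∧ HK 𝒜 0 (χ i - om) (x i)) ∧ v = ∑ i, x i • w i :=
  H347.lf4_core H y hw l hl htop hpos hv hr

/-- A13 (Lemma L). -/
theorem lemmaL (H : Hyp 𝒜) (y : FP 𝒜) {ι : Type} [Fintype ι] {w : ι → VF R}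
    {χ : ι → Fin r → ℤ} (hw : Ind y w χ) (l : (Fin r → ℤ) →+ ℤ) {lam b : Fin r → ℤ} {dz : ℕ}
    {z : R} (hz : Crd y (-b) dz z) (hneg : ∀ ψ, y.Pi ψ → ψ ≠ -b → 0 ≤ l ψ)
    (htop : ∀ ψ, y.Pi ψ → (∀ i, ψ ≠ χ i) → l ψ < l lam + l b) (hlb : 0 < l b)
    (hpos : 0 < l lam + l b) {v : VF R} (hv : HV 𝒜 lam v) (k : ℕ)
    (hr : RM y.q (Set.range w) ((iK z) ^ k • v)) : RM y.q (Set.range w) v :=
  H347.lemmaL_core H y hw l hz hneg htop hlb hpos hv k hr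

end Vale.Agent.P280.N
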