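import Vale.Agent.P280.H347.Bad
import Vale.Agent.P280.H754.Low
import Mathlib.Order.PiLex
import Mathlib.Algebra.Order.Group.PiLex

/-! P280, plan N: package A15. -/

open DirectSum Vale.Agent.P280.T Vale.Agent.P280.H127

namespace Vale.Agent.P280.N

variable {r : ℕ} {R : Type} [CommRing R] [IsDomain R] [Algebra ℂ R]
  {𝒜 : ℕ × (Fin r → ℤ) → Submodule ℂ R} [GradedAlgebra 𝒜]

/-- The functional `(l, c, id)` in lexicographic order. -/
def lexF (l c : (Fin r → ℤ) →+ ℤ) : (Fin r → ℤ) →+ (ℤ ×ₗ (ℤ ×ₗ Lex (Fin r → ℤ))) where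
  toFun μ := toLex (l μ, toLex (c μ, toLex μ))
  map_zero' := by
    rw [map_zero, map_zero]
    rfl
  map_add' a b := by
    rw [map_add, map_add]
    rfl

theorem lexF_inj (l c : (Fin r → ℤ) →+ ℤ) : Function.Injective (lexF l c) := by
  intro a b h
  have h1 := congrArg Prod.snd (toLex.injective h)
  have h2 := congrArg Prod.snd (toLex.injective h1)
  exact toLex.injective h2

theorem fst_le_of_lexF_le {l c : (Fin r → ℤ) →+ ℤ} {a b : Fin r → ℤ}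
    (h : lexF l c a ≤ lexF l c b) : l a ≤ l b := by
  rcases Prod.Lex.le_iff.1 h with h | h
  · exact h.le
  · exact h.1.le

theorem lexF_neg {l c : (Fin r → ℤ) →+ ℤ} {a : Fin r → ℤ} (h0 : l a = 0) (h1 : c a < 0) :
    lexF l c a < 0 := by
  refine Prod.Lex.lt_iff.2 (Or.inr ⟨h0, ?_⟩)
  exact Prod.Lex.lt_iff.2 (Or.inl h1)

omit [GradedAlgebra 𝒜] in
/-- `Ind` after reindexing. -/
theorem Ind.reindex {y : FP 𝒜} {ι κ : Type} {w : ι → VF R} {χ : ι → Fin r → ℤ}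
    (h : Ind y w χ) (e : κ ≃ ι) : Ind y (w ∘ e) (χ ∘ e) where
  glob i := h.glob (e i)
  hv i := h.hv (e i)
  inj := h.inj.comp e.injective
  pi i := h.pi (e i)
  ne i := h.ne (e i)

theorem lpp_fin (H : Hyp 𝒜) (l c : (Fin r → ℤ) →+ ℤ) (hc : ∀ μ, Wt 𝒜 μ → c μ ≠ 0)
    (hlc : ∀ μ, Wt 𝒜 μ → (0 < l μ → 0 < c μ) ∧ (l μ < 0 → c μ < 0)) {k : ℕ}
    {W : Fin k → VF R} {χ : Fin k → Fin r → ℤ} (hw : ∀ y : FP 𝒜, Low l y → Ind y W χ)
    {lam : Fin r → ℤ} {v : VF R} (hv : HV 𝒜 lam v)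
    (h0 : ∀ y0 : FP 𝒜, Pos c y0 → RM y0.q (Set.range W) v)
    (hnot : ¬ ∀ y : FP 𝒜, Low l y → RM y.q (Set.range W) v) :
    ∃ (y : FP 𝒜) (b : Fin r → ℤ), Low l y ∧ ¬ RM y.q (Set.range W) v ∧ y.Pi (-b) ∧ 0 < c b ∧
      (∀ ψ, y.Pi ψ → ψ ≠ -b → 0 < c ψ) ∧
      ∀ d z, Crd y (-b) d z → ∃ k : ℕ, RM y.q (Set.range W) ((iK z) ^ k • v) := by
  have hX := H.hX
  push Not at hnot
  obtain ⟨y1, hy1, hr1⟩ := hnot
  have hI := hw y1 hy1
  have hD0 : ∀ i, ∃ D : Derivation ℂ R R, toVF D = W i ∧ H93.IsHField 𝒜 (χ i) D :=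
    fun i => Glob.exists_hder (hI.glob i) (hI.hv i)
  choose w hwW hwh using hD0
  obtain rfl : W = fun i => toVF (w i) := funext fun i => (hwW i).symm
  obtain ⟨N, γ, g, D, hg, hg0, hD, hDh⟩ := H900.exists_den hX hv
  have hbad : ∀ z : R →ₐ[ℂ] ℂ, ¬ RM z (Set.range fun i => toVF (w i)) v ↔
      ∀ x ∈ H347.polar w g D, z x = 0 := by
    intro z
    rw [H347.rm_iff_regMod hX hg0 hD, H347.regMod_iff_polar]
    push Not
    rfl
  obtain ⟨h1, η1, hh1, hdet1⟩ := H347.ind_det hX hI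
  have hdet0 : (H347.wm w h1).det ≠ 0 := by
    intro h0
    rw [h0, map_zero] at hdet1
    exact hdet1 rfl
  obtain ⟨γ0, q, hq0, hqI, hq1, hq2, ν, hν, f, hf, hqf⟩ := exists_lowest hX (lexF l c)
    (I := H347.polar w g D) (fun x hx i => H347.decompose_mem_polar (χ := χ) (η := η1)
      (κ := γ - lam)
      (fun i d m x hx => hwh i d m x hx) hh1
      (fun d m x hx => by
        have h2 := hDh d m x hx
        rwa [add_sub_assoc] at h2) hg hg0 hdet0 hx i) ⟨y1.q, (hbad y1.q).1 hr1, y1.nv⟩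
  have hfix : IsFixed 𝒜 q ν := by
    intro d m h hh hne
    apply lexF_inj l c
    rw [hq1 d m h hh hne, map_nsmul, hν]
  set y : FP 𝒜 := ⟨q, ν, hq0, hfix⟩ with hy
  -- `y` is in the lowest component for `l`
  have hlow : Low l y := by
    obtain ⟨m1, f1, hf1, hne1⟩ := (not_isVertex_iff hX.gen y1.q).1 y1.nv
    have h2 := hq2 1 m1 f1 hf1 (by
      rintro ⟨n, hn⟩
      have h3 := (hbad y1.q).1 hr1 _ hn
      rw [map_pow] at h3
      exact hne1 (eq_zero_of_pow_eq_zero h3))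
    have h4 : m1 = y1.ν := by
      have h5 := y1.fix 1 m1 f1 hf1 hne1
      rwa [one_smul] at h5
    rw [one_smul, ← hν, h4] at h2
    have h3 : l ν ≤ l y1.ν := fst_le_of_lexF_le h2
    intro d m h hh hne
    exact (nsmul_le_nsmul_right h3 d).trans (hy1 d m h hh hne)
  have hpos : Pos l y := low_pos hlow
  have hIy := hw y hlow
  obtain ⟨n, u, wt, G, hn⟩ := exists_params_T hX
      (f := rl (AddMonoidHom.id (Fin r → ℤ)) ν) hq0 (fix_of_isFixed hfix)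
  obtain ⟨ι, hι, hdet⟩ := H347.ind_params (y := y) hX hIy G hn
  have hrad : ∀ (d : ℕ) (m : Fin r → ℤ), lexF l c (m - d • ν) < 0 → ∀ x ∈ 𝒜 (d, m),
      x ∈ (H347.polar w g D).radical := by
    intro d m hlm x hx
    by_contra hcon
    have h2 := hq2 d m x hx hcon
    rw [map_sub, map_nsmul, hν, sub_neg] at hlm
    exact absurd hlm (not_lt.2 h2)
  obtain ⟨hs1, -⟩ := H347.local_step hX hq0 hfix G hn (χ := χ)
    (fun i d m x hx => hwh i d m x hx) hdet hg hg0 hDh hqI (fun m => lexF l c m < 0) hrad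
  -- weights at `y` which are negative for `c`
  have hneg : ∀ b, y.Pi b → c b < 0 → lexF l c b < 0 := by
    intro b hb hcb
    have h1 := hpos b hb
    rcases h1.lt_or_eq with h2 | h2
    · exact absurd ((hlc b hb.wt).1 h2) (by omega)
    · exact lexF_neg h2.symm hcb
  have huniq : ∀ b b', y.Pi b → y.Pi b' → c b < 0 → c b' < 0 → b = b' := by
    intro b b' hb hb' hcb hcb'
    obtain ⟨i0, hi0⟩ := wt_of_tangentWeight hX hfix G hn hb
    obtain ⟨i1, hi1⟩ := wt_of_tangentWeight hX hfix G hn hb'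
    rw [← hi0, ← hi1, hs1 i1 i0 (by rw [hi1]; exact hneg b' hb' hcb')
      (by rw [hi0]; exact hneg b hb hcb)]
  have hbady : ¬ RM y.q (Set.range fun i => toVF (w i)) v := (hbad q).2 hqI
  have hex : ∃ b, y.Pi b ∧ c b < 0 := by
    by_contra hcon
    push Not at hcon
    exact hbady (h0 y hcon)
  obtain ⟨b, hb, hcb⟩ := hex
  refine ⟨y, -b, hlow, hbady, by rwa [neg_neg], by rw [map_neg]; omega, ?_, ?_⟩
  · intro ψ hψ hne
    rw [neg_neg] at hne
    have h1 := hc ψ hψ.wt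
    by_contra hcon
    exact hne (huniq ψ b hψ hb (by omega) hcb)
  · intro d z hz
    rw [neg_neg] at hz
    obtain ⟨j, hj⟩ := hrad d (d • ν + b) (by rw [add_sub_cancel_left]; exact hneg b hb hcb) z hz.1
    refine ⟨j, ?_⟩
    have hD' : ∀ h, iK ((z ^ j • D) h) = iK g * ((iK z ^ j • v) (iK h)) := by
      intro h
      rw [Derivation.smul_apply, smul_eq_mul, iK_mul, hD, iK_pow, Derivation.smul_apply,
        smul_eq_mul]
      ring
    rw [H347.rm_iff_regMod hX hg0 hD', H347.regMod_iff_polar]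
    refine ⟨1, ?_, by rw [map_one]; exact one_ne_zero⟩
    obtain ⟨c', a, hc', H'⟩ := H347.mem_polar.1 hj
    refine H347.mem_polar.2 ⟨c', a, hc', fun x => ?_⟩
    obtain ⟨t, ht⟩ := H' x
    refine ⟨t, ?_⟩
    rw [← ht, Derivation.smul_apply, smul_eq_mul]
    ring

/-- A15 (LPP): the lowest polar point. -/
theorem lpp (H : Hyp 𝒜) (l c : (Fin r → ℤ) →+ ℤ) (hc : ∀ μ, Wt 𝒜 μ → c μ ≠ 0)
    (hlc : ∀ μ, Wt 𝒜 μ → (0 < l μ → 0 < c μ) ∧ (l μ < 0 → c μ < 0)) {ι : Type} [Fintype ι]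
    {w : ι → VF R} {χ : ι → Fin r → ℤ} (hw : ∀ y : FP 𝒜, Low l y → Ind y w χ)
    {lam : Fin r → ℤ} {v : VF R} (hv : HV 𝒜 lam v)
    (h0 : ∀ y0 : FP 𝒜, Pos c y0 → RM y0.q (Set.range w) v)
    (hnot : ¬ ∀ y : FP 𝒜, Low l y → RM y.q (Set.range w) v) :
    ∃ (y : FP 𝒜) (b : Fin r → ℤ), Low l y ∧ ¬ RM y.q (Set.range w) v ∧ y.Pi (-b) ∧ 0 < c b ∧
      (∀ ψ, y.Pi ψ → ψ ≠ -b → 0 < c ψ) ∧
      ∀ d z, Crd y (-b) d z → ∃ k : ℕ, RM y.q (Set.range w) ((iK z) ^ k • v) := by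
  classical
  have e : Fin (Fintype.card ι) ≃ ι := (Fintype.equivFin ι).symm
  have hr : Set.range (w ∘ e) = Set.range w := e.surjective.range_comp w
  rw [← hr] at h0 hnot ⊢
  exact lpp_fin H l c hc hlc (fun y hy => (hw y hy).reindex e) hv h0 hnot

end Vale.Agent.P280.N
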