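import Vale.Agent.P280.N.A06
import Vale.Agent.P280.N.A15

/-! P280, plan N: package A19. -/

open DirectSum Vale.Agent.P280.T Vale.Agent.P280.H127

namespace Vale.Agent.P280.N

variable {r : ℕ} {R : Type} [CommRing R] [IsDomain R] [Algebra ℂ R]
  {𝒜 : ℕ × (Fin r → ℤ) → Submodule ℂ R} [GradedAlgebra 𝒜]

namespace XF

theorem exists_coord (H : Hyp 𝒜) (y : FP 𝒜) {ψ : Fin r → ℤ} (h : y.Pi ψ) :
    ∃ d u, Crd y ψ d u := by
  obtain ⟨n, χ, -, h2, h3, -⟩ := coords H y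
  obtain ⟨i, rfl⟩ := (h2 ψ).1 h
  exact h3 i

theorem crd_ne_zero {y : FP 𝒜} {ψ : Fin r → ℤ} {d : ℕ} {z : R} (h : Crd y ψ d z) : z ≠ 0 := by
  rintro rfl
  obtain ⟨-, -, t, -, -, h1⟩ := h
  exact h1 (map_zero t)

/-- a functional which is positive on all weights at `y`, given one that is positive on all but
one. -/
theorem exists_functional (H : Hyp 𝒜) (y : FP 𝒜) (l : (Fin r → ℤ) →+ ℤ) {b : Fin r → ℤ}
    (hb0 : b ≠ 0) (hlb : l b = 0) (hl : ∀ ψ, y.Pi ψ → ψ ≠ b → 0 < l ψ) :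
    ∃ l' : (Fin r → ℤ) →+ ℤ, Pos l' y ∧ 0 < l' b := by
  classical
  obtain ⟨g, hg⟩ : ∃ g : (Fin r → ℤ) →+ ℤ, 0 < g b := by
    obtain ⟨i, hi⟩ : ∃ i, b i ≠ 0 := by
      by_contra h
      push Not at h
      exact hb0 (funext h)
    rcases lt_or_gt_of_ne hi with h | h
    · exact ⟨-(Pi.evalAddMonoidHom (fun _ : Fin r => ℤ) i), by
        rw [AddMonoidHom.neg_apply, Pi.evalAddMonoidHom_apply]
        omega⟩
    · exact ⟨Pi.evalAddMonoidHom (fun _ : Fin r => ℤ) i, by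
        rw [Pi.evalAddMonoidHom_apply]
        exact h⟩
  obtain ⟨n, χ, -, h2, -, -⟩ := coords H y
  have hM0 : 0 ≤ ∑ i, |g (χ i)| := Finset.sum_nonneg fun i _ => abs_nonneg _
  refine ⟨(∑ i, |g (χ i)|) • l + g, ?_, ?_⟩
  · intro ψ hψ
    rw [AddMonoidHom.add_apply, AddMonoidHom.smul_apply, smul_eq_mul]
    by_cases h : ψ = b
    · rw [h, hlb, mul_zero, zero_add]
      exact hg.le
    · have h1 := hl ψ hψ h
      obtain ⟨i, rfl⟩ := (h2 ψ).1 hψ
      have h3 : |g (χ i)| ≤ ∑ j, |g (χ j)| :=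
        Finset.single_le_sum (f := fun j => |g (χ j)|) (fun j _ => abs_nonneg _)
          (Finset.mem_univ i)
      have h4 := neg_abs_le (g (χ i))
      nlinarith
  · rw [AddMonoidHom.add_apply, AddMonoidHom.smul_apply, smul_eq_mul, hlb, mul_zero, zero_add]
    exact hg

theorem hk_zpow {d : ℤ} {m : Fin r → ℤ} {x : FractionRing R} (hx : HK 𝒜 d m x) (h0 : x ≠ 0)
    (k : ℤ) : HK 𝒜 (k * d) (k • m) (x ^ k) := by
  have key : ∀ n : ℕ, HK 𝒜 (n * d) ((n : ℤ) • m) (x ^ n) := by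
    intro n
    induction n with
    | zero =>
      rw [pow_zero]
      exact HK.one.cast (by simp) (by simp)
    | succ n ih =>
      rw [pow_succ]
      exact (ih.mul hx).cast (by push_cast; ring) (by push_cast; rw [add_smul, one_smul])
  rcases Int.eq_nat_or_neg k with ⟨n, rfl | rfl⟩
  · rw [zpow_natCast]
    exact key n
  · rw [zpow_neg, zpow_natCast]
    exact ((key n).inv (pow_ne_zero _ h0)).cast (by ring) (by rw [neg_smul])

theorem val_zpow {q : R →ₐ[ℂ] ℂ} {x : FractionRing R} {c : ℂ} (h : Val q x c) (hc : c ≠ 0)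
    (k : ℤ) : Val q (x ^ k) (c ^ k) := by
  rcases Int.eq_nat_or_neg k with ⟨n, rfl | rfl⟩
  · rw [zpow_natCast, zpow_natCast]
    exact h.pow n
  · rw [zpow_neg, zpow_natCast, zpow_neg, zpow_natCast]
    exact (h.pow n).inv (pow_ne_zero _ hc)

/-- Homogeneous regular functions on a line, at a fixed point: monomials in the coordinate. -/
theorem expand (H : Hyp 𝒜) (y : FP 𝒜) (l : (Fin r → ℤ) →+ ℤ) {b : Fin r → ℤ}
    (hlb : l b = 0) (hpi : y.Pi b) (hl : ∀ ψ, y.Pi ψ → ψ ≠ b → 0 < l ψ)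
    {dz : ℕ} {z : R} (hz : Crd y b dz z) {f : R} (hf : f ∈ 𝒜 (1, y.ν)) (hfq : y.q f ≠ 0)
    {d : ℤ} {m : Fin r → ℤ} {x : FractionRing R} (hx : HK 𝒜 d m x) (hr : Rg y.q x) (hx0 : x ≠ 0)
    (hm : l m = d * l y.ν) : ∃ (j : ℕ) (c : ℂ), c ≠ 0 ∧ m = d • y.ν + j • b ∧
      x = c • ((iK z) ^ j * (iK f) ^ (d - j * dz)) := by
  have hb0 : b ≠ 0 := by
    rintro rfl
    exact H.iso y.q y.ν y.nv y.fix hpi
  obtain ⟨l', hl', hl'b⟩ := exists_functional H y l hb0 hlb hl
  have hf0 : iK f ≠ 0 := iK_ne_zero (ne_zero_of_q hfq)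
  have hz0 : iK z ≠ 0 := iK_ne_zero (crd_ne_zero hz)
  have hz' : Crd y (-(-b)) dz z := by rw [neg_neg]; exact hz
  have hl2 : ∀ ψ, y.Pi ψ → ψ ≠ -(-b) → 0 < l ψ := by
    rw [neg_neg]
    exact hl
  have hzm : z ∈ 𝒜 (dz, dz • y.ν + b) := hz.1
  have hzK : HK 𝒜 dz (dz • y.ν + b) (iK z) := HK.ofR hzm
  have hfK : HK 𝒜 ((1 : ℕ) : ℤ) y.ν (iK f) := HK.ofR hf
  have key : ∀ (N : ℕ) (d : ℤ) (m : Fin r → ℤ) (x : FractionRing R), HK 𝒜 d m x → Rg y.q x →
      x ≠ 0 → l m = d * l y.ν → (l' m - d * l' y.ν).toNat ≤ N → ∃ (j : ℕ) (c : ℂ), c ≠ 0 ∧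
      m = d • y.ν + j • b ∧ x = c • ((iK z) ^ j * (iK f) ^ (d - j * dz)) := by
    intro N
    induction N with
    | zero =>
      intro d m x hx hr hx0 hm hN
      have h1 : ¬ l' m < d * l' y.ν := fun h => hx0 (lf1 H y l' hl' hx hr h)
      have h2 : l' m = d * l' y.ν := by omega
      obtain ⟨c, hc⟩ := hr.val
      by_cases hc0 : c = 0
      · exfalso
        subst hc0
        obtain ⟨x', hx', rfl⟩ := lf2' H y l hl2 hz' hx hr hm hc
        have h3 : HK 𝒜 (-(dz : ℤ) + d) (-(dz • y.ν + b) + m) ((iK z)⁻¹ * (iK z * x')) :=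
          (hzK.inv hz0).mul hx
        rw [← mul_assoc, inv_mul_cancel₀ hz0, one_mul] at h3
        have h4 : x' = 0 := by
          refine lf1 H y l' hl' h3 hx' ?_
          rw [map_add, map_neg, map_add, map_nsmul, nsmul_eq_mul, h2]
          linarith
        exact hx0 (by rw [h4, mul_zero])
      · have hmν : m = d • y.ν := hx.weight H.hX y.nv y.fix hc hc0
        refine ⟨0, c / (y.q f) ^ d, ?_, ?_, ?_⟩
        · exact div_ne_zero hc0 (zpow_ne_zero _ hfq)
        · rw [zero_smul, add_zero, hmν]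
        · have hfd := val_zpow (Val.iK (q := y.q) f) hfq (-d)
          have hfdK := hk_zpow hfK hf0 (-d)
          have h5 : HK 𝒜 0 0 (x * (iK f) ^ (-d) -
              algebraMap ℂ (FractionRing R) (c * (y.q f) ^ (-d))) := by
            refine HK.sub ((hx.mul hfdK).cast ?_ ?_) (HK.const _)
            · push_cast
              ring
            · rw [hmν, neg_smul, add_neg_cancel]
          have h6 : Val y.q (x * (iK f) ^ (-d) -
              algebraMap ℂ (FractionRing R) (c * (y.q f) ^ (-d))) 0 := by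
            have h7 := (hc.mul hfd).sub (Val.algebraMap (q := y.q) (c * (y.q f) ^ (-d)))
            rwa [sub_self] at h7
          obtain ⟨x', hx', h8⟩ := lf2' H y l hl2 hz' h5 h6.rg
            (by rw [map_zero, zero_mul]) h6
          have h9 : HK 𝒜 (-(dz : ℤ) + 0) (-(dz • y.ν + b) + 0) ((iK z)⁻¹ * (iK z * x')) :=
            (hzK.inv hz0).mul (h8 ▸ h5)
          rw [← mul_assoc, inv_mul_cancel₀ hz0, one_mul] at h9
          have h10 : x' = 0 := by
            refine lf1 H y l' hl' h9 hx' ?_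
            rw [add_zero, add_zero, map_neg, map_add, map_nsmul, nsmul_eq_mul]
            linarith
          rw [h10, mul_zero, sub_eq_zero] at h8
          have h11 : x = (x * (iK f) ^ (-d)) * (iK f) ^ d := by
            rw [mul_assoc, ← zpow_add₀ hf0, neg_add_cancel, zpow_zero, mul_one]
          rw [h11, h8, pow_zero, one_mul, Nat.cast_zero, zero_mul, sub_zero, zpow_neg,
            ← div_eq_mul_inv, Algebra.smul_def]
    | succ N ih =>
      intro d m x hx hr hx0 hm hN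
      have h1 : ¬ l' m < d * l' y.ν := fun h => hx0 (lf1 H y l' hl' hx hr h)
      obtain ⟨c, hc⟩ := hr.val
      by_cases hc0 : c = 0
      · subst hc0
        obtain ⟨x', hx', rfl⟩ := lf2' H y l hl2 hz' hx hr hm hc
        have h3 : HK 𝒜 (-(dz : ℤ) + d) (-(dz • y.ν + b) + m) ((iK z)⁻¹ * (iK z * x')) :=
          (hzK.inv hz0).mul hx
        rw [← mul_assoc, inv_mul_cancel₀ hz0, one_mul] at h3
        have hx'0 : x' ≠ 0 := by
          rintro rfl
          exact hx0 (mul_zero _)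
        have e1 : l (-(dz • y.ν + b) + m) = (-(dz : ℤ) + d) * l y.ν := by
          rw [map_add, map_neg, map_add, map_nsmul, nsmul_eq_mul, hlb, hm]
          ring
        have e2 : l' (-(dz • y.ν + b) + m) - (-(dz : ℤ) + d) * l' y.ν =
            (l' m - d * l' y.ν) - l' b := by
          rw [map_add, map_neg, map_add, map_nsmul, nsmul_eq_mul]
          ring
        have h4 : ¬ l' (-(dz • y.ν + b) + m) < (-(dz : ℤ) + d) * l' y.ν := fun h =>
          hx'0 (lf1 H y l' hl' h3 hx' h)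
        obtain ⟨j, c, hc, h5, h6⟩ := ih _ _ x' h3 hx' hx'0 e1 (by omega)
        refine ⟨j + 1, c, hc, ?_, ?_⟩
        · have h7 : m = (-(dz • y.ν + b) + m) + (dz • y.ν + b) := by abel
          rw [h7, h5, add_smul, neg_smul, succ_nsmul, natCast_zsmul]
          abel
        · rw [h6, mul_smul_comm, ← mul_assoc, ← pow_succ']
          congr 3
          push_cast
          ring
      · have hmν : m = d • y.ν := hx.weight H.hX y.nv y.fix hc hc0
        refine ih d m x hx hr hx0 hm ?_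
        rw [hmν, map_zsmul, smul_eq_mul, sub_self]
        simp
  exact key _ d m x hx hr hx0 hm le_rfl

end XF

/-- A19 (XF): the two ends of a line. -/
theorem xf (H : Hyp 𝒜) (l : (Fin r → ℤ) →+ ℤ) (y0 y : FP 𝒜) {a : Fin r → ℤ} (h0 : Low l y0)
    (h1 : Low l y) (ha : l a = 0) (ha0 : y0.Pi a) (ha1 : y.Pi (-a))
    (hl0 : ∀ ψ, y0.Pi ψ → ψ ≠ a → 0 < l ψ) (hl1 : ∀ ψ, y.Pi ψ → ψ ≠ -a → 0 < l ψ)
    (hnot : ¬ SamePoint 𝒜 y0.q y.q) : ∃ X : FractionRing R, HK 𝒜 0 a X ∧ Rg y0.q X ∧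
      ¬ Rg y.q X ∧ ∀ d z, Crd y (-a) d z → Rg y.q (iK z * X) := by
  have hane : a ≠ 0 := by
    rintro rfl
    exact H.iso y0.q y0.ν y0.nv y0.fix ha0
  obtain ⟨du, u, hu⟩ := XF.exists_coord H y0 ha0
  obtain ⟨f, hf, hfq⟩ := exists_deg_one_ne H.hX.gen y0.nv y0.fix
  obtain ⟨f1, hf1, hf1q⟩ := exists_deg_one_ne H.hX.gen y.nv y.fix
  have hf0 : iK f ≠ 0 := iK_ne_zero (ne_zero_of_q hfq)
  have hf10 : iK f1 ≠ 0 := iK_ne_zero (ne_zero_of_q hf1q)
  have hu0 : iK u ≠ 0 := iK_ne_zero (XF.crd_ne_zero hu)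
  have hlν : l y0.ν = l y.ν := by
    apply le_antisymm
    · have h2 := h0 1 y.ν f1 hf1 (ne_zero_of_q hf1q)
      rwa [one_smul] at h2
    · have h2 := h1 1 y0.ν f hf (ne_zero_of_q hfq)
      rwa [one_smul] at h2
  have hlna : l (-a) = 0 := by rw [map_neg, ha, neg_zero]
  have hfK : HK 𝒜 ((1 : ℕ) : ℤ) y0.ν (iK f) := HK.ofR hf
  have huK : HK 𝒜 (du : ℤ) (du • y0.ν + a) (iK u) := HK.ofR hu.1
  have hfu : HK 𝒜 (-(du : ℤ)) (-(du • y0.ν)) ((iK f) ^ du)⁻¹ := by
    have h2 := XF.hk_zpow hfK hf0 (-(du : ℤ))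
    rw [zpow_neg, zpow_natCast] at h2
    exact h2.cast (by push_cast; ring) (by rw [neg_smul, natCast_zsmul])
  have hX : HK 𝒜 0 a (iK u * ((iK f) ^ du)⁻¹) :=
    (huK.mul hfu).cast (by ring) (by abel)
  have hX0 : iK u * ((iK f) ^ du)⁻¹ ≠ 0 := mul_ne_zero hu0 (inv_ne_zero (pow_ne_zero _ hf0))
  refine ⟨iK u * ((iK f) ^ du)⁻¹, hX, ?_, ?_, ?_⟩
  · exact (Rg.iK u).mul (((Val.iK f).pow du).inv (pow_ne_zero _ hfq)).rg
  · intro hr
    obtain ⟨dz, z, hz⟩ := XF.exists_coord H y ha1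
    obtain ⟨j, c, -, h2, -⟩ := XF.expand H y l hlna ha1 hl1 hz hf1 hf1q hX hr hX0
      (by rw [ha, zero_mul])
    rw [zero_smul, zero_add, smul_neg, eq_neg_iff_add_eq_zero, ← succ_nsmul'] at h2
    have h3 : ((j + 1 : ℕ) : ℤ) • a = 0 := by rw [natCast_zsmul]; exact h2
    rcases smul_eq_zero.1 h3 with h4 | h4
    · omega
    · exact hane h4
  · intro dz z hz
    have hz0 : iK z ≠ 0 := iK_ne_zero (XF.crd_ne_zero hz)
    obtain ⟨j, c, hc, h2, h3⟩ := XF.expand H y l hlna ha1 hl1 hz hf1 hf1q huK (Rg.iK u) hu0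
      (by rw [map_add, ha, add_zero, map_nsmul, nsmul_eq_mul, hlν])
    obtain ⟨k, c', hc', h4, h5⟩ := XF.expand H y l hlna ha1 hl1 hz hf1 hf1q hfK (Rg.iK f) hf0
      (by rw [hlν]; push_cast; ring)
    -- the exponents
    have h6 : j + 1 = du * k := by
      have h7 : ((j + 1 : ℕ) : ℤ) • a = ((du * k : ℕ) : ℤ) • a := by
        funext i
        have h8 := congrFun h2 i
        have h9 := congrFun h4 i
        simp only [Pi.add_apply, Pi.smul_apply, Pi.neg_apply, smul_eq_mul, nsmul_eq_mul,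
          Pi.mul_apply, Pi.natCast_apply] at h8 h9
        simp only [Pi.smul_apply, smul_eq_mul]
        push_cast at h8 h9 ⊢
        linear_combination h8 - du * h9
      have h8 : (((j + 1 : ℕ) : ℤ) - ((du * k : ℕ) : ℤ)) • a = 0 := by
        rw [sub_smul, h7, sub_self]
      rcases smul_eq_zero.1 h8 with h9 | h9
      · omega
      · exact absurd h9 hane
    have h7 : iK z * (iK u * ((iK f) ^ du)⁻¹) = (c * (c' ^ du)⁻¹) • (iK f1) ^ (dz : ℤ) := by
      have hc1 : algebraMap ℂ (FractionRing R) c' ≠ 0 := by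
        rw [Ne, map_eq_zero]
        exact hc'
      rw [h3, h5, Algebra.smul_def, Algebra.smul_def, Algebra.smul_def, map_mul, map_inv₀, map_pow,
        mul_pow, mul_pow, mul_inv, mul_inv, ← pow_mul]
      have e1 : k * du = j + 1 := by rw [h6, mul_comm]
      have e2 : ((iK f1) ^ (((1 : ℕ) : ℤ) - k * dz)) ^ du = (iK f1) ^ ((du : ℤ) - j * dz - dz) := by
        rw [← zpow_natCast, ← zpow_mul]
        congr 1
        have e3 : ((k : ℤ)) * du = j + 1 := by exact_mod_cast e1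
        push_cast
        linear_combination (-(dz : ℤ)) * e3
      have e4 : (iK f1) ^ ((du : ℤ) - j * dz) = (iK f1) ^ ((du : ℤ) - j * dz - dz) *
          (iK f1) ^ (dz : ℤ) := by
        rw [← zpow_add₀ hf10]
        congr 1
        ring
      rw [e2, e4, e1, pow_succ]
      have e5 : (iK f1) ^ ((du : ℤ) - j * dz - dz) ≠ 0 := zpow_ne_zero _ hf10
      field_simp
    rw [h7]
    exact ((XF.val_zpow (Val.iK f1) hf1q _).rg).smul _

end Vale.Agent.P280.N
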