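import Vale.Agent.P280.H83.Api3
import Vale.Agent.P280.H981.Sl2
import Vale.Agent.P280.H754.Low

/-! P280, plan N: package C00. -/

open DirectSum Vale.Agent.P280.T Vale.Agent.P280.H127

namespace Vale.Agent.P280.N

variable {r : ℕ} {R : Type} [CommRing R] [IsDomain R] [Algebra ℂ R]
  {𝒜 : ℕ × (Fin r → ℤ) → Submodule ℂ R} [GradedAlgebra 𝒜]

/-- The sl2 relations of a root, without the bounds (for C05 - C07). -/
structure Root0 (𝒜 : ℕ × (Fin r → ℤ) → Submodule ℂ R) (N : ℤ) (χ : Fin r → ℤ)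
    (β : (Fin r → ℤ) →+ ℤ) (E F : VF R) : Prop where
  globE : Glob E
  globF : Glob F
  hvE : HV 𝒜 χ E
  hvF : HV 𝒜 (-χ) F
  two : β χ = 2 * N
  br : ∃ α : ℂ, ∀ d m, ∀ h ∈ 𝒜 (d, m), ⁅E, F⁆ (iK h) = -(((d : ℂ) * α + (β m : ℂ)) • iK h)

end Vale.Agent.P280.N
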