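import Vale.Agent.P280.N.C00

/-! P280, plan N: package C05. -/

open DirectSum Vale.Agent.P280.T Vale.Agent.P280.H127

namespace Vale.Agent.P280.N

section ladder

variable {V : Type*} [AddCommGroup V] [Module ℂ V] {e f h : V →ₗ[ℂ] V} {N : ℂ}

/-- weights along the ladder -/
theorem ladder_wt {c : ℂ} (h2 : ∀ x, h (e x) - e (h x) = c • e x) {x : V} {w : ℂ}
    (hx : h x = w • x) (j : ℕ) : h (e^[j] x) = (w + c * j) • e^[j] x := by
  induction j with
  | zero => simpa using hx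
  | succ j ih =>
    rw [Function.iterate_succ_apply']
    have h3 := h2 (e^[j] x)
    rw [ih, map_smul] at h3
    rw [sub_eq_iff_eq_add.1 h3, ← add_smul]
    congr 1
    push_cast
    ring

/-- `e ^ (j + 1) f x` -/
theorem ladder_one (h1 : ∀ x, e (f x) - f (e x) = h x)
    (h2 : ∀ x, h (e x) - e (h x) = (2 * N) • e x) {x : V} {w : ℂ} (hx : h x = w • x) (j : ℕ) :
    e^[j + 1] (f x) = f (e^[j + 1] x) + (((j : ℂ) + 1) * (w + N * j)) • e^[j] x := by
  induction j with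
  | zero =>
    have h3 := h1 x
    rw [hx] at h3
    simp only [zero_add, Function.iterate_one, Function.iterate_zero, id_eq, Nat.cast_zero,
      mul_zero, add_zero, one_mul]
    rw [sub_eq_iff_eq_add.1 h3, add_comm]
  | succ j ih =>
    rw [Function.iterate_succ_apply' e (j + 1) (f x), ih, map_add, map_smul,
      ← Function.iterate_succ_apply' e j x]
    have h3 := h1 (e^[j + 1] x)
    rw [ladder_wt h2 hx (j + 1)] at h3
    rw [sub_eq_iff_eq_add.1 h3, ← Function.iterate_succ_apply' e (j + 1) x]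
    rw [add_comm ((w + 2 * N * ((j + 1 : ℕ) : ℂ)) • e^[j + 1] x), add_assoc, ← add_smul]
    congr 2
    push_cast
    ring

/-- the ladder does not vanish -/
theorem ladder_ne (h1 : ∀ x, e (f x) - f (e x) = h x)
    (h2 : ∀ x, h (e x) - e (h x) = (2 * N) • e x)
    (h3 : ∀ x, h (f x) - f (h x) = (-(2 * N)) • f x) {x : V} {w : ℂ} (hx : h x = w • x) {j : ℕ}
    (hj : e^[j] x ≠ 0) (hj1 : e^[j + 1] x = 0) (i : ℕ)
    (hw : ∀ i' < i, w + N * ((j : ℂ) - i') ≠ 0) :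
    e^[j + i] (f^[i] x) ≠ 0 ∧ e^[j + i + 1] (f^[i] x) = 0 := by
  induction i with
  | zero => exact ⟨hj, hj1⟩
  | succ i ih =>
    obtain ⟨h4, h5⟩ := ih fun i' hi' => hw i' (Nat.lt_succ_of_lt hi')
    have h6 := ladder_wt h3 hx i
    have h7 := ladder_one h1 h2 h6 (j + i)
    rw [h5, map_zero, zero_add] at h7
    rw [Function.iterate_succ_apply' f i x]
    have h8 : (((j + i : ℕ) : ℂ) + 1) * (w + -(2 * N) * i + N * ((j + i : ℕ) : ℂ)) ≠ 0 := by
      refine mul_ne_zero ?_ ?_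
      · exact_mod_cast Nat.succ_ne_zero (j + i)
      · have h9 := hw i (Nat.lt_succ_self i)
        intro h0
        apply h9
        rw [← h0]
        push_cast
        ring
    constructor
    · rw [← add_assoc, h7]
      exact smul_ne_zero h8 h4
    · rw [← add_assoc, Function.iterate_succ_apply', h7, map_smul,
        ← Function.iterate_succ_apply' e (j + i), h5, smul_zero]

theorem exists_top {x : V} (hx : x ≠ 0) (hk : ∃ k : ℕ, e^[k] x = 0) :
    ∃ j : ℕ, e^[j] x ≠ 0 ∧ e^[j + 1] x = 0 := by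
  classical
  have h1 := Nat.find_spec hk
  have h2 : Nat.find hk ≠ 0 := by
    intro h0
    rw [h0] at h1
    exact hx h1
  obtain ⟨j, hj⟩ := Nat.exists_eq_succ_of_ne_zero h2
  refine ⟨j, ?_, ?_⟩
  · exact Nat.find_min hk (by omega)
  · rw [hj] at h1
    exact h1

theorem iterate_zero' (g : V →ₗ[ℂ] V) (k : ℕ) : g^[k] 0 = 0 := by
  induction k with
  | zero => rfl
  | succ k ih => rw [Function.iterate_succ_apply', ih, map_zero]

/-- the weight of a vector is an integer multiple of `N` -/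
theorem ladder_int (h1 : ∀ x, e (f x) - f (e x) = h x)
    (h2 : ∀ x, h (e x) - e (h x) = (2 * N) • e x)
    (h3 : ∀ x, h (f x) - f (h x) = (-(2 * N)) • f x) {x : V} {w : ℂ} (hx : h x = w • x) {j : ℕ}
    (hj : e^[j] x ≠ 0) (hj1 : e^[j + 1] x = 0) (hf : ∃ k : ℕ, f^[k] x = 0) :
    ∃ i : ℕ, w = N * ((i : ℂ) - j) := by
  by_contra hcon
  push Not at hcon
  obtain ⟨k, hk⟩ := hf
  obtain ⟨h4, -⟩ := ladder_ne h1 h2 h3 hx hj hj1 k (fun i' _ h0 => hcon i' (by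
    linear_combination h0))
  apply h4
  rw [hk]
  exact iterate_zero' e _

end ladder

variable {r : ℕ} {R : Type} [CommRing R] [IsDomain R] [Algebra ℂ R]
  {𝒜 : ℕ × (Fin r → ℤ) → Submodule ℂ R} [GradedAlgebra 𝒜]

/-- a field which kills the elements of degree one is zero -/
theorem vf_eq_zero_one (hX : IsTorusManifold 𝒜) {v : VF R}
    (h : ∀ m, ∀ a ∈ 𝒜 (1, m), v (iK a) = 0) : v = 0 := by
  refine vf_ext fun a => ?_
  rw [Derivation.zero_apply]
  have ha : a ∈ Algebra.adjoin ℂ {h : R | ∃ m : Fin r → ℤ, h ∈ 𝒜 (1, m)} := by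
    rw [hX.gen]
    trivial
  induction ha using Algebra.adjoin_induction with
  | mem x hx =>
    obtain ⟨m, hm⟩ := hx
    exact h m x hm
  | algebraMap c =>
    have h1 : iK (algebraMap ℂ R c) = algebraMap ℂ (FractionRing R) c :=
      (IsScalarTower.algebraMap_apply ℂ R (FractionRing R) c).symm
    rw [h1, Derivation.map_algebraMap]
  | add x y _ _ hx hy => rw [iK_add, map_add, hx, hy, add_zero]
  | mul x y _ _ hx hy => rw [iK_mul, Derivation.leibniz, hx, hy, smul_zero, smul_zero, add_zero]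

theorem Root0.symm {N : ℤ} {χ : Fin r → ℤ} {β : (Fin r → ℤ) →+ ℤ} {E F : VF R}
    (hr : Root0 𝒜 N χ β E F) : Root0 𝒜 N (-χ) (-β) F E where
  globE := hr.globF
  globF := hr.globE
  hvE := hr.hvF
  hvF := hr.hvE.cast (neg_neg χ).symm
  two := by
    rw [AddMonoidHom.neg_apply, map_neg, neg_neg]
    exact hr.two
  br := by
    obtain ⟨α, hα⟩ := hr.br
    refine ⟨-α, fun d m h hh => ?_⟩
    rw [← lie_skew, Derivation.neg_apply, hα d m h hh, AddMonoidHom.neg_apply]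
    congr 1
    rw [← neg_smul]
    congr 1
    push_cast
    ring

/-- the action of `[E, F]` on a field of weight `ω` -/
theorem Root0.lie_lie {N : ℤ} {χ : Fin r → ℤ} {β : (Fin r → ℤ) →+ ℤ} {E F : VF R}
    (hr : Root0 𝒜 N χ β E F) {D : VF R} (hD : Glob D) {ω : Fin r → ℤ} (hDv : HV 𝒜 ω D) :
    ⁅⁅E, F⁆, D⁆ = ((β ω : ℤ) : ℂ) • D := by
  obtain ⟨α, hα⟩ := hr.br
  refine vf_ext_hom (𝒜 := 𝒜) fun d m h hh => ?_
  obtain ⟨a, ha⟩ := hD h
  have hm : a ∈ 𝒜 (d, m - ω) := by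
    have h1 := hDv d m h hh
    rw [ha] at h1
    exact h1.mem
  rw [Derivation.commutator_apply, Derivation.smul_apply, ha, hα d (m - ω) a hm, hα d m h hh,
    map_neg, Derivation.map_smul, ha, map_sub]
  rw [← neg_smul, ← neg_smul, ← sub_smul]
  congr 1
  push_cast
  ring

theorem iter_glob {E D : VF R} (hE : Glob E) (hD : Glob D) (k : ℕ) :
    Glob ((fun X : VF R => ⁅E, X⁆)^[k] D) := by
  induction k with
  | zero => exact hD
  | succ k ih =>
    rw [Function.iterate_succ_apply']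
    exact hE.lie ih

theorem iter_hv {E D : VF R} {χ ω : Fin r → ℤ} (hE : HV 𝒜 χ E) (hD : HV 𝒜 ω D) (k : ℕ) :
    HV 𝒜 (ω + k • χ) ((fun X : VF R => ⁅E, X⁆)^[k] D) := by
  induction k with
  | zero => exact hD.cast (by rw [zero_smul, add_zero])
  | succ k ih =>
    rw [Function.iterate_succ_apply']
    exact (hE.lie ih).cast (by rw [succ_nsmul]; abel)

/-- `ad E` is locally nilpotent -/
theorem iter_nil (hX : IsTorusManifold 𝒜) {E D : VF R} {χ ω : Fin r → ℤ} (hχ : χ ≠ 0)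
    (hE : Glob E) (hEv : HV 𝒜 χ E) (hD : Glob D) (hDv : HV 𝒜 ω D) :
    ∃ k : ℕ, (fun X : VF R => ⁅E, X⁆)^[k] D = 0 := by
  classical
  by_contra hcon
  push Not at hcon
  have hfin : (H587.wts 𝒜).Finite := finite_weights hX
  have hfin2 : (Set.image2 (fun a b => a - b) (H587.wts 𝒜) (H587.wts 𝒜)).Finite :=
    hfin.image2 _ hfin
  refine Set.infinite_of_injective_forall_mem (f := fun k : ℕ => ω + k • χ) ?_ ?_ hfin2
  · intro a b hab
    have h1 : a • χ = b • χ := add_left_cancel hab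
    have h2 : ∃ i, χ i ≠ 0 := Function.ne_iff.1 hχ
    obtain ⟨i, hi⟩ := h2
    have h3 := congrFun h1 i
    rw [Pi.smul_apply, Pi.smul_apply, nsmul_eq_mul, nsmul_eq_mul] at h3
    exact_mod_cast mul_right_cancel₀ hi h3
  · intro k
    have h1 := hcon k
    have h2 : ∃ m, ∃ a ∈ 𝒜 (1, m), ((fun X : VF R => ⁅E, X⁆)^[k] D) (iK a) ≠ 0 := by
      by_contra h0
      push Not at h0
      exact h1 (vf_eq_zero_one hX h0)
    obtain ⟨m, a, ha, hne⟩ := h2
    obtain ⟨b, hb⟩ := iter_glob hE hD k a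
    have h3 := iter_hv hEv hDv k 1 m a ha
    rw [hb] at h3 hne
    refine ⟨m, ⟨a, ha, ?_⟩, m - (ω + k • χ), ⟨b, h3.mem, ?_⟩, sub_sub_cancel _ _⟩
    · rintro rfl
      apply hne
      rw [← hb, iK_zero, map_zero]
    · rintro rfl
      exact hne iK_zero

/-- `ad E` as a linear map -/
noncomputable def adl (E : VF R) : VF R →ₗ[ℂ] VF R where
  toFun X := ⁅E, X⁆
  map_add' X Y := vlie_add E X Y
  map_smul' t X := vlie_smul t E X

theorem adl_apply (E X : VF R) : adl E X = ⁅E, X⁆ := rfl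

theorem adl_iterate (E : VF R) (k : ℕ) (D : VF R) :
    (adl E)^[k] D = (fun X : VF R => ⁅E, X⁆)^[k] D := rfl

theorem Root0.rel {N : ℤ} {χ : Fin r → ℤ} {β : (Fin r → ℤ) →+ ℤ} {E F : VF R}
    (hr : Root0 𝒜 N χ β E F) :
    ⁅⁅E, F⁆, E⁆ = (2 * (N : ℂ)) • E ∧ ⁅⁅E, F⁆, F⁆ = (-(2 * (N : ℂ))) • F := by
  constructor
  · rw [hr.lie_lie hr.globE hr.hvE, hr.two]
    push_cast
    rfl
  · rw [hr.lie_lie hr.globF hr.hvF, map_neg, hr.two]
    push_cast
    rfl

theorem Root0.ne {N : ℤ} (hN : 0 < N) {χ : Fin r → ℤ} {β : (Fin r → ℤ) →+ ℤ} {E F : VF R}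
    (hr : Root0 𝒜 N χ β E F) : χ ≠ 0 := by
  rintro rfl
  have h1 := hr.two
  rw [map_zero] at h1
  omega

theorem root_pos_aux (H : Hyp 𝒜) {N : ℤ} (hN : 0 < N) {χ : Fin r → ℤ} {β : (Fin r → ℤ) →+ ℤ}
    {E F : VF R} (hr : Root0 𝒜 N χ β E F) {D : VF R} (hD : Glob D) {ω : Fin r → ℤ}
    (hDv : HV 𝒜 ω D) (hne : D ≠ 0) :
    (⁅E, D⁆ = 0 → 0 ≤ β ω) ∧
      (∀ k : ℕ, β ω = k * N → (fun X : VF R => ⁅F, X⁆)^[k] D ≠ 0) := by
  have hχ := hr.ne hN
  have hN0 : (N : ℂ) ≠ 0 := by exact_mod_cast hN.ne'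
  have h1 : ∀ X, adl E (adl F X) - adl F (adl E X) = adl ⁅E, F⁆ X := by
    intro X
    rw [adl_apply, adl_apply, adl_apply, adl_apply, adl_apply, vlie_lie]
  have h2 : ∀ X, adl ⁅E, F⁆ (adl E X) - adl E (adl ⁅E, F⁆ X) = (2 * (N : ℂ)) • adl E X := by
    intro X
    rw [adl_apply, adl_apply, adl_apply, adl_apply, ← vlie_lie, hr.rel.1, vsmul_lie]
  have h3 : ∀ X, adl ⁅E, F⁆ (adl F X) - adl F (adl ⁅E, F⁆ X) = (-(2 * (N : ℂ))) • adl F X := by
    intro X
    rw [adl_apply, adl_apply, adl_apply, adl_apply, ← vlie_lie, hr.rel.2, vsmul_lie]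
  have hx : adl ⁅E, F⁆ D = ((β ω : ℤ) : ℂ) • D := hr.lie_lie hD hDv
  have hnE : ∃ k : ℕ, (adl E)^[k] D = 0 := iter_nil H.hX hχ hr.globE hr.hvE hD hDv
  have hnF : ∃ k : ℕ, (adl F)^[k] D = 0 :=
    iter_nil H.hX (neg_ne_zero.2 hχ) hr.globF hr.hvF hD hDv
  constructor
  · intro h0
    obtain ⟨i, hi⟩ := ladder_int h1 h2 h3 hx (j := 0) hne h0 hnF
    rw [Nat.cast_zero, sub_zero] at hi
    have h4 : β ω = N * i := by exact_mod_cast hi
    rw [h4]
    positivity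
  · intro k hk h0
    obtain ⟨j, hj, hj1⟩ := exists_top (e := adl E) hne hnE
    obtain ⟨h4, -⟩ := ladder_ne h1 h2 h3 hx hj hj1 k (by
      intro i' hi' h5
      rw [hk] at h5
      push_cast at h5
      have h6 : (N : ℂ) * ((k : ℂ) + j - i') = 0 := by linear_combination h5
      rcases mul_eq_zero.1 h6 with h7 | h7
      · exact hN0 h7
      · have h8 : (k : ℂ) + j = i' := by linear_combination h7
        have h9 : k + j = i' := by exact_mod_cast h8
        omega)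
    apply h4
    rw [adl_iterate F k D, h0]
    exact iterate_zero' _ _

/-- C05. sl2 representation theory for the adjoint action. -/
theorem root_pos (H : Hyp 𝒜) {N : ℤ} (hN : 0 < N) {χ : Fin r → ℤ} {β : (Fin r → ℤ) →+ ℤ}
    {E F : VF R} (hr : Root0 𝒜 N χ β E F) {D : VF R} (hD : Glob D) {ω : Fin r → ℤ}
    (hDv : HV 𝒜 ω D) (hne : D ≠ 0) :
    (⁅E, D⁆ = 0 → 0 ≤ β ω) ∧ (⁅F, D⁆ = 0 → β ω ≤ 0) ∧
      (⁅F, ⁅F, D⁆⁆ = 0 → β ω ≠ 2 * N) ∧
      (∀ k : ℕ, β ω = k * N → (fun X : VF R => ⁅F, X⁆)^[k] D ≠ 0) ∧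
      ∀ k : ℕ, β ω = -(k * N) → (fun X : VF R => ⁅E, X⁆)^[k] D ≠ 0 := by
  obtain ⟨h1, h2⟩ := root_pos_aux H hN hr hD hDv hne
  obtain ⟨h3, h4⟩ := root_pos_aux H hN hr.symm hD hDv hne
  refine ⟨h1, fun h => ?_, fun h h5 => ?_, h2, fun k hk => ?_⟩
  · have h5 := h3 h
    rw [AddMonoidHom.neg_apply] at h5
    omega
  · exact h2 2 (by rw [h5]; norm_num) h
  · exact h4 k (by rw [AddMonoidHom.neg_apply, hk, neg_neg])

/-- the derivation `E` as a linear map -/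
theorem app_nil (hX : IsTorusManifold 𝒜) {E : VF R} {χ : Fin r → ℤ} (hχ : χ ≠ 0)
    (hE : Glob E) (hEv : HV 𝒜 χ E) {m : Fin r → ℤ} {a : R} (ha : a ∈ 𝒜 (1, m)) :
    ∃ k : ℕ, (E : FractionRing R →ₗ[ℂ] FractionRing R)^[k] (iK a) = 0 := by
  classical
  by_contra hcon
  push Not at hcon
  have hfin : (H587.wts 𝒜).Finite := finite_weights hX
  have key : ∀ k : ℕ, ∃ b ∈ 𝒜 (1, m - k • χ),
      (E : FractionRing R →ₗ[ℂ] FractionRing R)^[k] (iK a) = iK b := by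
    intro k
    induction k with
    | zero => exact ⟨a, by rwa [zero_smul, sub_zero], rfl⟩
    | succ k ih =>
      obtain ⟨b, hb, hb'⟩ := ih
      rw [Function.iterate_succ_apply', hb']
      obtain ⟨c, hc⟩ := hE b
      have h1 := hEv 1 _ b hb
      rw [hc] at h1
      refine ⟨c, ?_, hc⟩
      have h2 := h1.mem
      have h3 : m - k • χ - χ = m - (k + 1) • χ := by
        rw [succ_nsmul]
        abel
      rwa [h3] at h2
  refine Set.infinite_of_injective_forall_mem (f := fun k : ℕ => m - k • χ) ?_ ?_ hfin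
  · intro a b hab
    have h1 : a • χ = b • χ := sub_right_injective hab
    have h2 : ∃ i, χ i ≠ 0 := Function.ne_iff.1 hχ
    obtain ⟨i, hi⟩ := h2
    have h3 := congrFun h1 i
    rw [Pi.smul_apply, Pi.smul_apply, nsmul_eq_mul, nsmul_eq_mul] at h3
    exact_mod_cast mul_right_cancel₀ hi h3
  · intro k
    obtain ⟨b, hb, hb'⟩ := key k
    refine ⟨b, hb, ?_⟩
    rintro rfl
    exact hcon k (by rw [hb', iK_zero])

theorem root_int_one (H : Hyp 𝒜) {N : ℤ} (hN : 0 < N) {χ : Fin r → ℤ} {β : (Fin r → ℤ) →+ ℤ}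
    {E F : VF R} (hr : Root0 𝒜 N χ β E F) {α : ℂ}
    (hα : ∀ d m, ∀ h ∈ 𝒜 (d, m), ⁅E, F⁆ (iK h) = -(((d : ℂ) * α + (β m : ℂ)) • iK h))
    {m : Fin r → ℤ} (hm : m ∈ H587.wts 𝒜) : ∃ a : ℤ, -(α + (β m : ℂ)) = (N : ℂ) * a := by
  obtain ⟨a, ha, ha0⟩ := hm
  have hχ := hr.ne hN
  let e : FractionRing R →ₗ[ℂ] FractionRing R := E
  let f : FractionRing R →ₗ[ℂ] FractionRing R := F
  let h : FractionRing R →ₗ[ℂ] FractionRing R := (⁅E, F⁆ : VF R)
  have h1 : ∀ x, e (f x) - f (e x) = h x := fun x => (Derivation.commutator_apply x).symm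
  have h2 : ∀ x, h (e x) - e (h x) = (2 * (N : ℂ)) • e x := by
    intro x
    have h3 : (⁅⁅E, F⁆, E⁆ : VF R) x = ((2 * (N : ℂ)) • E : VF R) x := by rw [hr.rel.1]
    rw [Derivation.commutator_apply, Derivation.smul_apply] at h3
    exact h3
  have h3 : ∀ x, h (f x) - f (h x) = (-(2 * (N : ℂ))) • f x := by
    intro x
    have h3 : (⁅⁅E, F⁆, F⁆ : VF R) x = ((-(2 * (N : ℂ))) • F : VF R) x := by rw [hr.rel.2]
    rw [Derivation.commutator_apply, Derivation.smul_apply] at h3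
    exact h3
  have hx : h (iK a) = (-(α + (β m : ℂ))) • iK a := by
    have h4 := hα 1 m a ha
    rw [Nat.cast_one, one_mul, ← neg_smul] at h4
    exact h4
  have hne : iK a ≠ 0 := iK_ne_zero ha0
  have hnE : ∃ k : ℕ, e^[k] (iK a) = 0 := app_nil H.hX hχ hr.globE hr.hvE ha
  have hnF : ∃ k : ℕ, f^[k] (iK a) = 0 := app_nil H.hX (neg_ne_zero.2 hχ) hr.globF hr.hvF ha
  obtain ⟨j, hj, hj1⟩ := exists_top (e := e) hne hnE
  obtain ⟨i, hi⟩ := ladder_int h1 h2 h3 hx hj hj1 hnF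
  exact ⟨(i : ℤ) - j, by rw [hi]; push_cast; ring⟩

/-- C06. Integrality. -/
theorem root_int (H : Hyp 𝒜) {N : ℤ} (hN : 0 < N) {χ : Fin r → ℤ} {β : (Fin r → ℤ) →+ ℤ}
    {E F : VF R} (hr : Root0 𝒜 N χ β E F) {ω : Fin r → ℤ} (hω : Wt 𝒜 ω) : N ∣ β ω := by
  obtain ⟨y, hy⟩ := hω
  obtain ⟨h1, h2⟩ := H587.tangentWeight_mem H.hX y.nv y.fix hy
  obtain ⟨α, hα⟩ := hr.br
  obtain ⟨a, ha⟩ := root_int_one H hN hr hα h1
  obtain ⟨b, hb⟩ := root_int_one H hN hr hα h2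
  refine ⟨a - b, ?_⟩
  have h3 : ((β ω : ℤ) : ℂ) = ((N * (a - b) : ℤ) : ℂ) := by
    rw [map_add] at hb
    push_cast at hb ⊢
    linear_combination ha - hb
  exact_mod_cast h3

end Vale.Agent.P280.N
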