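import Vale.Agent.P280.H83.Api3
import Vale.Agent.P280.H981.Sl2
import Vale.Agent.P280.H754.Low
import Vale.Agent.P280.H93.E1

/-! P280, plan N: package A14. -/

open DirectSum Vale.Agent.P280.T Vale.Agent.P280.H127

namespace Vale.Agent.P280.N

variable {r : ℕ} {R : Type} [CommRing R] [IsDomain R] [Algebra ℂ R]
  {𝒜 : ℕ × (Fin r → ℤ) → Submodule ℂ R} [GradedAlgebra 𝒜]

/-- A14 (LOCV). -/
theorem locv (H : Hyp 𝒜) (y : FP 𝒜) {lam : Fin r → ℤ} {t : R →ₗ[ℂ] ℂ} (ht : IsTangent y.q t)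
    (hw : HasWeight 𝒜 y.ν lam t) : ∃ v : VF R, HV 𝒜 lam v ∧ ValV y.q v t := by
  obtain ⟨C, hC⟩ := H93.exists_shift_der H.hX y.nv y.fix ht hw
  obtain ⟨E, hE, hEv⟩ := hC C le_rfl
  obtain ⟨f, hf, hfy⟩ := exists_deg_one_ne H.hX.gen y.nv y.fix
  have hg : f ^ C ∈ 𝒜 (C, C • y.ν) := by
    have h1 := SetLike.pow_mem_graded C hf
    have e : C • ((1, y.ν) : ℕ × (Fin r → ℤ)) = (C, C • y.ν) := by
      ext <;> simp
    rw [e] at h1
    exact h1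
  have hgq : y.q (f ^ C) ≠ 0 := by
    rw [map_pow]
    exact pow_ne_zero _ hfy
  have hg0 : f ^ C ≠ 0 := ne_zero_of_q hgq
  have hK : iK (f ^ C) ≠ 0 := iK_ne_zero hg0
  have hval : ∀ h : R, iK (f ^ C) *
      ((((y.q (f ^ C)) • (iK (f ^ C))⁻¹) • toVF E : VF R) (iK h)) =
        iK ((y.q (f ^ C)) • E h) := by
    intro h
    rw [Derivation.smul_apply, toVF_iK, iK_smul, smul_eq_mul, smul_mul_assoc, mul_smul_comm,
      mul_inv_cancel_left₀ hK]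
  refine ⟨((y.q (f ^ C)) • (iK (f ^ C))⁻¹) • toVF E, ?_, ?_⟩
  · intro d m h hh
    refine ⟨d + C, C, m + C • y.ν - lam, C • y.ν, (y.q (f ^ C)) • E h,
      Submodule.smul_mem _ _ (hE d m h hh), f ^ C, hg, hg0, hval h, ?_, ?_⟩
    · push_cast
      ring
    · abel
  · intro h
    refine ⟨(y.q (f ^ C)) • E h, f ^ C, hgq, hval h, ?_⟩
    rw [map_smul, smul_eq_mul, hEv]

end Vale.Agent.P280.N
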