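import Vale.Agent.P280.H83.Api3
import Vale.Agent.P280.H981.Sl2
import Vale.Agent.P280.H754.Low
import Vale.Agent.P280.H170.NL
import Vale.Agent.P280.H899.A05a

/-! P280, plan N: package A05. -/

open DirectSum Vale.Agent.P280.T Vale.Agent.P280.H127

namespace Vale.Agent.P280.N

variable {r : ℕ} {R : Type} [CommRing R] [IsDomain R] [Algebra ℂ R]
  {𝒜 : ℕ × (Fin r → ℤ) → Submodule ℂ R} [GradedAlgebra 𝒜]

omit [IsDomain R] in
theorem A05.coords_key (H : Hyp 𝒜) (y : FP 𝒜) {f : R} (hf : f ∈ 𝒜 (1, y.ν)) (hf1 : y.q f = 1)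
    {n : ℕ} {χ : Fin n → Fin r → ℤ} (hχ : ∀ ψ, y.Pi ψ → ∃ i, χ i = ψ) {du : Fin n → ℕ}
    {u : Fin n → R} (hu : ∀ i, Crd y (χ i) (du i) (u i)) :
    mx y.q ≤ (Ideal.span (Set.range u) ⊔ Ideal.span {f - 1}) ⊔ mx y.q • mx y.q := by
  have := noeth H.hX
  obtain ⟨N, U, wt, G, hn⟩ := exists_params_T H.hX y.nv (fix_of_isFixed y.fix)
  obtain ⟨v, hvT, hvu, hvw, -⟩ := G.exists_dual (fix_of_isFixed y.fix) hn.le
  have hw : ∀ i, HasWeight 𝒜 y.ν (wt i) (v i) := fun i => weight_iff.mp (hvw i)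
  set T := (Ideal.span (Set.range u) ⊔ Ideal.span {f - 1}) ⊔ mx y.q • mx y.q with hT
  have uniq : ∀ k l, ∀ c c' : ℂ, (c ≠ 0 ∨ c' ≠ 0) → (∀ h, c * v k h + c' * v l h = 0) →
      k = l := by
    intro k l c c' hc h
    by_contra hkl
    have h1 := h (U k)
    have h2 := h (U l)
    rw [hvu, hvu, if_pos rfl, if_neg (Ne.symm hkl), mul_one, mul_zero, add_zero] at h1
    rw [hvu, hvu, if_pos rfl, if_neg hkl, mul_one, mul_zero, zero_add] at h2
    rcases hc with hc | hc
    · exact hc h1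
    · exact hc h2
  -- one generator
  have step : ∀ (k : Fin N) (x : R), x ∈ T → y.q x = 0 → v k x ≠ 0 → (∀ l, l ≠ k → v l x = 0) →
      U k ∈ T := by
    intro k x hxT hx hk hl
    obtain ⟨c, hc⟩ := H899.exists_coef G hx
    have hcl : ∀ l, c l = v l x := by
      intro l
      have h1 := H899.tan_sq (hvT l) hc
      rw [map_sub, map_sum, sub_eq_zero] at h1
      rw [h1]
      have h2 : ∀ i, v l (c i • U i) = if l = i then c i else 0 := by
        intro i
        rw [map_smul, hvu, smul_eq_mul, mul_ite, mul_one, mul_zero]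
      simp_rw [h2]
      rw [Finset.sum_ite_eq Finset.univ l, if_pos (Finset.mem_univ l)]
    have h3 : ∑ i, c i • U i = c k • U k := by
      refine Finset.sum_eq_single k (fun l _ hlk => ?_) fun h => absurd (Finset.mem_univ k) h
      rw [hcl, hl l hlk, zero_smul]
    rw [h3] at hc
    have hck : c k ≠ 0 := by rw [hcl]; exact hk
    have h4 : U k = algebraMap ℂ R (c k)⁻¹ * (x - (x - c k • U k)) := by
      rw [sub_sub_cancel, ← Algebra.smul_def, smul_smul, inv_mul_cancel₀ hck, one_smul]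
    rw [h4]
    exact Ideal.mul_mem_left _ _ (Ideal.sub_mem _ hxT (Ideal.mem_sup_right hc))
  have hU : ∀ k, U k ∈ T := by
    intro k
    by_cases hk : wt k = 0
    · -- the Euler direction
      have heul : ∀ l, wt l = 0 → ∃ c : ℂ, ∀ (d : ℕ) (m : Fin r → ℤ), ∀ h ∈ 𝒜 (d, m),
          v l h = c * d * y.q h := by
        intro l hl
        by_contra hcon
        push Not at hcon
        exact H.iso y.q y.ν y.nv y.fix ⟨v l, hvT l, hl ▸ hw l, hcon⟩
      have hnz : ∀ l c, (∀ (d : ℕ) (m : Fin r → ℤ), ∀ h ∈ 𝒜 (d, m), v l h = c * d * y.q h) →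
          c ≠ 0 := by
        rintro l c hc rfl
        have h1 : v l (U l) = 0 := by
          refine hom_ind' 𝒜 (P := fun x => v l x = 0) (map_zero _) (fun a b ha hb => by
            rw [map_add, ha, hb, add_zero]) ?_ (U l)
          rintro ⟨d, m⟩ x hx
          rw [hc d m x hx]
          ring
        rw [hvu, if_pos rfl] at h1
        exact one_ne_zero h1
      obtain ⟨c, hc⟩ := heul k hk
      refine step k (f - 1) (Ideal.mem_sup_left (Ideal.mem_sup_right (Ideal.subset_span rfl)))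
        (by rw [map_sub, hf1, map_one, sub_self]) ?_ ?_
      · rw [map_sub, Tan.one (hvT k), hc _ _ f hf, hf1]
        simpa using hnz k c hc
      · intro l hlk
        rw [map_sub, Tan.one (hvT l), sub_zero]
        by_contra hne
        have h1 := hw l 1 y.ν f hf hne
        have hl : wt l = 0 := by
          rw [one_smul] at h1
          exact left_eq_add.1 h1
        obtain ⟨c', hc'⟩ := heul l hl
        refine hlk (uniq l k c (-c') (Or.inl (hnz k c hc)) fun h => ?_)
        refine hom_ind' 𝒜 (P := fun x => c * v l x + -c' * v k x = 0) (by simp)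
          (fun a b ha hb => by
            rw [map_add, map_add]
            linear_combination ha + hb) ?_ h
        rintro ⟨d, m⟩ x hx
        rw [hc d m x hx, hc' d m x hx]
        ring
    · obtain ⟨j, hj⟩ := hχ (wt k) (tangentWeight_of_wt H.hX y.fix G hn hk)
      obtain ⟨huj, hqj, t, ht, htw, htne⟩ := hu j
      have hpk : TangentWeight 𝒜 y.q y.ν (wt k) := tangentWeight_of_wt H.hX y.fix G hn hk
      refine step k (u j) (Ideal.mem_sup_left (Ideal.mem_sup_left (Ideal.subset_span ⟨j, rfl⟩)))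
        hqj ?_ ?_
      · rw [hj] at htw
        obtain ⟨c, c', hcc, h⟩ := H.mult y.q y.ν (wt k) y.nv y.fix hpk t (v k) ht htw
          (hvT k) (hw k)
        intro h0
        have h1 := h (u j)
        rw [h0, mul_zero, add_zero] at h1
        rcases mul_eq_zero.1 h1 with h2 | h2
        · have h3 := h (U k)
          rw [h2, zero_mul, zero_add, hvu, if_pos rfl, mul_one] at h3
          rcases hcc with h4 | h4
          · exact h4 h2
          · exact h4 h3
        · exact htne h2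
      · intro l hlk
        by_contra hne
        have h1 := hw l _ _ (u j) huj hne
        have h2 : wt l = wt k := by
          rw [← hj]
          exact (add_left_cancel h1).symm
        obtain ⟨c, c', hcc, h⟩ := H.mult y.q y.ν (wt k) y.nv y.fix hpk (v l) (v k) (hvT l)
          (h2 ▸ hw l) (hvT k) (hw k)
        exact hlk (uniq l k c c' hcc h)
  intro x hx
  obtain ⟨c, hc⟩ := H899.exists_coef G (mem_mx.1 hx)
  have h1 : x = (x - ∑ i, c i • U i) + ∑ i, c i • U i := by ring
  rw [h1]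
  refine Submodule.add_mem _ (Ideal.mem_sup_right hc) (Submodule.sum_mem _ fun i _ => ?_)
  rw [Algebra.smul_def]
  exact Ideal.mul_mem_left _ _ (hU i)

theorem A05.hk_zero {y : FP 𝒜} {f : R} (hf : f ∈ 𝒜 (1, y.ν)) (hf1 : y.q f = 1) (d : ℤ)
    (m : Fin r → ℤ) : HK 𝒜 d m (0 : FractionRing R) := by
  have hf0 : f ≠ 0 := by
    rintro rfl
    rw [map_zero] at hf1
    exact zero_ne_one hf1
  refine ⟨d.toNat, (-d).toNat, m + (-d).toNat • y.ν, (-d).toNat • y.ν, 0, Submodule.zero_mem _,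
    f ^ (-d).toNat, ?_, pow_ne_zero _ hf0, by rw [mul_zero, iK_zero], by omega, by abel⟩
  have h1 := SetLike.pow_mem_graded (-d).toNat hf
  rwa [Prod.smul_mk, smul_eq_mul, mul_one] at h1

/-- A05. Coordinates: homogeneous regular functions vanishing at `y` are combinations of any system
of coordinates. -/
theorem coords (H : Hyp 𝒜) (y : FP 𝒜) : ∃ (n : ℕ) (χ : Fin n → Fin r → ℤ),
    Function.Injective χ ∧ (∀ ψ, y.Pi ψ ↔ ∃ i, χ i = ψ) ∧
    (∀ i, ∃ d u, Crd y (χ i) d u) ∧
    ∀ (du : Fin n → ℕ) (u : Fin n → R), (∀ i, Crd y (χ i) (du i) (u i)) →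
      ∀ (d : ℤ) (m : Fin r → ℤ) (x : FractionRing R), HK 𝒜 d m x → Val y.q x 0 →
        ∃ x' : Fin n → FractionRing R, (∀ i, Rg y.q (x' i) ∧
          HK 𝒜 (d - du i) (m - (du i • y.ν + χ i)) (x' i)) ∧ x = ∑ i, iK (u i) * x' i := by
  classical
  have := noeth H.hX
  set S := (H170.pi_finite H y).toFinset with hS
  have hmem : ∀ ψ, ψ ∈ S ↔ y.Pi ψ := fun ψ => by
    rw [hS, Set.Finite.mem_toFinset, Set.mem_ofPred_eq]
  refine ⟨S.card, fun i => (S.equivFin.symm i : Fin r → ℤ), ?_, ?_, ?_, ?_⟩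
  · exact Subtype.val_injective.comp S.equivFin.symm.injective
  · intro ψ
    constructor
    · intro hψ
      exact ⟨S.equivFin ⟨ψ, (hmem ψ).2 hψ⟩, by beta_reduce; rw [Equiv.symm_apply_apply]⟩
    · rintro ⟨i, rfl⟩
      exact (hmem _).1 (S.equivFin.symm i).2
  · intro i
    have hψ : y.Pi (S.equivFin.symm i : Fin r → ℤ) := (hmem _).1 (S.equivFin.symm i).2
    obtain ⟨v, hvT, hvw, hne⟩ := hψ
    obtain ⟨d, m, h, hh, h1⟩ := hne 0
    rw [zero_mul, zero_mul] at h1
    have h2 := hvw d m h hh h1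
    subst h2
    refine ⟨d, h, hh, ?_, v, hvT, hvw, h1⟩
    by_contra h3
    have h4 := y.fix _ _ h hh h3
    exact H170.ne_zero_of_pi H ((hmem _).1 (S.equivFin.symm i).2) (add_eq_left.1 h4)
  · intro du u hu d m x hx hval
    obtain ⟨k, k', s, a, hs, ha, hk', hs1, e⟩ := hx.exists_den H.hX y.nv y.fix hval.rg
    have hqa : y.q a = 0 := by
      have h1 := (Val.iK (q := y.q) s).mul hval
      rw [e, mul_zero] at h1
      exact (Val.iK a).unique h1
    obtain ⟨f0, hf0, hf00⟩ := exists_deg_one_ne H.hX.gen y.nv y.fix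
    obtain ⟨f, hf, hf1⟩ : ∃ f ∈ 𝒜 (1, y.ν), y.q f = 1 :=
      ⟨(y.q f0)⁻¹ • f0, Submodule.smul_mem _ _ hf0, by
        rw [map_smul, smul_eq_mul, inv_mul_cancel₀ hf00]⟩
    obtain ⟨k2, s2, hs2, hs2q, hspan⟩ := H899.exists_r' y.fix hf hf1 (fun i => (hu i).1)
      (fun i => (hu i).2.1) (A05.coords_key H y hf hf1 (χ := fun i =>
        (S.equivFin.symm i : Fin r → ℤ)) (fun ψ hψ =>
          ⟨S.equivFin ⟨ψ, (hmem ψ).2 hψ⟩, by rw [Equiv.symm_apply_apply]⟩) hu)
    obtain ⟨b, hb, hsum⟩ := H899.span_hom (fun i => (hu i).1) (hspan _ a ha hqa)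
      (SetLike.mul_mem_graded hs2 ha)
    have hq : y.q (s2 * s) ≠ 0 := by
      rw [map_mul, hs1, mul_one]
      exact hs2q
    have hne : iK (s2 * s) ≠ 0 := iK_ne_zero (ne_zero_of_q hq)
    refine ⟨fun j => iK (b j) / iK (s2 * s), fun j => ⟨⟨b j, s2 * s, hq, mul_div_cancel₀ _ hne⟩, ?_⟩,
      ?_⟩
    · rcases hb j with ⟨⟨kd, km⟩, hk, hbj⟩ | hbj
      · have h1 := congrArg Prod.fst hk
        have h2 := congrArg Prod.snd hk
        simp only [Prod.fst_add, Prod.snd_add] at h1 h2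
        have hg : s2 * s ∈ 𝒜 (k2 + k, (k2 + k) • y.ν) := by
          have := SetLike.mul_mem_graded hs2 hs
          rwa [Prod.mk_add_mk, ← add_smul] at this
        refine ⟨kd, k2 + k, km, (k2 + k) • y.ν, b j, hbj, s2 * s, hg, ne_zero_of_q hq,
          mul_div_cancel₀ _ hne, ?_, ?_⟩
        · push_cast
          omega
        · have h3 : km = k2 • y.ν + (m + k • y.ν) - (du j • y.ν + (S.equivFin.symm j : Fin r → ℤ)) := by
            rw [← h2]
            abel
          rw [h3, add_smul]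
          abel
      · beta_reduce
        rw [hbj, iK_zero, zero_div]
        exact A05.hk_zero hf hf1 _ _
    · have h1 : iK (s2 * s) * x = ∑ j, iK (u j) * iK (b j) := by
        rw [iK_mul, mul_assoc, e, ← iK_mul, hsum, iK_sum]
        exact Finset.sum_congr rfl fun j _ => iK_mul _ _
      apply mul_left_cancel₀ hne
      rw [h1, Finset.mul_sum]
      refine Finset.sum_congr rfl fun j _ => ?_
      field_simp

/-- A09. A regular homogeneous function has a value, which is `0` if its weight is not `d ν`. -/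
theorem val_zero (y : FP 𝒜) {d : ℤ} {m : Fin r → ℤ} {x : FractionRing R} (hx : HK 𝒜 d m x)
    (hr : Rg y.q x) (hm : m ≠ d • y.ν) : Val y.q x 0 := by
  classical
  obtain ⟨c, hc⟩ := hr.val
  rcases eq_or_ne c 0 with rfl | hc0
  · exact hc
  exfalso
  obtain ⟨a1, s1, hs1, e1, hv⟩ := hc
  obtain ⟨a, b, n, n', f, hf, g, hg, hg0, h1, h2, h3⟩ := hx
  obtain ⟨⟨k0, m0⟩, hk⟩ := exists_comp_ne (𝒜 := 𝒜) hs1
  have hm0 : m0 = k0 • y.ν := y.fix k0 m0 _ (DirectSum.decompose 𝒜 s1 (k0, m0)).2 hk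
  subst hm0
  have e2 : g * a1 = s1 * f := by
    apply iK_inj
    rw [iK_mul, iK_mul, ← e1, ← h1]
    ring
  have e3 : (decompose 𝒜 (g * a1) ((k0, k0 • y.ν) + (a, n)) : R) =
      (decompose 𝒜 s1 (k0, k0 • y.ν) : R) * f := by
    rw [e2]
    exact DirectSum.coe_decompose_mul_add_of_right_mem 𝒜 hf
  set s' : R := (decompose 𝒜 s1 (k0, k0 • y.ν) : R) with hs'
  -- value of `s' x`
  have hval : Val y.q (iK s' * x) (y.q s' * c) := (Val.iK s').mul ⟨a1, s1, hs1, e1, hv⟩
  by_cases hj : ∃ j, ((b, n') : ℕ × (Fin r → ℤ)) + j = (k0, k0 • y.ν) + (a, n)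
  · obtain ⟨⟨j1, j2⟩, hj⟩ := hj
    rw [← hj, H899.dec_left hg] at e3
    have e4 : iK (decompose 𝒜 a1 (j1, j2) : R) = iK s' * x := by
      apply mul_left_cancel₀ (iK_ne_zero hg0)
      rw [← iK_mul, e3, iK_mul, ← h1]
      ring
    rw [← e4] at hval
    have h5 := (Val.iK (q := y.q) _).unique hval
    have h6 := y.fix j1 j2 _ (decompose 𝒜 a1 (j1, j2)).2 (by rw [h5]; exact mul_ne_zero hk hc0)
    have h7 := congrArg Prod.fst hj
    have h8 := congrArg Prod.snd hj
    simp only [Prod.fst_add, Prod.snd_add] at h7 h8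
    apply hm
    have h9 : (n : Fin r → ℤ) - n' = j1 • y.ν - k0 • y.ν := by
      rw [← h6]
      have : n = n' + j2 - k0 • y.ν := by rw [h8]; abel
      rw [this]
      abel
    have h10 : d = (j1 : ℤ) - k0 := by omega
    rw [h3, h9, h10, sub_smul, natCast_zsmul, natCast_zsmul]
  · rw [H899.dec_left_not hg (fun j hj' => hj ⟨j, hj'⟩)] at e3
    have e4 : iK s' * x = 0 := by
      apply mul_left_cancel₀ (iK_ne_zero hg0)
      rw [mul_zero, ← mul_assoc, mul_comm (iK g), mul_assoc, h1, ← iK_mul, ← e3, iK_zero]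
    rw [e4] at hval
    have h5 := (Val.zero (q := y.q)).unique hval
    exact mul_ne_zero hk hc0 h5.symm

end Vale.Agent.P280.N
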