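import Vale.Agent.P280.N.A05
import Vale.Agent.P280.H674.RegMod

/-! P280, plan N: package A06. -/

open DirectSum Vale.Agent.P280.T Vale.Agent.P280.H127

namespace Vale.Agent.P280.N

variable {r : ℕ} {R : Type} [CommRing R] [IsDomain R] [Algebra ℂ R]
  {𝒜 : ℕ × (Fin r → ℤ) → Submodule ℂ R} [GradedAlgebra 𝒜]

/-- homogeneous for the grading relative to a fixed point -/
theorem A06.homK {d : ℤ} {m : Fin r → ℤ} {x : FractionRing R} (hx : HK 𝒜 d m x) (ν : Fin r → ℤ) :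
    H674.HomK (coarse 𝒜 (rl (AddMonoidHom.id (Fin r → ℤ)) ν)) (m - d • ν) x := by
  obtain ⟨a, b, n, n', f, hf, g, hg, hg0, e, rfl, rfl⟩ := hx
  refine ⟨n' - b • ν, f, mem_coarse hf ?_, g, mem_coarse hg ?_, hg0, e⟩
  · rw [rl_apply, AddMonoidHom.id_apply, sub_smul, natCast_zsmul, natCast_zsmul]
    abel
  · rw [rl_apply, AddMonoidHom.id_apply]

theorem A06.crd_pi {y : FP 𝒜} {χ : Fin r → ℤ} {dz : ℕ} {z : R} (hz : Crd y χ dz z) : y.Pi χ := by
  obtain ⟨h1, h2, t, h3, h4, h5⟩ := hz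
  refine ⟨t, h3, h4, fun c => ⟨dz, _, z, h1, ?_⟩⟩
  rw [h2, mul_zero]
  exact h5

/-- parameters which contain a given coordinate -/
theorem A06.exists_gens_crd (H : Hyp 𝒜) (y : FP 𝒜) {χ : Fin r → ℤ} {dz : ℕ} {z : R}
    (hz : Crd y χ dz z) :
    ∃ (n : ℕ) (u : Fin n → R) (wt : Fin n → Fin r → ℤ) (i0 : Fin n),
      Gens (coarse 𝒜 (rl (AddMonoidHom.id (Fin r → ℤ)) y.ν)) y.q u wt ∧ u i0 = z ∧
        wt i0 = χ ∧ ∀ i, i ≠ i0 → wt i ≠ χ ∧ (wt i ≠ 0 → y.Pi (wt i)) := by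
  classical
  have := noeth H.hX
  have hF := fix_of_isFixed y.fix
  obtain ⟨n, u, wt, G, hn⟩ := exists_params_T H.hX y.nv hF
  obtain ⟨v, hv1, hv2, hv3, -⟩ := G.exists_dual hF hn.le
  obtain ⟨c, hc⟩ := G.expand (x := z) (mem_mx.mpr hz.2.1)
  have hzc : z ∈ coarse 𝒜 (rl (AddMonoidHom.id (Fin r → ℤ)) y.ν) χ := by
    refine mem_coarse hz.1 ?_
    rw [rl_apply, AddMonoidHom.id_apply]
    abel
  have hPi := (A06.crd_pi hz)
  obtain ⟨-, hqz, t, ht, htw, htz⟩ := hz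
  have hval : ∀ η : R →ₗ[ℂ] ℂ, Tan y.q η → η z = ∑ i, c i * η (u i) := by
    intro η hη
    have h1 := hη.sq hc
    rw [map_sub, map_sum, sub_eq_zero] at h1
    rw [h1]
    exact Finset.sum_congr rfl fun i _ => by rw [map_smul, smul_eq_mul]
  have hcv : ∀ j, c j = v j z := by
    intro j
    rw [hval (v j) (hv1 j)]
    simp [hv2]
  obtain ⟨i0, -, hi0⟩ : ∃ i ∈ Finset.univ, c i * t (u i) ≠ 0 := by
    apply Finset.exists_ne_zero_of_sum_ne_zero
    rw [← hval t ht]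
    exact htz
  have hci0 : c i0 ≠ 0 := left_ne_zero_of_mul hi0
  have hwi0 : wt i0 = χ := by
    by_contra h
    exact hci0 (by rw [hcv]; exact hv3 i0 χ (Ne.symm h) z hzc)
  have hwv : ∀ j, HasWeight 𝒜 y.ν (wt j) (v j) := by
    intro j d m h hh hne
    by_contra h1
    refine hne (hv3 j (m - d • y.ν) ?_ h (mem_coarse hh rfl))
    intro h2
    apply h1
    rw [← h2]
    abel
  have huniq : ∀ j, j ≠ i0 → wt j ≠ χ := by
    intro j hj h
    obtain ⟨a, b, hab, h1⟩ := H.mult y.q y.ν χ y.nv y.fix hPi (v i0) (v j) (hv1 i0)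
      (hwi0 ▸ hwv i0) (hv1 j) (h ▸ hwv j)
    have h2 := h1 (u i0)
    have h3 := h1 (u j)
    rw [hv2, hv2, if_pos rfl, if_neg hj, mul_one, mul_zero, add_zero] at h2
    rw [hv2, hv2, if_pos rfl, if_neg (Ne.symm hj), mul_one, mul_zero, zero_add] at h3
    rcases hab with h4 | h4
    · exact h4 h2
    · exact h4 h3
  have hcj : ∀ j, j ≠ i0 → c j = 0 := by
    intro j hj
    rw [hcv]
    exact hv3 j χ (Ne.symm (huniq j hj)) z hzc
  have hzu : z - c i0 • u i0 ∈ mx y.q ^ 2 := by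
    rwa [Finset.sum_eq_single i0 (fun j _ hj => by rw [hcj j hj, zero_smul])
      (fun h => absurd (Finset.mem_univ _) h)] at hc
  refine ⟨n, Function.update u i0 z, wt, i0, ?_, Function.update_self .., hwi0,
    fun i hi => ⟨huniq i hi, fun h => tangentWeight_of_wt H.hX y.fix G hn h⟩⟩
  refine Gens.of_cotangent hF ?_ ?_ ?_
  · intro i
    by_cases hi : i = i0
    · subst hi
      rw [Function.update_self, hwi0]
      exact hzc
    · rw [Function.update_of_ne hi]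
      exact G.hom i
  · intro i
    by_cases hi : i = i0
    · subst hi
      rw [Function.update_self]
      exact hqz
    · rw [Function.update_of_ne hi]
      exact G.zero i
  · intro x hx
    obtain ⟨d, hd⟩ := G.expand hx
    have e : x = (x - ∑ i, d i • u i) + ∑ i, d i • u i := by ring
    rw [e]
    refine Ideal.add_mem _ (Ideal.mem_sup_right hd) (Ideal.sum_mem _ fun i _ => ?_)
    rw [Algebra.smul_def]
    refine Ideal.mul_mem_left _ _ ?_
    by_cases hi : i = i0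
    · rw [hi]
      have e1 : u i0 = algebraMap ℂ R (c i0)⁻¹ * (z - (z - c i0 • u i0)) := by
        rw [sub_sub_cancel, ← Algebra.smul_def, smul_smul, inv_mul_cancel₀ hci0, one_smul]
      rw [e1]
      refine Ideal.mul_mem_left _ _ (Ideal.sub_mem _ (Ideal.mem_sup_left (Ideal.subset_span ?_))
        (Ideal.mem_sup_right hzu))
      exact ⟨i0, Function.update_self ..⟩
    · exact Ideal.mem_sup_left (Ideal.subset_span ⟨i, Function.update_of_ne hi ..⟩)

/-- A06 (LF1). -/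
theorem lf1 (H : Hyp 𝒜) (y : FP 𝒜) (l : (Fin r → ℤ) →+ ℤ) (hl : Pos l y) {d : ℤ}
    {m : Fin r → ℤ} {x : FractionRing R} (hx : HK 𝒜 d m x) (hr : Rg y.q x)
    (hm : l m < d * l y.ν) : x = 0 := by
  have := noeth H.hX
  have hF := fix_of_isFixed y.fix
  obtain ⟨n, u, wt, G, hn⟩ := exists_params_T H.hX y.nv hF
  have hwt : ∀ i, 0 ≤ l (wt i) := by
    intro i
    by_cases h0 : wt i = 0
    · rw [h0, map_zero]
    · exact hl _ (tangentWeight_of_wt H.hX y.fix G hn h0)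
  obtain ⟨a, s, hs, e⟩ := hr
  refine H674.zero_of_regF hF G (A06.homK hx y.ν) ⟨s, hs, a, e⟩ ?_
  intro k hk
  have h1 := congrArg l hk
  rw [map_sub, map_zsmul, map_sum] at h1
  have h2 : 0 ≤ ∑ i, l (k i • wt i) := Finset.sum_nonneg fun i _ => by
    rw [map_nsmul]
    exact nsmul_nonneg (hwt i) _
  rw [← h1, smul_eq_mul] at h2
  linarith

/-- A07 (LF2). At most one negative weight `-b`. -/
theorem lf2 (H : Hyp 𝒜) (y : FP 𝒜) (l : (Fin r → ℤ) →+ ℤ) {b : Fin r → ℤ}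
    (hb : ∀ ψ, y.Pi ψ → ψ ≠ -b → 0 ≤ l ψ) {dz : ℕ} {z : R} (hz : Crd y (-b) dz z) {d : ℤ}
    {m : Fin r → ℤ} {x : FractionRing R} (hx : HK 𝒜 d m x) (hr : Rg y.q x)
    (hm : l m < d * l y.ν) : ∃ x', Rg y.q x' ∧ x = iK z * x' := by
  rcases le_or_gt 0 (l (-b)) with hlb | hlb
  · refine ⟨0, Rg.zero, ?_⟩
    rw [mul_zero]
    refine lf1 H y l (fun ψ hψ => ?_) hx hr hm
    by_cases h : ψ = -b
    · rw [h]
      exact hlb
    · exact hb ψ hψ h
  have hz0 : z ≠ 0 := by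
    rintro rfl
    obtain ⟨-, -, t, -, -, h⟩ := hz
    exact h (map_zero t)
  have hzK : iK z ≠ 0 := iK_ne_zero hz0
  have := noeth H.hX
  have hF := fix_of_isFixed y.fix
  obtain ⟨n, u, wt, i0, G, hu, hw, hwt⟩ := A06.exists_gens_crd H y hz
  refine ⟨(iK z)⁻¹ * x, ?_, by rw [mul_inv_cancel_left₀ hzK]⟩
  have hzh : u i0 ∈ coarse 𝒜 (rl (AddMonoidHom.id (Fin r → ℤ)) y.ν) (-b) := hw ▸ G.hom i0
  have hh : H674.HomK (coarse 𝒜 (rl (AddMonoidHom.id (Fin r → ℤ)) y.ν))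
      (- -b + (m - d • y.ν)) ((iK z)⁻¹ * x) := by
    rw [← hu]
    exact (H674.HomK.of_mem hzh).inv.mul (A06.homK hx y.ν)
  obtain ⟨a, s, hs, e⟩ := hr
  have key : H674.RegF y.q ((iK z)⁻¹ * x) := by
    refine H674.regF_of_pole hF G hh (i0 := i0) (by rw [hu]; exact hz0) ⟨1, s, hs, a, ?_⟩ ?_
    · rw [pow_one, hu]
      change iK s * (iK z * ((iK z)⁻¹ * x)) = iK a
      rw [mul_inv_cancel_left₀ hzK, e]
    · intro k mm hk hmm h1
      have h2 := congrArg l h1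
      rw [map_add, map_add, map_sub, map_zsmul, map_sum, map_nsmul, hw, map_neg l (-b)] at h2
      have h3 : 0 ≤ ∑ i, l (mm i • wt i) := Finset.sum_nonneg fun i _ => by
        rw [map_nsmul]
        by_cases hi : i = i0
        · rw [hi, hmm, zero_smul]
        · refine nsmul_nonneg ?_ _
          by_cases h0 : wt i = 0
          · rw [h0, map_zero]
          · exact hb _ ((hwt i hi).2 h0) (hwt i hi).1
      rw [← h2, smul_eq_mul, nsmul_eq_mul] at h3
      have h4 : (1 : ℤ) ≤ k := by exact_mod_cast hk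
      nlinarith
  obtain ⟨s', hs', a', e'⟩ := key
  exact ⟨a', s', hs', e'⟩

/-- A08 (LF2 with all other weights positive). -/
theorem lf2' (H : Hyp 𝒜) (y : FP 𝒜) (l : (Fin r → ℤ) →+ ℤ) {b : Fin r → ℤ}
    (hb : ∀ ψ, y.Pi ψ → ψ ≠ -b → 0 < l ψ) {dz : ℕ} {z : R} (hz : Crd y (-b) dz z) {d : ℤ}
    {m : Fin r → ℤ} {x : FractionRing R} (hx : HK 𝒜 d m x) (hr : Rg y.q x)
    (hm : l m = d * l y.ν) (hv : Val y.q x 0) : ∃ x', Rg y.q x' ∧ x = iK z * x' := by
  classical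
  obtain ⟨n, χ, hinj, hpi, hex, hco⟩ := coords H y
  choose du u hu using hex
  obtain ⟨i0, hi0⟩ := (hpi (-b)).1 (A06.crd_pi hz)
  obtain ⟨x', hx', e⟩ := hco (Function.update du i0 dz) (Function.update u i0 z) (by
    intro i
    by_cases hi : i = i0
    · subst hi
      rw [Function.update_self, Function.update_self, hi0]
      exact hz
    · rw [Function.update_of_ne hi, Function.update_of_ne hi]
      exact hu i) d m x hx hv
  have key : ∀ i, ∃ w, Rg y.q w ∧ iK (Function.update u i0 z i) * x' i = iK z * w := by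
    intro i
    by_cases hi : i = i0
    · subst hi
      exact ⟨x' i, (hx' i).1, by rw [Function.update_self]⟩
    · have hne : χ i ≠ -b := fun h => hi (hinj (h.trans hi0.symm))
      have h1 := hb (χ i) ((hpi _).2 ⟨i, rfl⟩) hne
      obtain ⟨w, hw, hw'⟩ := lf2 H y l (fun ψ h2 h3 => (hb ψ h2 h3).le) hz (hx' i).2 (hx' i).1 (by
        rw [map_sub, map_add, map_nsmul, nsmul_eq_mul, hm]
        linarith)
      exact ⟨iK (Function.update u i0 z i) * w, (Rg.iK _).mul hw, by rw [hw']; ring⟩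
  choose w hw hw' using key
  refine ⟨∑ i, w i, Rg.sum _ fun i _ => hw i, ?_⟩
  rw [e, Finset.mul_sum]
  exact Finset.sum_congr rfl fun i _ => hw' i

end Vale.Agent.P280.N
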