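import Vale.Agent.P280.N.D02

/-! P280, plan N: package D03. -/

open DirectSum Vale.Agent.P280.T Vale.Agent.P280.H127

namespace Vale.Agent.P280.N

variable {r : ℕ} {R : Type} [CommRing R] [IsDomain R] [Algebra ℂ R]
  {𝒜 : ℕ × (Fin r → ℤ) → Submodule ℂ R} [GradedAlgebra 𝒜]

omit [IsDomain R] in
/-- The set of weights is finite. -/
theorem D03.wt_finite (H : Hyp 𝒜) : {ω | Wt 𝒜 ω}.Finite := by
  have h1 : {ω | Wt 𝒜 ω} ⊆ Set.image2 (fun a b => a - b) (H587.wts 𝒜) (H587.wts 𝒜) := by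
    rintro ω ⟨y, hω⟩
    obtain ⟨h1, h2⟩ := H587.tangentWeight_mem H.hX y.nv y.fix hω
    exact ⟨_, h2, _, h1, by
      change y.ν + ω - y.ν = ω
      rw [add_sub_cancel_left]⟩
  exact ((finite_weights H.hX).image2 _ (finite_weights H.hX)).subset h1

theorem D03.ext {a b : Fin r → ℤ} (h : ∀ g : (Fin r → ℤ) →+ ℤ, g a = g b) : a = b :=
  funext fun i => h (Pi.evalAddMonoidHom (fun _ : Fin r => ℤ) i)

theorem D03.cases {N b : ℤ} (hN : 0 < N) (hd : N ∣ b) (h0 : 0 ≤ b) (h1 : b ≤ N) :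
    b = 0 ∨ b = N := by
  obtain ⟨k, rfl⟩ := hd
  have hk0 : 0 ≤ k := by
    by_contra h
    push Not at h
    nlinarith
  have hk1 : k ≤ 1 := by
    by_contra h
    push Not at h
    nlinarith
  interval_cases k
  · left; ring
  · right; ring

/-- The situation of the face of `lam`. -/
structure D03.Ctx (𝒜 : ℕ × (Fin r → ℤ) → Submodule ℂ R) (lam : Fin r → ℤ)
    (l : (Fin r → ℤ) →+ ℤ) (N : ℤ) (β : (Fin r → ℤ) → ((Fin r → ℤ) →+ ℤ))
    (E F : (Fin r → ℤ) → VF R) : Prop where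
  H : Hyp 𝒜
  hw : Wt 𝒜 lam
  hl : 0 < l lam
  hmax : ∀ ω, Wt 𝒜 ω → l ω ≤ l lam
  hRI : ∀ g : (Fin r → ℤ) →+ ℤ, (∀ ω, Wt 𝒜 ω → l ω = l lam → g ω ≤ g lam) →
    ∀ ω, Wt 𝒜 ω → l ω = l lam → g ω = g lam
  hN : 0 < N
  root : ∀ χ, Vx 𝒜 χ → l χ = l lam → Root 𝒜 N χ (β χ) (E χ) (F χ)
  nv : ¬ Vx 𝒜 lam

namespace D03.Ctx

variable {lam : Fin r → ℤ} {l : (Fin r → ℤ) →+ ℤ} {N : ℤ}
  {β : (Fin r → ℤ) → ((Fin r → ℤ) →+ ℤ)} {E F : (Fin r → ℤ) → VF R}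

omit [GradedAlgebra 𝒜] in
theorem two (c : D03.Ctx 𝒜 lam l N β E F) {χ : Fin r → ℤ} (hχ : Vx 𝒜 χ) (hχl : l χ = l lam) :
    β χ χ = 2 * N := (c.root χ hχ hχl).two

omit [GradedAlgebra 𝒜] in
theorem ne_neg (c : D03.Ctx 𝒜 lam l N β E F) {χ ω : Fin r → ℤ} (hχl : l χ = l lam)
    (hωl : l ω = l lam) : ω ≠ -χ := by
  intro h
  have h1 := c.hl
  rw [h, map_neg, hχl] at hωl
  linarith

omit [GradedAlgebra 𝒜] in
theorem nonneg (c : D03.Ctx 𝒜 lam l N β E F) {χ : Fin r → ℤ} (hχ : Vx 𝒜 χ) (hχl : l χ = l lam)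
    {ω : Fin r → ℤ} (hω : Wt 𝒜 ω) (hωl : l ω = l lam) : 0 ≤ β χ ω := by
  have h1 := (c.root χ hχ hχl).hull l (l lam) c.hmax ω hω
  rw [hωl, hχl] at h1
  have h2 := c.hl
  by_contra h3
  push Not at h3
  nlinarith

omit [GradedAlgebra 𝒜] in
theorem le_N (c : D03.Ctx 𝒜 lam l N β E F) {χ : Fin r → ℤ} (hχ : Vx 𝒜 χ) (hχl : l χ = l lam)
    {ω : Fin r → ℤ} (hω : Wt 𝒜 ω) (hωl : l ω = l lam) (hne : ω ≠ χ) : β χ ω ≤ N :=
  (abs_le.1 ((c.root χ hχ hχl).bd ω hω hne (c.ne_neg hχl hωl))).2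

omit [GradedAlgebra 𝒜] in
theorem vals (c : D03.Ctx 𝒜 lam l N β E F) {χ : Fin r → ℤ} (hχ : Vx 𝒜 χ) (hχl : l χ = l lam)
    {ω : Fin r → ℤ} (hω : Wt 𝒜 ω) (hωl : l ω = l lam) (hne : ω ≠ χ) :
    β χ ω = 0 ∨ β χ ω = N :=
  D03.cases c.hN ((c.root χ hχ hχl).int ω hω) (c.nonneg hχ hχl hω hωl) (c.le_N hχ hχl hω hωl hne)

omit [GradedAlgebra 𝒜] in
theorem val_lam (c : D03.Ctx 𝒜 lam l N β E F) {χ : Fin r → ℤ} (hχ : Vx 𝒜 χ)
    (hχl : l χ = l lam) : β χ lam = N := by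
  have hne : lam ≠ χ := fun h => c.nv (by rw [h]; exact hχ)
  rcases c.vals hχ hχl c.hw rfl hne with h | h
  · exfalso
    have h1 := c.hRI (-β χ) (fun ω hω hωl => by
      rw [AddMonoidHom.neg_apply, AddMonoidHom.neg_apply, h]
      have := c.nonneg hχ hχl hω hωl
      linarith) χ hχ.1 hχl
    rw [AddMonoidHom.neg_apply, AddMonoidHom.neg_apply, h, c.two hχ hχl] at h1
    have := c.hN
    linarith
  · exact h

theorem exists_bar (c : D03.Ctx 𝒜 lam l N β E F) {χ : Fin r → ℤ} (hχ : Vx 𝒜 χ)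
    (hχl : l χ = l lam) : ∃ ψ, (Vx 𝒜 ψ ∧ l ψ = l lam) ∧ β χ ψ = 0 := by
  obtain ⟨ψ, hψ, hψl, h1⟩ := max_at_vertex c.H l c.hl c.hmax ⟨lam, c.hw, rfl⟩ (-β χ)
  refine ⟨ψ, ⟨hψ, hψl⟩, ?_⟩
  by_contra h2
  have hN := c.hN
  have h3 : N ≤ β χ ψ := by
    by_cases h4 : ψ = χ
    · rw [h4, c.two hχ hχl]
      linarith
    · rcases c.vals hχ hχl hψ.1 hψl h4 with h5 | h5
      · exact absurd h5 h2
      · exact h5.ge
  have h4 := c.hRI (-β χ) (fun ω hω hωl => by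
    have h5 := h1 ω hω hωl
    rw [AddMonoidHom.neg_apply, AddMonoidHom.neg_apply] at h5 ⊢
    rw [c.val_lam hχ hχl]
    linarith) χ hχ.1 hχl
  rw [AddMonoidHom.neg_apply, AddMonoidHom.neg_apply, c.val_lam hχ hχl, c.two hχ hχl] at h4
  linarith

theorem symm0 (c : D03.Ctx 𝒜 lam l N β E F) {χ ψ : Fin r → ℤ} (hχ : Vx 𝒜 χ)
    (hχl : l χ = l lam) (hψ : Vx 𝒜 ψ) (hψl : l ψ = l lam) (h : β χ ψ = 0) : β ψ χ = 0 := by
  have hN := c.hN
  have hne : χ ≠ ψ := by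
    rintro rfl
    rw [c.two hχ hχl] at h
    linarith
  rcases c.vals hψ hψl hχ.1 hχl hne with h1 | h1
  · exact h1
  · exfalso
    have h2 := reflect_vertex c.H hN hψ (c.root ψ hψ hψl) hχ (k := 1) (by rw [h1, one_mul])
    rw [one_smul] at h2
    have h3 : β χ (χ - ψ) = 2 * N := by rw [map_sub, c.two hχ hχl, h, sub_zero]
    have h4 := (c.root χ hχ hχl).bd _ h2.1 (fun h5 => by
      rw [h5] at h3
      have h6 : l (χ - ψ) = l χ := by rw [h5]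
      rw [map_sub, hχl, hψl] at h6
      have := c.hl
      linarith) (fun h5 => by
      rw [h5, map_neg, c.two hχ hχl] at h3
      linarith)
    rw [h3, abs_of_pos (by linarith)] at h4
    linarith

theorem sum2 (c : D03.Ctx 𝒜 lam l N β E F) {χ ψ : Fin r → ℤ} (hχ : Vx 𝒜 χ)
    (hχl : l χ = l lam) (hψ : Vx 𝒜 ψ) (hψl : l ψ = l lam) (h : β χ ψ = 0) {ω : Fin r → ℤ}
    (hω : Wt 𝒜 ω) (hωl : l ω = l lam) : β χ ω + β ψ ω = 2 * N := by
  have h' := c.symm0 hχ hχl hψ hψl h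
  have h1 := c.hRI (β χ + β ψ) (fun ω hω hωl => by
    rw [AddMonoidHom.add_apply, AddMonoidHom.add_apply, c.val_lam hχ hχl, c.val_lam hψ hψl]
    by_cases h1 : ω = χ
    · rw [h1, c.two hχ hχl, h']
      linarith
    · by_cases h2 : ω = ψ
      · rw [h2, c.two hψ hψl, h]
        linarith
      · have h3 := c.le_N hχ hχl hω hωl h1
        have h4 := c.le_N hψ hψl hω hωl h2
        linarith) ω hω hωl
  rw [AddMonoidHom.add_apply, AddMonoidHom.add_apply, c.val_lam hχ hχl, c.val_lam hψ hψl] at h1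
  linarith

theorem uniq (c : D03.Ctx 𝒜 lam l N β E F) {χ ψ : Fin r → ℤ} (hχ : Vx 𝒜 χ)
    (hχl : l χ = l lam) (hψ : Vx 𝒜 ψ) (hψl : l ψ = l lam) (h : β χ ψ = 0) {ω : Fin r → ℤ}
    (hω : Wt 𝒜 ω) (hωl : l ω = l lam) (h0 : β χ ω = 0) : ω = ψ := by
  have h1 := c.sum2 hχ hχl hψ hψl h hω hωl
  by_contra h2
  have h3 := c.le_N hψ hψl hω hωl h2
  have := c.hN
  linarith

theorem other (c : D03.Ctx 𝒜 lam l N β E F) {χ ψ : Fin r → ℤ} (hχ : Vx 𝒜 χ)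
    (hχl : l χ = l lam) (hψ : Vx 𝒜 ψ) (hψl : l ψ = l lam) (h : β χ ψ = 0) {ω : Fin r → ℤ}
    (hω : Wt 𝒜 ω) (hωl : l ω = l lam) (h1 : ω ≠ χ) (h2 : ω ≠ ψ) : β χ ω = N := by
  rcases c.vals hχ hχl hω hωl h1 with h3 | h3
  · exact absurd (c.uniq hχ hχl hψ hψl h hω hωl h3) h2
  · exact h3

theorem const_sum (c : D03.Ctx 𝒜 lam l N β E F) {χ ψ χ' ψ' : Fin r → ℤ} (hχ : Vx 𝒜 χ)
    (hχl : l χ = l lam) (hψ : Vx 𝒜 ψ) (hψl : l ψ = l lam) (h : β χ ψ = 0) (hχ' : Vx 𝒜 χ')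
    (hχl' : l χ' = l lam) (hψ' : Vx 𝒜 ψ') (hψl' : l ψ' = l lam) (h' : β χ' ψ' = 0) :
    χ + ψ = χ' + ψ' := by
  have hN := c.hN
  by_cases h1 : χ' = χ
  · subst h1
    rw [c.uniq hχ hχl hψ' hψl' h' hψ.1 hψl h]
  by_cases h2 : χ' = ψ
  · subst h2
    have h3 := c.symm0 hχ hχl hχ' hχl' h
    rw [c.uniq hχ' hχl' hχ hχl h3 hψ'.1 hψl' h', add_comm]
  have h3 : β χ χ' = N := c.other hχ hχl hψ hψl h hχ'.1 hχl' h1 h2
  have h4 : ψ' ≠ χ := by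
    rintro rfl
    have := c.symm0 hχ' hχl' hχ hχl h'
    linarith
  have h5 : ψ' ≠ ψ := by
    rintro rfl
    exact h1 (c.uniq hψ hψl hχ hχl (c.symm0 hχ hχl hψ hψl h) hχ'.1 hχl'
      (c.symm0 hχ' hχl' hψ hψl h'))
  have h6 : β χ ψ' = N := c.other hχ hχl hψ hψl h hψ'.1 hψl' h4 h5
  have h7 : β χ' χ = N := c.other hχ' hχl' hψ' hψl' h' hχ.1 hχl (Ne.symm h1) (Ne.symm h4)
  have h8 := reflect_vertex c.H hN hχ (c.root χ hχ hχl) hψ' (k := 1) (by rw [h6, one_mul])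
  have h9 := reflect_vertex c.H hN hχ' (c.root χ' hχ' hχl') h8 (k := -1) (by
    rw [map_sub, map_zsmul, h', h7, one_smul]
    ring)
  have h10 : ψ' - (1 : ℤ) • χ - (-1 : ℤ) • χ' = ψ := by
    refine c.uniq hχ hχl hψ hψl h h9.1 ?_ ?_
    · rw [map_sub, map_sub, map_zsmul, map_zsmul, hψl', hχl, hχl', one_smul, neg_smul, one_smul]
      ring
    · rw [map_sub, map_sub, map_zsmul, map_zsmul, h6, h3, c.two hχ hχl, one_smul, neg_smul,
        one_smul]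
      ring
  rw [← h10, one_smul, neg_smul, one_smul]
  abel

/-- Twice a weight of the face which is no vertex. -/
theorem half (c : D03.Ctx 𝒜 lam l N β E F) {χ₀ ψ₀ : Fin r → ℤ} (hχ₀ : Vx 𝒜 χ₀)
    (hχl₀ : l χ₀ = l lam) (hψ₀ : Vx 𝒜 ψ₀) (hψl₀ : l ψ₀ = l lam) (h₀ : β χ₀ ψ₀ = 0)
    {ω : Fin r → ℤ} (hω : Wt 𝒜 ω) (hωl : l ω = l lam) (hnv : ¬ Vx 𝒜 ω) :
    ω + ω = χ₀ + ψ₀ := by
  classical
  have hN := c.hN
  have hfin : {χ | Vx 𝒜 χ ∧ l χ = l lam}.Finite :=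
    (D03.wt_finite c.H).subset fun χ hχ => hχ.1.1
  have hb : ∀ χ, ∃ ψ, (Vx 𝒜 χ ∧ l χ = l lam) → ((Vx 𝒜 ψ ∧ l ψ = l lam) ∧ β χ ψ = 0) := by
    intro χ
    by_cases h : Vx 𝒜 χ ∧ l χ = l lam
    · obtain ⟨ψ, hψ⟩ := c.exists_bar h.1 h.2
      exact ⟨ψ, fun _ => hψ⟩
    · exact ⟨0, fun h' => absurd h' h⟩
  choose bar hbar using hb
  apply D03.ext
  intro g
  -- the functional
  obtain ⟨G, hG⟩ : ∃ G : (Fin r → ℤ) →+ ℤ, ∀ x, G x = 4 * N * g x -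
      ∑ χ ∈ hfin.toFinset, g χ * (β χ x - β (bar χ) x) := by
    refine ⟨(4 * N) • g - ∑ χ ∈ hfin.toFinset, (g χ) • (β χ - β (bar χ)), fun x => ?_⟩
    rw [AddMonoidHom.sub_apply, AddMonoidHom.smul_apply, AddMonoidHom.finsetSum_apply, smul_eq_mul]
    congr 1
  have hG2 : ∀ x, Wt 𝒜 x → l x = l lam → G x = 4 * N * g x -
      ∑ χ ∈ hfin.toFinset, g χ * (2 * (β χ x - N)) := by
    intro x hx hxl
    rw [hG]
    congr 1
    refine Finset.sum_congr rfl fun χ hχ => ?_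
    rw [Set.Finite.mem_toFinset] at hχ
    obtain ⟨⟨h1, h2⟩, h3⟩ := hbar χ hχ
    have h4 := c.sum2 hχ.1 hχ.2 h1 h2 h3 hx hxl
    congr 1
    linarith
  have hV : ∀ ψ, Vx 𝒜 ψ → l ψ = l lam → G ψ = 2 * N * (g (χ₀ + ψ₀)) := by
    intro ψ hψ hψl
    obtain ⟨⟨h1, h2⟩, h3⟩ := hbar ψ ⟨hψ, hψl⟩
    have h4 := c.symm0 hψ hψl h1 h2 h3
    have h5 : ψ ≠ bar ψ := by
      intro h
      rw [← h, c.two hψ hψl] at h3
      linarith
    rw [hG2 ψ hψ.1 hψl, Finset.sum_eq_add ψ (bar ψ) h5]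
    · rw [c.two hψ hψl, h4, c.const_sum hχ₀ hχl₀ hψ₀ hψl₀ h₀ hψ hψl h1 h2 h3, map_add]
      ring
    · intro χ hχ hχ2
      rw [Set.Finite.mem_toFinset] at hχ
      obtain ⟨⟨h6, h7⟩, h8⟩ := hbar χ hχ
      have h9 : β χ ψ = N := by
        refine c.other hχ.1 hχ.2 h6 h7 h8 hψ.1 hψl (Ne.symm hχ2.1) ?_
        intro h10
        apply hχ2.2
        rw [h10] at h3
        refine c.uniq hψ hψl h1 h2 (hbar ψ ⟨hψ, hψl⟩).2 hχ.1.1 hχ.2 ?_
        exact c.symm0 hχ.1 hχ.2 hψ hψl (by rw [h10]; exact h8)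
      rw [h9]
      ring
    · intro h
      exact absurd (hfin.mem_toFinset.2 ⟨hψ, hψl⟩) h
    · intro h
      exact absurd (hfin.mem_toFinset.2 ⟨h1, h2⟩) h
  -- constant on the face
  obtain ⟨a1, ha1, hal1, h1⟩ := max_at_vertex c.H l c.hl c.hmax ⟨lam, c.hw, rfl⟩ G
  obtain ⟨a2, ha2, hal2, h2⟩ := max_at_vertex c.H l c.hl c.hmax ⟨lam, c.hw, rfl⟩ (-G)
  have h3 := h1 ω hω hωl
  have h4 := h2 ω hω hωl
  rw [AddMonoidHom.neg_apply, AddMonoidHom.neg_apply, hV a2 ha2 hal2] at h4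
  rw [hV a1 ha1 hal1] at h3
  have h5 : G ω = 2 * N * (g (χ₀ + ψ₀)) := by linarith
  rw [hG2 ω hω hωl, Finset.sum_eq_zero] at h5
  · have h6 : (2 * N) * g (ω + ω) = (2 * N) * g (χ₀ + ψ₀) := by
      rw [← h5, map_add]
      ring
    exact mul_left_cancel₀ (by linarith) h6
  · intro χ hχ
    rw [Set.Finite.mem_toFinset] at hχ
    obtain ⟨⟨h6, h7⟩, h8⟩ := hbar χ hχ
    rw [c.other hχ.1 hχ.2 h6 h7 h8 hω hωl (fun h => hnv (by rw [h]; exact hχ.1))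
      (fun h => hnv (by rw [h]; exact h6))]
    ring

end D03.Ctx

/-- D03. The structure of the minimal face. -/
theorem face_structure (H : Hyp 𝒜) {lam : Fin r → ℤ} (hw : Wt 𝒜 lam)
    (l : (Fin r → ℤ) →+ ℤ) (hl : 0 < l lam) (hmax : ∀ ω, Wt 𝒜 ω → l ω ≤ l lam)
    (hRI : ∀ g : (Fin r → ℤ) →+ ℤ, (∀ ω, Wt 𝒜 ω → l ω = l lam → g ω ≤ g lam) →
        ∀ ω, Wt 𝒜 ω → l ω = l lam → g ω = g lam) :
    ∃ (m : ℕ) (e : Fin m → Fin r → ℤ) (N : ℤ) (β : Fin m → Bool → ((Fin r → ℤ) →+ ℤ))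
      (E F : Fin m → Bool → VF R), 0 < N ∧
      (∀ ω, Wt 𝒜 ω → l ω = l lam → ω = lam ∨ ∃ j s, ω = vx lam e j s) ∧
      (∀ j s, Vx 𝒜 (vx lam e j s)) ∧ (∀ j, l (e j) = 0) ∧
      (∀ j s, Root 𝒜 N (vx lam e j s) (β j s) (E j s) (F j s)) ∧ (∀ j s, β j s lam = N) ∧
      (∀ j s i, β j s (e i) = if i = j then sg s * N else 0) := by
  classical
  by_cases hnv : Vx 𝒜 lam
  · obtain ⟨-, l₁, hl1, hl2⟩ := hnv
    refine ⟨0, fun j => j.elim0, 1, fun j => j.elim0, fun j => j.elim0, fun j => j.elim0, one_pos,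
      fun ω hω hωl => Or.inl ?_, fun j => j.elim0, fun j => j.elim0, fun j => j.elim0,
      fun j => j.elim0, fun j => j.elim0⟩
    by_contra h
    have h1 := hRI l₁ (fun ξ hξ _ => by
      by_cases h2 : ξ = lam
      · rw [h2]
      · exact (hl2 ξ hξ h2).le) ω hω hωl
    have h2 := hl2 ω hω h
    linarith
  · -- the roots of the vertices of the face
    have hfin : {χ | Vx 𝒜 χ ∧ l χ = l lam}.Finite := (D03.wt_finite H).subset fun χ hχ => hχ.1.1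
    let _ : Fintype {χ : Fin r → ℤ // Vx 𝒜 χ ∧ l χ = l lam} := hfin.fintype
    obtain ⟨N, β', E', F', hN, hroot⟩ := exists_roots H
      (fun χ : {χ : Fin r → ℤ // Vx 𝒜 χ ∧ l χ = l lam} => (χ : Fin r → ℤ)) (fun χ => χ.2.1)
    obtain ⟨β, E, F, c⟩ : ∃ (β : (Fin r → ℤ) → ((Fin r → ℤ) →+ ℤ)) (E F : (Fin r → ℤ) → VF R),
        D03.Ctx 𝒜 lam l N β E F := by
      refine ⟨fun χ => if h : Vx 𝒜 χ ∧ l χ = l lam then β' ⟨χ, h⟩ else 0,
        fun χ => if h : Vx 𝒜 χ ∧ l χ = l lam then E' ⟨χ, h⟩ else 0,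
        fun χ => if h : Vx 𝒜 χ ∧ l χ = l lam then F' ⟨χ, h⟩ else 0,
        H, hw, hl, hmax, hRI, hN, fun χ hχ hχl => ?_, hnv⟩
      rw [dif_pos ⟨hχ, hχl⟩, dif_pos ⟨hχ, hχl⟩, dif_pos ⟨hχ, hχl⟩]
      exact hroot ⟨χ, hχ, hχl⟩
    have key : ∀ χ, Vx 𝒜 χ → l χ = l lam → (Vx 𝒜 (lam + lam - χ) ∧ l (lam + lam - χ) = l lam) ∧
        β χ (lam + lam - χ) = 0 := by
      intro χ hχ hχl
      obtain ⟨ψ, ⟨h1, h2⟩, h3⟩ := c.exists_bar hχ hχl
      have h4 := c.half hχ hχl h1 h2 h3 hw rfl hnv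
      have h5 : lam + lam - χ = ψ := by rw [h4, add_sub_cancel_left]
      rw [h5]
      exact ⟨⟨h1, h2⟩, h3⟩
    have hF : ∀ ω, Wt 𝒜 ω → l ω = l lam → ¬ Vx 𝒜 ω → ω = lam := by
      intro ω hω hωl h
      obtain ⟨χ, hχ, hχl, -⟩ := max_at_vertex H l hl hmax ⟨lam, hw, rfl⟩ 0
      obtain ⟨⟨h1, h2⟩, h3⟩ := key χ hχ hχl
      have h4 := c.half hχ hχl h1 h2 h3 hω hωl h
      apply D03.ext
      intro g
      have h5 : g (ω + ω) = g (χ + (lam + lam - χ)) := by rw [h4]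
      rw [map_add, map_add, map_sub, map_add] at h5
      linarith
    -- representatives
    obtain ⟨g, hg⟩ := H587.exists_generic (hfin.union (Set.finite_singleton lam))
    have hg1 : ∀ χ, Vx 𝒜 χ → l χ = l lam → g χ ≠ g lam := by
      intro χ hχ hχl h
      have h1 := hg (Or.inl ⟨hχ, hχl⟩) (Or.inr rfl) h
      exact hnv (by rw [← h1]; exact hχ)
    have hfin2 : {χ | (Vx 𝒜 χ ∧ l χ = l lam) ∧ g lam < g χ}.Finite := hfin.subset fun χ hχ => hχ.1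
    obtain ⟨m, ⟨f⟩⟩ : ∃ m : ℕ, Nonempty
        ({χ : Fin r → ℤ // (Vx 𝒜 χ ∧ l χ = l lam) ∧ g lam < g χ} ≃ Fin m) := by
      let _ : Fintype {χ : Fin r → ℤ // (Vx 𝒜 χ ∧ l χ = l lam) ∧ g lam < g χ} := hfin2.fintype
      exact ⟨_, ⟨Fintype.equivFin _⟩⟩
    have ht : ∀ j, vx lam (fun j => ((f.symm j : Fin r → ℤ) - lam)) j true =
        (f.symm j : Fin r → ℤ) := by
      intro j
      rw [vx, sg_true, one_smul, add_sub_cancel]
    have hf : ∀ j, vx lam (fun j => ((f.symm j : Fin r → ℤ) - lam)) j false =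
        lam + lam - (f.symm j : Fin r → ℤ) := by
      intro j
      rw [vx, sg_false, neg_smul, one_smul]
      abel
    have hv : ∀ j s, Vx 𝒜 (vx lam (fun j => ((f.symm j : Fin r → ℤ) - lam)) j s) ∧
        l (vx lam (fun j => ((f.symm j : Fin r → ℤ) - lam)) j s) = l lam := by
      intro j s
      have h1 := (f.symm j).2.1
      cases s
      · rw [hf]
        exact (key _ h1.1 h1.2).1
      · rw [ht]
        exact h1
    refine ⟨m, fun j => (f.symm j : Fin r → ℤ) - lam, N, fun j s => β (vx lam _ j s),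
      fun j s => E (vx lam _ j s), fun j s => F (vx lam _ j s), hN, ?_, fun j s => (hv j s).1,
      ?_, fun j s => c.root _ (hv j s).1 (hv j s).2, fun j s => c.val_lam (hv j s).1 (hv j s).2,
      ?_⟩
    · intro ω hω hωl
      by_cases h : Vx 𝒜 ω
      · right
        rcases lt_or_gt_of_ne (hg1 ω h hωl) with h1 | h1
        · obtain ⟨h2, -⟩ := key ω h hωl
          refine ⟨f ⟨lam + lam - ω, h2, ?_⟩, false, ?_⟩
          · rw [map_sub, map_add]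
            linarith
          · rw [hf, Equiv.symm_apply_apply, sub_sub_cancel]
        · refine ⟨f ⟨ω, ⟨h, hωl⟩, h1⟩, true, ?_⟩
          rw [ht, Equiv.symm_apply_apply]
      · exact Or.inl (hF ω hω hωl h)
    · intro j
      rw [map_sub, (f.symm j).2.1.2, sub_self]
    · intro j s i
      have hj := (f.symm j).2
      have hi := (f.symm i).2
      obtain ⟨⟨h1, h2⟩, h3⟩ := key _ hj.1.1 hj.1.2
      have h4 := c.symm0 hj.1.1 hj.1.2 h1 h2 h3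
      have hne : (f.symm i : Fin r → ℤ) ≠ lam + lam - (f.symm j : Fin r → ℤ) := by
        intro h
        have h5 : g (f.symm i : Fin r → ℤ) = g (lam + lam - (f.symm j : Fin r → ℤ)) := by rw [h]
        rw [map_sub, map_add] at h5
        have h6 := hj.2
        have h7 := hi.2
        linarith
      cases s
      · beta_reduce
        rw [hf, map_sub, c.val_lam h1 h2]
        by_cases hij : i = j
        · subst hij
          rw [if_pos rfl, h4, sg_false]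
          ring
        · rw [if_neg hij, c.other h1 h2 hj.1.1 hj.1.2 h4 hi.1.1.1 hi.1.2 hne (fun h => hij
            (f.symm.injective (Subtype.ext h))), sub_self]
      · beta_reduce
        rw [ht, map_sub, c.val_lam hj.1.1 hj.1.2]
        by_cases hij : i = j
        · subst hij
          rw [if_pos rfl, c.two hi.1.1 hi.1.2, sg_true]
          ring
        · rw [if_neg hij, c.other hj.1.1 hj.1.2 h1 h2 h3 hi.1.1.1 hi.1.2 (fun h => hij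
            (f.symm.injective (Subtype.ext h))) hne, sub_self]

end Vale.Agent.P280.N
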