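import Vale.Agent.P280.N.D02
import Vale.Agent.P280.N.D03
import Vale.Agent.P280.H448.FaceGen
import Vale.Agent.P280.H448.Brk

/-! P280, plan N: package D04. -/

open DirectSum Vale.Agent.P280.T Vale.Agent.P280.H127

namespace Vale.Agent.P280.N

variable {r : ℕ} {R : Type} [CommRing R] [IsDomain R] [Algebra ℂ R]
  {𝒜 : ℕ × (Fin r → ℤ) → Submodule ℂ R} [GradedAlgebra 𝒜]

/-- D04. The roots `χ_t - χ_u` of the face. -/
theorem face_roots (H : Hyp 𝒜) {lam : Fin r → ℤ} (hw : Wt 𝒜 lam)
    (l : (Fin r → ℤ) →+ ℤ) (hl : 0 < l lam) (hmax : ∀ ω, Wt 𝒜 ω → l ω ≤ l lam)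
    {m : ℕ} {e : Fin m → Fin r → ℤ} {N : ℤ} {β : Fin m → Bool → ((Fin r → ℤ) →+ ℤ)}
    {E F : Fin m → Bool → VF R} (hN : 0 < N) (hlz : ∀ j, l (e j) = 0)
    (hV : ∀ j s, Vx 𝒜 (vx lam e j s))
    (hr : ∀ j s, Root 𝒜 N (vx lam e j s) (β j s) (E j s) (F j s)) (hbl : ∀ j s, β j s lam = N)
    (hbe : ∀ j s i, β j s (e i) = if i = j then sg s * N else 0) (i j : Fin m) (hij : i ≠ j)
    (s s' : Bool) (μ : Fin r → ℤ) (hμ : Wt 𝒜 μ) (hne : μ ≠ sg s • e i - sg s' • e j)
    (hne' : μ ≠ -(sg s • e i - sg s' • e j)) : |β i s μ - β j s' μ| ≤ N := by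
  have hdiff : vx lam e i s - vx lam e j s' = sg s • e i - sg s' • e j := by
    rw [vx, vx]
    abel
  have hsq : ∀ t : Bool, sg t * sg t = 1 := fun t => by cases t <;> simp [sg]
  -- values of the two functionals at the two vertices
  have h12 : β i s (vx lam e j s') = N := by
    rw [vx, map_add, map_zsmul, hbl, hbe, if_neg (Ne.symm hij), smul_zero, add_zero]
  have h21 : β j s' (vx lam e i s) = N := by
    rw [vx, map_add, map_zsmul, hbl, hbe, if_neg hij, smul_zero, add_zero]
  have hvl : ∀ k t, l (vx lam e k t) = l lam := fun k t => by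
    rw [vx, map_add, map_zsmul, hlz, smul_zero, add_zero]
  -- the difference is a vertex
  have hvx : Vx 𝒜 (sg s • e i - sg s' • e j) := by
    have h1 := reflect_vertex H hN (hV j s') (hr j s') (hV i s) (k := 1) (by rw [h21, one_mul])
    rwa [one_smul, hdiff] at h1
  obtain ⟨α₁, hα₁⟩ := (hr i s).br
  obtain ⟨α₂, hα₂⟩ := (hr j s').br
  -- zero brackets
  have hE : ⁅E i s, E j s'⁆ = 0 := by
    by_contra h0
    have h1 := hull_field H l hl.le hmax ((hr i s).globE.lie (hr j s').globE)
      ((hr i s).hvE.lie (hr j s').hvE) h0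
    rw [map_add, hvl, hvl] at h1
    omega
  have hF : ⁅F j s', F i s⁆ = 0 := by
    by_contra h0
    have h1 := hull_field H (-l) hl.le (fun ω hω => by
      have h2 := neg_max H l hl hmax ω hω
      rw [AddMonoidHom.neg_apply]
      omega) ((hr j s').globF.lie (hr i s).globF) ((hr j s').hvF.lie (hr i s).hvF) h0
    rw [AddMonoidHom.neg_apply, map_add, map_neg, map_neg, hvl, hvl] at h1
    omega
  have hHF : ⁅⁅E i s, F i s⁆, F j s'⁆ = -((N : ℂ) • F j s') := by
    rw [H448.diag_lie hα₁ (hr j s').hvF (hr j s').globF, map_neg, h12, Int.cast_neg]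
    exact neg_smul (N : ℂ) (F j s')
  have hHE : ⁅⁅E j s', F j s'⁆, E i s⁆ = (N : ℂ) • E i s := by
    rw [H448.diag_lie hα₂ (hr i s).hvE (hr i s).globE, h21]
  have hbb := H448.brk_brk rfl rfl hE hF hHF hHE
  have hN0 : (N : ℂ) ≠ 0 := by exact_mod_cast hN.ne'
  have hroot : Root0 𝒜 N (sg s • e i - sg s' • e j) (β i s - β j s') ⁅F j s', E i s⁆
      ((N : ℂ)⁻¹ • ⁅F i s, E j s'⁆) :=
    { globE := (hr j s').globF.lie (hr i s).globE
      globF := ((hr i s).globF.lie (hr j s').globE).smulC _
      hvE := ((hr j s').hvF.lie (hr i s).hvE).cast (by rw [← hdiff]; abel)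
      hvF := (((hr i s).hvF.lie (hr j s').hvE).smulC _).cast (by rw [← hdiff]; abel)
      two := by
        rw [AddMonoidHom.sub_apply, map_sub, map_sub, map_zsmul, map_zsmul, map_zsmul, map_zsmul,
          hbe, hbe, hbe, hbe, if_pos rfl, if_neg (Ne.symm hij), if_neg hij, if_pos rfl]
        simp only [smul_eq_mul]
        linear_combination N * hsq s + N * hsq s'
      br := by
        refine ⟨α₁ - α₂, fun d m h hh => ?_⟩
        rw [vlie_smul, hbb, Derivation.smul_apply, Derivation.sub_apply, Derivation.smul_apply,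
          Derivation.smul_apply, hα₁ d m h hh, hα₂ d m h hh, ← smul_sub, smul_smul,
          inv_mul_cancel₀ hN0, one_smul, AddMonoidHom.sub_apply, ← neg_smul, ← neg_smul,
          ← neg_smul, ← sub_smul]
        congr 1
        push_cast
        ring }
  have h1 := root_bd H hN hvx hroot hμ hne hne'
  rwa [AddMonoidHom.sub_apply] at h1

/-- D05. The result of group D: an edge (or a vertex), or a face with `m ≥ 2`. -/
theorem exists_face (H : Hyp 𝒜) {lam : Fin r → ℤ} (hw : Wt 𝒜 lam) (l : (Fin r → ℤ) →+ ℤ)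
    (hl : 0 < l lam) (hmax : ∀ ω, Wt 𝒜 ω → l ω ≤ l lam) :
    (∃ (l' : (Fin r → ℤ) →+ ℤ) (δ : Fin r → ℤ), 0 < l' lam ∧ ∀ ω, Wt 𝒜 ω → l' ω ≤ l' lam ∧
      (l' ω = l' lam → ∃ a b : ℤ, b ≠ 0 ∧ b • (ω - lam) = a • δ)) ∨
    ∃ N m e L0 β E F, Face 𝒜 N lam m e L0 β E F := by
  classical
  obtain ⟨l', hl', hmax', hRI⟩ := min_face H hw l hl hmax
  obtain ⟨m, e, N, β, E, F, hN, htop, hV, hlz, hr, hbl, hbe⟩ :=
    face_structure H hw l' hl' hmax' hRI
  by_cases hm : m ≤ 1
  · left
    refine ⟨l', if h : 0 < m then e ⟨0, h⟩ else 0, hl', fun ω hω => ⟨hmax' ω hω, fun h => ?_⟩⟩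
    rcases htop ω hω h with rfl | ⟨j, s, rfl⟩
    · exact ⟨0, 1, one_ne_zero, by simp⟩
    · have hm0 : 0 < m := lt_of_le_of_lt (Nat.zero_le _) j.2
      have hj : j = ⟨0, hm0⟩ := Fin.ext (by
        have := j.2
        simp only
        omega)
      refine ⟨sg s, 1, one_ne_zero, ?_⟩
      rw [dif_pos hm0, ← hj, vx, add_sub_cancel_left, one_smul]
  · right
    push Not at hm
    obtain ⟨g, hge, hg⟩ := H448.exists_generic_face (H448.wt_finite H) e N (fun i => β i true)
      (fun i j => by rw [hbe, sg, if_pos rfl, one_mul])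
    obtain ⟨K, hK0, hK⟩ := H448.exists_bd H g
    have hL : ∀ μ, ((2 * K + 1) • l' + g) μ = (2 * K + 1) * l' μ + g μ := fun μ => by
      rw [AddMonoidHom.add_apply, AddMonoidHom.smul_apply, smul_eq_mul]
    have hvl : ∀ j s, l' (vx lam e j s) = l' lam := fun j s => by
      rw [vx, map_add, map_zsmul, hlz, smul_zero, add_zero]
    have hvg : ∀ j s, g (vx lam e j s) = g lam := fun j s => by
      rw [vx, map_add, map_zsmul, hge, smul_zero, add_zero]
    have hlam := abs_le.1 (hK lam hw)
    have htop' : ∀ ω, Wt 𝒜 ω → l' ω = l' lam → g ω = g lam := fun ω hω h => by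
      rcases htop ω hω h with rfl | ⟨j, s, rfl⟩
      · rfl
      · exact hvg j s
    have hlt : ∀ ω, Wt 𝒜 ω → l' ω < l' lam →
        (2 * K + 1) * l' ω + g ω < (2 * K + 1) * l' lam + g lam := fun ω hω h => by
      have h1 := abs_le.1 (hK ω hω)
      nlinarith
    refine ⟨N, m, e, (2 * K + 1) • l' + g, β, E, F,
      { N0 := hN
        m2 := hm
        wt := hw
        pos := ?_
        max := fun ω hω => ?_
        top := fun ω hω h => ?_
        lze := fun j => ?_
        root := hr
        bl := hbl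
        be := hbe
        S := fun μ hμ h => ?_ }⟩
    · rw [hL]
      nlinarith
    · rw [hL, hL]
      rcases (hmax' ω hω).lt_or_eq with h | h
      · exact (hlt ω hω h).le
      · rw [h, htop' ω hω h]
    · rw [hL, hL] at h
      rcases (hmax' ω hω).lt_or_eq with h' | h'
      · exact absurd h (hlt ω hω h').ne
      · exact htop ω hω h'
    · rw [hL, hlz, hge, mul_zero, add_zero]
    · rw [hL] at h
      have h1 := abs_le.1 (hK μ hμ)
      have h2 : l' μ = 0 := by
        rcases lt_trichotomy (l' μ) 0 with h3 | h3 | h3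
        · nlinarith
        · exact h3
        · nlinarith
      have h3 : g μ = 0 := by
        rw [h2, mul_zero, zero_add] at h
        exact h
      have hnv : ∀ j s, μ ≠ vx lam e j s ∧ μ ≠ -vx lam e j s := fun j s => by
        constructor
        · rintro rfl
          rw [hvl] at h2
          exact hl'.ne' h2
        · rintro rfl
          rw [map_neg, hvl] at h2
          omega
      refine H448.form_of_coords hN (fun i => β i true) (H448.wt_ne_zero H hμ) (hg μ hμ h3)
        (fun i => (hr i true).int μ hμ)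
        (fun i => (hr i true).bd μ hμ (hnv i true).1 (hnv i true).2) ?_
      intro i j hij s s' hs hs'
      by_contra hcon
      push Not at hcon
      have hmu := hg μ hμ h3
      -- the values of the other fields of the face
      have hβ : ∀ k t, β k t μ = sg t * β k true μ := fun k t => by
        have h4 := congrArg (β k t) hmu
        rw [map_zsmul, map_sum, Finset.sum_eq_single k] at h4
        · rw [map_zsmul, hbe, if_pos rfl, smul_eq_mul, smul_eq_mul] at h4
          have h5 : N * (β k t μ - sg t * β k true μ) = 0 := by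
            rw [mul_sub, h4]
            ring
          exact sub_eq_zero.1 ((mul_eq_zero.1 h5).resolve_left hN.ne')
        · intro a _ ha
          rw [map_zsmul, hbe, if_neg ha, smul_zero]
        · intro h
          exact absurd (Finset.mem_univ k) h
      have hng : sg (!s') = -sg s' := by cases s' <;> simp [sg]
      have hsq : ∀ t : Bool, sg t * sg t = 1 := fun t => by cases t <;> simp [sg]
      have h6 := face_roots H hw l' hl' hmax' hN hlz hV hr hbl hbe i j hij s (!s') μ hμ
        (fun h => hcon.1 (by rw [h, hng, neg_smul, sub_neg_eq_add]))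
        (fun h => hcon.2 (by rw [h, hng, neg_smul, sub_neg_eq_add]))
      have h7 : β i s μ = N := by
        rw [hβ, hs, ← mul_assoc, hsq, one_mul]
      have h8 : β j (!s') μ = -N := by
        rw [hβ, hs', ← mul_assoc, hng, neg_mul, hsq, neg_one_mul]
      rw [h7, h8, sub_neg_eq_add, abs_of_pos (by omega)] at h6
      omega

end Vale.Agent.P280.N
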