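import Vale.Agent.P280.N.F01
import Vale.Agent.P280.N.D04
import Vale.Agent.P280.H900.Den

/-! P280, plan N: package F02. -/

open DirectSum Vale.Agent.P280.T Vale.Agent.P280.H127

namespace Vale.Agent.P280.N

variable {r : ℕ} {R : Type} [CommRing R] [IsDomain R] [Algebra ℂ R]
  {𝒜 : ℕ × (Fin r → ℤ) → Submodule ℂ R} [GradedAlgebra 𝒜]

/-- A global field with a given value at a fixed point, as a derivation of `R`. -/
theorem exists_der_of_glob {y : FP 𝒜} {ω : Fin r → ℤ} {t : R →ₗ[ℂ] ℂ}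
    (h : ∃ D : VF R, Glob D ∧ HV 𝒜 ω D ∧ ValV y.q D t) :
    ∃ D : Derivation ℂ R R, (∀ (d : ℕ) (m : Fin r → ℤ), ∀ h ∈ 𝒜 (d, m), D h ∈ 𝒜 (d, m - ω)) ∧
      ∀ h, y.q (D h) = t h := by
  obtain ⟨D, h1, h2, h3⟩ := h
  obtain ⟨D, rfl, h4⟩ := h1.exists_hder h2
  refine ⟨D, h4, fun h => ?_⟩
  have h5 := h3 h
  rw [toVF_iK] at h5
  exact (Val.iK (D h)).unique h5

/-- A weight whose field does not vanish where it is a tangent weight is liftable. -/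
theorem exists_glob_of_ne (H : Hyp 𝒜) {y : FP 𝒜} {ω : Fin r → ℤ} (hω : y.Pi ω) {E : VF R}
    (hE : Glob E) (hEv : HV 𝒜 ω E) (hE0 : ¬ ValV y.q E 0) {t : R →ₗ[ℂ] ℂ}
    (ht : IsTangent y.q t) (hw : HasWeight 𝒜 y.ν ω t) :
    ∃ D : VF R, Glob D ∧ HV 𝒜 ω D ∧ ValV y.q D t := by
  obtain ⟨t', ht'⟩ := hE.rgV.val (q := y.q)
  have h1 : IsTangent y.q t' := ht'.isTangent
  have h2 : HasWeight 𝒜 y.ν ω t' := hEv.hasWeight H.hX y.nv y.fix ht'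
  obtain ⟨c, c', h3, h4⟩ := H.mult y.q y.ν ω y.nv y.fix hω t t' ht hw h1 h2
  have hc : c ≠ 0 := by
    rintro rfl
    have hc' : c' ≠ 0 := h3.resolve_left fun h => h rfl
    apply hE0
    have h5 : t' = 0 := by
      ext h
      have h6 := h4 h
      rw [zero_mul, zero_add] at h6
      exact (mul_eq_zero.1 h6).resolve_left hc'
    rwa [h5] at ht'
  refine ⟨(-(c' / c)) • E, hE.smulC _, hEv.smulC _, ?_⟩
  have h5 := ht'.smulC (-(c' / c))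
  have h6 : (-(c' / c)) • t' = t := by
    ext h
    have h7 := h4 h
    rw [LinearMap.smul_apply, smul_eq_mul]
    field_simp
    linear_combination -h7
  rwa [h6] at h5

/-- F02. -/
theorem liftable_boundary (H : Hyp 𝒜) {lam : Fin r → ℤ} (hw : Wt 𝒜 lam)
    (l : (Fin r → ℤ) →+ ℤ) (hl : 0 < l lam) (hmax : ∀ ω, Wt 𝒜 ω → l ω ≤ l lam) :
    Liftable 𝒜 lam := by
  obtain ⟨g, hg⟩ := H587.exists_generic (finite_weights H.hX)
  rcases exists_face H hw l hl hmax with ⟨l', δ, h1, h2⟩ | ⟨N, m, e, L0, β, E, F, hF⟩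
  · obtain ⟨x, hx⟩ := hw
    exact (H93.edge_facts H.hX H.hN H.iso H.ind H.mult x.nv x.fix hx l' δ h1
      (fun y ξ ω hy0 hy hω => h2 ω ⟨⟨y, ξ, hy0, hy⟩, hω⟩)).1
  · refine H900.liftable_of_fixed (L := L0) H.hX H.hN hg hF.pos
      (fun x ν ω hx0 hx hω => hF.max ω ⟨⟨x, ν, hx0, hx⟩, hω⟩) ?_
    intro y ν ω hy0 hy hlow hω hval v hv hvw
    let y' : FP 𝒜 := ⟨y, ν, hy0, hy⟩
    have hy' : Low L0 y' := (H900.low_iff H.hX).2 hlow
    have hω' : y'.Pi ω := hω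
    refine exists_der_of_glob (y := y') ?_
    rcases hF.top ω ⟨y', hω'⟩ hval with rfl | ⟨j, s, rfl⟩
    · exact p4 H hF y' (low_pos hy') hω' hv hvw
    · exact exists_glob_of_ne H hω' (hF.root j s).globE (hF.root j s).hvE
        ((hF.root j s).atE y' hω') hv hvw

/-- F03. The theorem. -/
theorem homogeneous_of_boundary (H : Hyp 𝒜) (l : (Fin r → ℤ) →+ ℤ) (p : R →ₐ[ℂ] ℂ)
    (μ : Fin r → ℤ) (a : ℤ) (hs : IsSource 𝒜 l p μ a)
    (h : ∀ χ, TangentWeight 𝒜 p μ χ → ∃ l' : (Fin r → ℤ) →+ ℤ, 0 < l' χ ∧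
      ∀ y ξ ω, ¬ IsVertex 𝒜 y → IsFixed 𝒜 y ξ → TangentWeight 𝒜 y ξ ω → l' ω ≤ l' χ) :
    IsHomogeneousManifold 𝒜 ∧ IsTransitive 𝒜 := by
  obtain ⟨g, hg⟩ := H587.exists_generic (finite_weights H.hX)
  refine H455.cor_lift H.hX hs fun χ hχ => ?_
  obtain ⟨l', h1, h2⟩ := h χ hχ
  have hw : Wt 𝒜 χ := ⟨⟨p, μ, hs.1, hs.2.1⟩, hχ⟩
  have h3 : (-l') (-χ) = l' χ := by
    change - l' (-χ) = _
    rw [map_neg, neg_neg]
  refine ⟨liftable_boundary H hw l' h1 fun ω ⟨y, hy⟩ => h2 y.q y.ν ω y.nv y.fix hy, ?_,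
    fun x ν w hw hx0 hx => H93.no_multiple' H.hX hg h1 h2 x ν w hw hx0 hx⟩
  intro x ν hx0 hx hxχ
  refine liftable_boundary H ⟨⟨x, ν, hx0, hx⟩, hxχ⟩ (-l') (by rw [h3]; exact h1) ?_ x ν hx0 hx hxχ
  rintro ω ⟨y, hy⟩
  rw [h3]
  exact H93.neg_bound H.hX hg h1 h2 y.q y.ν ω y.nv y.fix hy

end Vale.Agent.P280.N
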