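import Vale.Agent.P280.N.B00
import Vale.Agent.P280.H746.Curve

/-! P280, plan N: package B01. -/

open DirectSum Vale.Agent.P280.T Vale.Agent.P280.H127

namespace Vale.Agent.P280.N

variable {r : ℕ} {R : Type} [CommRing R] [IsDomain R] [Algebra ℂ R]
  {𝒜 : ℕ × (Fin r → ℤ) → Submodule ℂ R} [GradedAlgebra 𝒜]

/-- B01 (TC). -/
theorem exists_curve (H : Hyp 𝒜) (y : FP 𝒜) {a : Fin r → ℤ} (ha : y.Pi a) :
    ∃ (y' : FP 𝒜) (n : ℕ) (φ : R →ₐ[ℂ] Polynomial ℂ), Curve y y' a n φ :=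
  H746.exists_curve_main H y ha

end Vale.Agent.P280.N
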