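import Vale.Agent.P280.N.A01
import Vale.Agent.P280.H900.RankP

/-! P280, plan N: package A16. -/

open DirectSum Vale.Agent.P280.T Vale.Agent.P280.H127

namespace Vale.Agent.P280.N

variable {r : ℕ} {R : Type} [CommRing R] [IsDomain R] [Algebra ℂ R]
  {𝒜 : ℕ × (Fin r → ℤ) → Submodule ℂ R} [GradedAlgebra 𝒜]

/-- A16 (RC): constancy of ranks along `V(P)`. -/
theorem rc (H : Hyp 𝒜) (l : (Fin r → ℤ) →+ ℤ) (P : Ideal R) (hP : P.IsPrime)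
    (hPh : ∀ x ∈ P, ∀ i, (decompose 𝒜 x i : R) ∈ P) (γ : ℤ)
    (hγ : ∀ d m, ∀ h ∈ 𝒜 (d, m), h ∉ P → l m = d • γ) (y y' : FP 𝒜) (hy : ∀ h ∈ P, y.q h = 0)
    (hy' : ∀ h ∈ P, y'.q h = 0) (k : ℤ) (hk : k ≠ 0) :
    {χ | y.Pi χ ∧ l χ = k}.ncard = {χ | y'.Pi χ ∧ l χ = k}.ncard :=
  H900.ncard_prime H.hX l hP hγ y.nv y.fix hy y'.nv y'.fix hy'
    (fun ω hω => H.mult y.q y.ν ω y.nv y.fix hω)
    (fun ω hω => H.mult y'.q y'.ν ω y'.nv y'.fix hω) hk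

theorem rc_low (H : Hyp 𝒜) (l : (Fin r → ℤ) →+ ℤ) (y y' : FP 𝒜) (hy : Low l y) (hy' : Low l y')
    (k : ℤ) (hk : k ≠ 0) :
    {χ | y.Pi χ ∧ l χ = k}.ncard = {χ | y'.Pi χ ∧ l χ = k}.ncard := by
  have h1 : ∀ z z' : FP 𝒜, Low l z → Low l z' → l z.ν ≤ l z'.ν := by
    intro z z' hz _
    obtain ⟨f, hf, hzf⟩ := exists_deg_one_ne H.hX.gen z'.nv z'.fix
    have h2 := hz 1 z'.ν f hf (fun h0 => hzf (by rw [h0, map_zero]))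
    rwa [one_smul] at h2
  exact H900.ncard_const H.hX y.nv y.fix y'.nv y'.fix
    (fun ω hω => H.mult y.q y.ν ω y.nv y.fix hω)
    (fun ω hω => H.mult y'.q y'.ν ω y'.nv y'.fix hω)
    ((H900.low_iff H.hX (y := y)).1 hy) (le_antisymm (h1 y' y hy' hy) (h1 y y' hy hy')) hk

end Vale.Agent.P280.N
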