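import Vale.Agent.P280.N.B00
import Vale.Agent.P280.N.A16

/-! P280, plan N: package B02. -/

open DirectSum Vale.Agent.P280.T Vale.Agent.P280.H127

namespace Vale.Agent.P280.N

section ker
variable {ι R B : Type} [AddMonoid ι] [DecidableEq ι] [CommRing R] [Algebra ℂ R]
variable [CommRing B] [Algebra ℂ B] (𝒜 : ι → Submodule ℂ R) [GradedAlgebra 𝒜]

/-- `(x_i) ↦ ∑ i, φ (x_i) T ^ i`. -/
noncomputable def grAux (φ : R →ₐ[ℂ] B) : (⨁ i, 𝒜 i) →ₐ[ℂ] AddMonoidAlgebra B ι :=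
  DirectSum.toAlgebra ℂ (fun i => 𝒜 i)
    (fun i => ((AddMonoidAlgebra.lsingle i : B →ₗ[ℂ] AddMonoidAlgebra B ι).comp
      φ.toLinearMap).comp (𝒜 i).subtype)
    (by
      change AddMonoidAlgebra.single (0 : ι) (φ 1) = (1 : AddMonoidAlgebra B ι)
      rw [map_one]
      rfl)
    (by
      intro i j a b
      change AddMonoidAlgebra.single (i + j) (φ ((a : R) * b)) =
        AddMonoidAlgebra.single i (φ a) * AddMonoidAlgebra.single j (φ b)
      rw [map_mul]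
      exact (AddMonoidAlgebra.single_mul_single ..).symm)

theorem grAux_of (φ : R →ₐ[ℂ] B) (i : ι) (a : 𝒜 i) :
    grAux 𝒜 φ (DirectSum.of (fun i => 𝒜 i) i a) = AddMonoidAlgebra.single i (φ a) :=
  DirectSum.toAddMonoid_of (fun i => (((AddMonoidAlgebra.lsingle i : B →ₗ[ℂ]
    AddMonoidAlgebra B ι).comp φ.toLinearMap).comp (𝒜 i).subtype).toAddMonoidHom) i a

/-- `x ↦ ∑ i, φ (x_i) T ^ i`. -/
noncomputable def grMap (φ : R →ₐ[ℂ] B) : R →ₐ[ℂ] AddMonoidAlgebra B ι :=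
  (grAux 𝒜 φ).comp (DirectSum.decomposeAlgEquiv 𝒜 : R →ₐ[ℂ] ⨁ i, 𝒜 i)

variable {𝒜}

theorem grMap_mem (φ : R →ₐ[ℂ] B) {i : ι} {h : R} (hh : h ∈ 𝒜 i) :
    grMap 𝒜 φ h = AddMonoidAlgebra.single i (φ h) := by
  have h2 : grMap 𝒜 φ h = grAux 𝒜 φ (DirectSum.decompose 𝒜 h) := rfl
  rw [h2, DirectSum.decompose_of_mem _ hh, grAux_of]

theorem grMap_coeff (φ : R →ₐ[ℂ] B) (x : R) (i : ι) :
    (grMap 𝒜 φ x).coeff i = φ (decompose 𝒜 x i) := by
  induction x using DirectSum.Decomposition.inductionOn 𝒜 with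
  | zero => simp
  | @homogeneous j a =>
    rw [grMap_mem φ a.2]
    by_cases h : j = i
    · subst h
      rw [DirectSum.decompose_of_mem_same 𝒜 a.2]
      simp
    · rw [DirectSum.decompose_of_mem_ne 𝒜 a.2 h, map_zero]
      simp [h]
  | add a b ha hb =>
    rw [map_add, decompose_add, DirectSum.add_apply, Submodule.coe_add, map_add, ← ha, ← hb]
    simp

theorem mem_ker_grMap {φ : R →ₐ[ℂ] B} {x : R} :
    x ∈ RingHom.ker (grMap 𝒜 φ) ↔ ∀ i, φ (decompose 𝒜 x i) = 0 := by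
  rw [RingHom.mem_ker]
  constructor
  · intro h i
    rw [← grMap_coeff, h]
    simp
  · intro h
    ext i
    rw [grMap_coeff, h]
    simp

theorem mem_ker_grMap_of_mem {φ : R →ₐ[ℂ] B} {i : ι} {h : R} (hh : h ∈ 𝒜 i) :
    h ∈ RingHom.ker (grMap 𝒜 φ) ↔ φ h = 0 := by
  rw [mem_ker_grMap]
  constructor
  · intro h1
    have h2 := h1 i
    rwa [DirectSum.decompose_of_mem_same 𝒜 hh] at h2
  · intro h1 j
    by_cases hj : i = j
    · subst hj
      rwa [DirectSum.decompose_of_mem_same 𝒜 hh]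
    · rw [DirectSum.decompose_of_mem_ne 𝒜 hh hj, map_zero]

theorem ker_grMap_homogeneous {φ : R →ₐ[ℂ] B} {x : R} (hx : x ∈ RingHom.ker (grMap 𝒜 φ)) (i : ι) :
    (decompose 𝒜 x i : R) ∈ RingHom.ker (grMap 𝒜 φ) := by
  rw [mem_ker_grMap_of_mem (SetLike.coe_mem _)]
  exact mem_ker_grMap.1 hx i

/-- A linear functional which vanishes on the homogeneous elements killed by `φ` vanishes on the
kernel. -/
theorem eq_zero_of_ker {φ : R →ₐ[ℂ] B} (q : R →ₐ[ℂ] ℂ) (hq : ∀ i, ∀ h ∈ 𝒜 i, φ h = 0 → q h = 0)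
    {x : R} (hx : x ∈ RingHom.ker (grMap 𝒜 φ)) : q x = 0 := by
  classical
  rw [← DirectSum.sum_support_decompose 𝒜 x, map_sum]
  exact Finset.sum_eq_zero fun i _ => hq i _ (SetLike.coe_mem _) (mem_ker_grMap.1 hx i)

end ker

variable {r : ℕ} {R : Type} [CommRing R] [IsDomain R] [Algebra ℂ R]
  {𝒜 : ℕ × (Fin r → ℤ) → Submodule ℂ R} [GradedAlgebra 𝒜]

/-- B02 (TCnt), from `rc`: the number of weights in a class modulo `a` is the same at both ends. -/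
theorem curve_count (H : Hyp 𝒜) {y y' : FP 𝒜} {a : Fin r → ℤ} {n : ℕ}
    {φ : R →ₐ[ℂ] Polynomial ℂ} (hφ : Curve y y' a n φ) (l : (Fin r → ℤ) →+ ℤ) (hl : l a = 0)
    (k : ℤ) (hk : k ≠ 0) :
    {χ | y.Pi χ ∧ l χ = k}.ncard = {χ | y'.Pi χ ∧ l χ = k}.ncard := by
  refine rc H l (RingHom.ker (grMap 𝒜 φ)) (RingHom.ker_isPrime _)
    (fun x hx i => ker_grMap_homogeneous hx i) (l y.ν) ?_ y y' ?_ ?_ k hk
  · intro d m h hh hne
    have h1 : φ h ≠ 0 := fun h0 => hne ((mem_ker_grMap_of_mem hh).2 h0)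
    obtain ⟨i, -, hm, -⟩ := hφ.hom d m h hh h1
    rw [hm, map_add, map_nsmul, map_nsmul, hl, smul_zero, add_zero]
  · intro x hx
    refine eq_zero_of_ker (𝒜 := 𝒜) y.q (fun i h _ h0 => ?_) hx
    rw [← hφ.ev, h0, Polynomial.eval_zero]
  · intro x hx
    refine eq_zero_of_ker (𝒜 := 𝒜) y'.q (fun i h hh h0 => ?_) hx
    rw [← hφ.ev' i.1 i.2 h hh, h0, Polynomial.coeff_zero]

end Vale.Agent.P280.N
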