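import Mathlib

/-! P280, plan N, M3: `[e, f]` is semisimple (linear algebra). -/

namespace Vale.Agent.P280.N

namespace M3

variable {V : Type*} [AddCommGroup V] [Module ℂ V]

/-- the relations, applied to vectors -/
structure Rel (e f hs Z : Module.End ℂ V) : Prop where
  ef : ∀ v, e (f v) = f (e v) + hs v + Z v
  he : ∀ v, hs (e v) = e (hs v) + (2 : ℂ) • e v
  hf : ∀ v, hs (f v) = f (hs v) - (2 : ℂ) • f v
  Ze : ∀ v, Z (e v) = e (Z v)
  Zf : ∀ v, Z (f v) = f (Z v)
  Zh : ∀ v, Z (hs v) = hs (Z v)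

variable {e f hs Z : Module.End ℂ V}

theorem Rel.hf_pow (H : Rel e f hs Z) (k : ℕ) (v : V) :
    hs ((f ^ k) v) = (f ^ k) (hs v) - (2 * (k : ℂ)) • (f ^ k) v := by
  induction k with
  | zero => simp
  | succ k ih =>
    rw [pow_succ', Module.End.mul_apply, Module.End.mul_apply, H.hf, ih, map_sub, map_smul]
    push_cast
    module

theorem Rel.he_pow (H : Rel e f hs Z) (k : ℕ) (v : V) :
    hs ((e ^ k) v) = (e ^ k) (hs v) + (2 * (k : ℂ)) • (e ^ k) v := by
  induction k with
  | zero => simp
  | succ k ih =>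
    rw [pow_succ', Module.End.mul_apply, Module.End.mul_apply, H.he, ih, map_add, map_smul]
    push_cast
    module

theorem Rel.Zf_pow (H : Rel e f hs Z) (k : ℕ) (v : V) : Z ((f ^ k) v) = (f ^ k) (Z v) := by
  induction k with
  | zero => simp
  | succ k ih => rw [pow_succ', Module.End.mul_apply, Module.End.mul_apply, H.Zf, ih]

theorem Rel.Ze_pow (H : Rel e f hs Z) (k : ℕ) (v : V) : Z ((e ^ k) v) = (e ^ k) (Z v) := by
  induction k with
  | zero => simp
  | succ k ih => rw [pow_succ', Module.End.mul_apply, Module.End.mul_apply, H.Ze, ih]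

theorem Rel.ef_pow (H : Rel e f hs Z) (k : ℕ) (v : V) :
    e ((f ^ (k + 1)) v) = (f ^ (k + 1)) (e v) +
      ((k : ℂ) + 1) • (f ^ k) (hs v + Z v - (k : ℂ) • v) := by
  induction k with
  | zero =>
    simp only [zero_add, pow_one, pow_zero, Module.End.one_apply, Nat.cast_zero, zero_smul,
      sub_zero, one_smul]
    rw [H.ef]
    abel
  | succ k ih =>
    have h1 : (f ^ (k + 1 + 1)) v = f ((f ^ (k + 1)) v) := by
      rw [pow_succ', Module.End.mul_apply]
    have h2 : (f ^ (k + 1 + 1)) (e v) = f ((f ^ (k + 1)) (e v)) := by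
      rw [pow_succ' f (k + 1), Module.End.mul_apply]
    have h3 : ∀ w, f ((f ^ k) w) = (f ^ (k + 1)) w := fun w => by
      rw [pow_succ', Module.End.mul_apply]
    rw [h1, h2, H.ef, ih, H.hf_pow, H.Zf_pow, map_add, map_smul, h3]
    simp only [map_add, map_sub, map_smul]
    push_cast
    module

/-- an operator `a + Z`, `a ≠ 0`, is injective -/
theorem add_inj (hZ : IsNilpotent Z) {a : ℂ} (ha : a ≠ 0) {v : V} (h : a • v + Z v = 0) :
    v = 0 := by
  obtain ⟨n, hn⟩ := hZ
  have h1 : Z v = (-a) • v := by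
    rw [neg_smul]
    exact eq_neg_of_add_eq_zero_right h
  have h2 : ∀ k : ℕ, (Z ^ k) v = (-a) ^ k • v := by
    intro k
    induction k with
    | zero => simp
    | succ k ih => rw [pow_succ', Module.End.mul_apply, ih, map_smul, h1, smul_smul, ← pow_succ]
  have h3 := h2 n
  rw [hn, LinearMap.zero_apply] at h3
  exact (smul_eq_zero.1 h3.symm).resolve_left (pow_ne_zero _ (neg_ne_zero.2 ha))

/-- (P1) highest weight vectors -/
theorem Rel.prim (H : Rel e f hs Z) (hZ : IsNilpotent Z) {μ : ℂ} (k : ℕ) :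
    ∀ x : V, e x = 0 → hs x = μ • x → (f ^ k) x = 0 →
      Z x = 0 ∧ (x = 0 ∨ ∃ j : ℕ, j < k ∧ μ = j) := by
  induction k with
  | zero =>
    intro x _ _ h
    rw [pow_zero, Module.End.one_apply] at h
    exact ⟨by rw [h, map_zero], Or.inl h⟩
  | succ k ih =>
    intro x he hx h
    set x' := hs x + Z x - (k : ℂ) • x with hx'
    have h1 : (f ^ k) x' = 0 := by
      have h2 := H.ef_pow k x
      rw [h, he, map_zero, map_zero, zero_add] at h2
      refine (smul_eq_zero.1 h2.symm).resolve_left ?_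
      exact_mod_cast Nat.succ_ne_zero k
    have h3 : e x' = 0 := by
      rw [hx', map_sub, map_add, map_smul, he, ← H.Ze, he, map_zero, smul_zero, hx, map_smul, he]
      simp
    have h4 : hs x' = μ • x' := by
      rw [hx', map_sub, map_add, map_smul, ← H.Zh, hx, map_smul, map_smul, hx]
      module
    obtain ⟨h5, h6⟩ := ih x' h3 h4 h1
    have h7 : x' = (μ - k) • x + Z x := by
      rw [hx', hx]
      module
    by_cases hμ : μ = k
    · rcases h6 with h6 | ⟨j, hj, h6⟩
      · rw [h7, hμ, sub_self, zero_smul, zero_add] at h6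
        exact ⟨h6, Or.inr ⟨k, Nat.lt_succ_self k, hμ⟩⟩
      · rw [hμ] at h6
        exact absurd (Nat.cast_injective h6) (by omega)
    · have ha : μ - k ≠ 0 := sub_ne_zero.2 hμ
      have h8 : Z x = 0 := by
        apply add_inj hZ ha
        rw [h7, map_add, map_smul] at h5
        exact h5
      refine ⟨h8, ?_⟩
      rcases h6 with h6 | ⟨j, hj, h6⟩
      · rw [h7] at h6
        exact Or.inl (add_inj hZ ha h6)
      · exact Or.inr ⟨j, by omega, h6⟩

/-- the powers of `f` kill eigenvectors -/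
theorem Rel.exists_pow [FiniteDimensional ℂ V] (H : Rel e f hs Z) {μ : ℂ} {x : V}
    (hx : hs x = μ • x) : ∃ k : ℕ, (f ^ k) x = 0 := by
  by_contra hcon
  push Not at hcon
  have h1 : ∀ k : ℕ, hs.HasEigenvalue (μ - 2 * k) := by
    intro k
    refine Module.End.hasEigenvalue_of_hasEigenvector (x := (f ^ k) x) ⟨?_, hcon k⟩
    rw [Module.End.mem_eigenspace_iff, H.hf_pow, hx, map_smul]
    module
  have h2 := Module.End.finite_hasEigenvalue hs
  refine Set.infinite_of_injective_forall_mem (f := fun k : ℕ => μ - 2 * (k : ℂ)) ?_ h1 h2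
  intro a b hab
  have h3 : (2 : ℂ) * a = 2 * b := sub_right_injective hab
  have h4 := mul_left_cancel₀ two_ne_zero h3
  exact_mod_cast h4

/-- the Casimir operator -/
noncomputable def Om (e f hs Z : Module.End ℂ V) (v : V) : V :=
  (2 : ℂ) • f (e v) + (hs v + Z v) + (1 / 2 : ℂ) • (hs (hs v + Z v) + Z (hs v + Z v))

theorem Rel.Om_e (H : Rel e f hs Z) (v : V) : Om e f hs Z (e v) = e (Om e f hs Z v) := by
  simp only [Om, map_add, map_smul, H.ef, H.he, H.Ze, H.Zh]
  module

theorem Rel.Om_Z (H : Rel e f hs Z) (v : V) : Om e f hs Z (Z v) = Z (Om e f hs Z v) := by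
  simp only [Om, map_add, map_smul, H.Ze, H.Zf, H.Zh]

theorem Rel.Om_h (H : Rel e f hs Z) (v : V) : Om e f hs Z (hs v) = hs (Om e f hs Z v) := by
  simp only [Om, map_add, map_smul, H.he, H.hf, H.Zh]
  module

theorem Rel.Om_prim (_H : Rel e f hs Z) {μ : ℂ} {v : V} (h1 : e v = 0) (h2 : Z v = 0)
    (h3 : hs v = μ • v) : Om e f hs Z v = (μ + μ ^ 2 / 2) • v := by
  simp only [Om, h1, h2, h3, map_zero, smul_zero, add_zero, map_smul, zero_add]
  module

theorem Om_smul (a : ℂ) (v : V) : Om e f hs Z (a • v) = a • Om e f hs Z v := by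
  simp only [Om, map_add, map_smul]
  module

theorem Om_sub (a : ℂ) (v : V) (T : Module.End ℂ V) (hT : ∀ w, Om e f hs Z (T w) =
    T (Om e f hs Z w)) : T (Om e f hs Z v - a • v) = Om e f hs Z (T v) - a • T v := by
  rw [map_sub, map_smul, hT]

end M3

/-- M3. `e, f, hs + Z` an sl2-triple on a finite-dimensional space, `hs` diagonalisable, `Z`
nilpotent and central: then `Z = 0`. -/
theorem sl2_central_nilpotent {V : Type*} [AddCommGroup V] [Module ℂ V] [FiniteDimensional ℂ V]
    (e f hs Z : Module.End ℂ V) (he : IsNilpotent e) (hZ : IsNilpotent Z)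
    (hef : e * f - f * e = hs + Z) (hhe : hs * e - e * hs = (2 : ℂ) • e)
    (hhf : hs * f - f * hs = -((2 : ℂ) • f)) (hZe : Z * e = e * Z) (hZf : Z * f = f * Z)
    (hZh : Z * hs = hs * Z) (hdiag : ⨆ μ : ℂ, Module.End.eigenspace hs μ = ⊤) : Z = 0 := by
  have H : M3.Rel e f hs Z := by
    refine ⟨fun v => ?_, fun v => ?_, fun v => ?_, fun v => ?_, fun v => ?_, fun v => ?_⟩
    · have h := LinearMap.congr_fun hef v
      simp only [LinearMap.sub_apply, LinearMap.add_apply, Module.End.mul_apply] at h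
      rw [add_assoc, ← h]
      abel
    · have h := LinearMap.congr_fun hhe v
      simp only [LinearMap.sub_apply, LinearMap.smul_apply, Module.End.mul_apply] at h
      rw [← h]
      abel
    · have h := LinearMap.congr_fun hhf v
      simp only [LinearMap.sub_apply, LinearMap.neg_apply, LinearMap.smul_apply,
        Module.End.mul_apply] at h
      rw [sub_eq_add_neg, ← h]
      abel
    · exact LinearMap.congr_fun hZe v
    · exact LinearMap.congr_fun hZf v
    · exact LinearMap.congr_fun hZh v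
  by_contra hne
  -- an eigenvector which is not killed
  obtain ⟨μ, x, hx, hZx⟩ : ∃ (μ : ℂ) (x : V), hs x = μ • x ∧ Z x ≠ 0 := by
    by_contra hcon
    push Not at hcon
    apply hne
    have h1 : (⊤ : Submodule ℂ V) ≤ LinearMap.ker Z := by
      rw [← hdiag]
      refine iSup_le fun μ x hx => ?_
      exact hcon μ x (Module.End.mem_eigenspace_iff.1 hx)
    ext v
    exact h1 (Submodule.mem_top (x := v))
  -- move it up
  obtain ⟨n, hn⟩ := he
  have hex : ∃ j : ℕ, (e ^ j) (Z x) = 0 := ⟨n, by rw [hn, LinearMap.zero_apply]⟩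
  classical
  obtain ⟨j, hj⟩ : ∃ j, Nat.find hex = j + 1 := by
    refine Nat.exists_eq_succ_of_ne_zero fun h => ?_
    have := Nat.find_spec hex
    rw [h, pow_zero, Module.End.one_apply] at this
    exact hZx this
  have hy0 : (e ^ j) (Z x) ≠ 0 := Nat.find_min hex (by omega)
  have hy1 : (e ^ (j + 1)) (Z x) = 0 := by
    have := Nat.find_spec hex
    rwa [hj] at this
  set y := (e ^ j) (Z x) with hy
  have hey : e y = 0 := by
    rw [hy, ← Module.End.mul_apply, ← pow_succ']
    exact hy1
  set ν : ℂ := μ + 2 * j with hν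
  have hsy : hs y = ν • y := by
    rw [hy, H.he_pow, ← H.Zh, hx, map_smul, map_smul, hν]
    module
  obtain ⟨k, hk⟩ := H.exists_pow hsy
  obtain ⟨hZy, hor⟩ := H.prim hZ k y hey hsy hk
  obtain ⟨p, -, hp⟩ := hor.resolve_left hy0
  -- the descent
  have key : ∀ (k : ℕ) (x : V), hs x = ν • x → (e ^ (k + 1)) x = 0 →
      ∀ a : ℂ, a ≠ 0 → Z x = a • y → False := by
    intro k
    induction k with
    | zero =>
      intro x hx hex a ha hZx
      rw [zero_add, pow_one] at hex
      obtain ⟨k, hk⟩ := H.exists_pow hx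
      have h1 := (H.prim hZ k x hex hx hk).1
      rw [hZx] at h1
      exact hy0 ((smul_eq_zero.1 h1).resolve_left ha)
    | succ k ih =>
      intro x hx hex a ha hZx
      set u := (e ^ (k + 1)) x with hu
      set ρ : ℂ := ν + 2 * ((k + 1 : ℕ) : ℂ) with hρ
      have hue : e u = 0 := by
        rw [hu, ← Module.End.mul_apply, ← pow_succ']
        exact hex
      have hus : hs u = ρ • u := by
        rw [hu, H.he_pow, hx, map_smul, hρ]
        module
      have huZ : Z u = 0 := by
        rw [hu, H.Ze_pow, hZx, map_smul, pow_succ, Module.End.mul_apply, hey, map_zero, smul_zero]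
      have hOu := H.Om_prim hue huZ hus
      have hOy := H.Om_prim hey hZy hsy
      set c : ℂ := ρ + ρ ^ 2 / 2 with hc
      have hOp : ∀ (i : ℕ) (w : V), M3.Om e f hs Z ((e ^ i) w) = (e ^ i) (M3.Om e f hs Z w) := by
        intro i w
        induction i with
        | zero => simp
        | succ i ih => rw [pow_succ', Module.End.mul_apply, Module.End.mul_apply, H.Om_e, ih]
      refine ih (M3.Om e f hs Z x - c • x) ?_ ?_ (a * ((ν + ν ^ 2 / 2) - c)) ?_ ?_
      · rw [M3.Om_sub c x hs H.Om_h, hx, M3.Om_smul]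
        module
      · rw [M3.Om_sub c x (e ^ (k + 1)) (hOp (k + 1)), ← hu, hOu, sub_self]
      · refine mul_ne_zero ha ?_
        have h1 : ν + ν ^ 2 / 2 - c = -2 * ((k : ℂ) + 1) * (1 + p + (k + 1)) := by
          rw [hc, hρ, hp]
          push_cast
          ring
        rw [h1]
        refine mul_ne_zero (mul_ne_zero (by norm_num) ?_) ?_
        · exact_mod_cast Nat.succ_ne_zero k
        · have h2 : (1 : ℂ) + p + (k + 1) = ((p + k + 2 : ℕ) : ℂ) := by
            push_cast
            ring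
          rw [h2]
          exact_mod_cast Nat.succ_ne_zero (p + k + 1)
      · rw [M3.Om_sub c x Z H.Om_Z, hZx, M3.Om_smul, hOy]
        module
  refine key n ((e ^ j) x) ?_ ?_ 1 one_ne_zero ?_
  · rw [H.he_pow, hx, map_smul, hν]
    module
  · rw [pow_succ', Module.End.mul_apply, hn, LinearMap.zero_apply, map_zero]
  · rw [one_smul, hy, H.Ze_pow]

end Vale.Agent.P280.N
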