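import Vale.Agent.P280.N.M1
import Vale.Agent.P280.H587.Main

/-! P280, plan N, M4: hypotheses and conclusions under refinement of the grading. -/

open DirectSum Vale.Agent.P280.T Vale.Agent.P280.H127

namespace Vale.Agent.P280.N

variable {r r' : ℕ} {R : Type} [CommRing R] [Algebra ℂ R]
  {𝒜 : ℕ × (Fin r → ℤ) → Submodule ℂ R} [GradedAlgebra 𝒜]
  {𝒜' : ℕ × (Fin r' → ℤ) → Submodule ℂ R} [GradedAlgebra 𝒜']
  {π : (Fin r' → ℤ) →+ (Fin r → ℤ)}

/-- M4a. The pieces of `𝒜` are the sums of those of `𝒜'`. -/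
theorem ref_sup (hr : ∀ d m', 𝒜' (d, m') ≤ 𝒜 (d, π m')) (d : ℕ) (m : Fin r → ℤ) :
    𝒜 (d, m) = ⨆ m' : {m' : Fin r' → ℤ // π m' = m}, 𝒜' (d, m'.1) := by
  classical
  apply le_antisymm
  · intro h hh
    have h1 : h = ∑ i ∈ (decompose 𝒜' h).support,
        ((decompose 𝒜 ((decompose 𝒜' h i : 𝒜' i) : R)) (d, m) : R) := by
      conv_lhs => rw [← decompose_of_mem_same 𝒜 hh, ← sum_support_decompose 𝒜' h]
      rw [decompose_sum, DFinsupp.finsetSum_apply, AddSubmonoidClass.coe_finsetSum]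
    rw [h1]
    refine Submodule.sum_mem _ fun i _ => ?_
    have h2 : ((decompose 𝒜' h i : 𝒜' i) : R) ∈ 𝒜 (i.1, π i.2) := hr _ _ (decompose 𝒜' h i).2
    by_cases hi : (i.1, π i.2) = (d, m)
    · rw [hi] at h2
      rw [decompose_of_mem_same 𝒜 h2]
      obtain ⟨h3, h4⟩ := Prod.mk.inj hi
      obtain ⟨i1, i2⟩ := i
      simp only at h3 h4
      subst h3
      exact Submodule.mem_iSup_of_mem ⟨i2, h4⟩ (decompose 𝒜' h (i1, i2)).2
    · rw [decompose_of_mem_ne 𝒜 h2 hi]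
      exact Submodule.zero_mem _
  · refine iSup_le fun m' => ?_
    have h1 := hr d m'.1
    rwa [m'.2] at h1

/-- Induction on a piece of `𝒜`. -/
theorem ref_ind (hr : ∀ d m', 𝒜' (d, m') ≤ 𝒜 (d, π m')) {d : ℕ} {m : Fin r → ℤ} {P : R → Prop}
    (h0 : P 0) (hadd : ∀ a b, P a → P b → P (a + b))
    (hmem : ∀ m', π m' = m → ∀ h ∈ 𝒜' (d, m'), P h) {x : R} (hx : x ∈ 𝒜 (d, m)) : P x := by
  rw [ref_sup hr] at hx
  exact Submodule.iSup_induction (motive := P) _ hx (fun i x hx => hmem i.1 i.2 x hx) h0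
    (fun a b => hadd a b)

/-- A linear form which does not vanish at an element of a piece of `𝒜` does not vanish at some
element of a piece of `𝒜'`. -/
theorem ref_ne (hr : ∀ d m', 𝒜' (d, m') ≤ 𝒜 (d, π m')) {d : ℕ} {m : Fin r → ℤ} (v : R →ₗ[ℂ] ℂ)
    {x : R} (hx : x ∈ 𝒜 (d, m)) (hv : v x ≠ 0) :
    ∃ m', π m' = m ∧ ∃ h ∈ 𝒜' (d, m'), v h ≠ 0 := by
  by_contra hcon
  push Not at hcon
  exact hv (ref_ind hr (P := fun x => v x = 0) (map_zero v)
    (fun a b ha hb => by rw [map_add, ha, hb, add_zero]) hcon hx)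

theorem ref_vertex (hr : ∀ d m', 𝒜' (d, m') ≤ 𝒜 (d, π m')) {x : R →ₐ[ℂ] ℂ} :
    IsVertex 𝒜' x ↔ IsVertex 𝒜 x := by
  constructor
  · intro h d m hd y hy
    exact ref_ind hr (P := fun y => x y = 0) (map_zero x)
      (fun a b ha hb => by rw [map_add, ha, hb, add_zero]) (fun m' _ z hz => h d m' hd z hz) hy
  · intro h d m' hd y hy
    exact h d _ hd y (hr _ _ hy)

theorem ref_fixed (hr : ∀ d m', 𝒜' (d, m') ≤ 𝒜 (d, π m')) {x : R →ₐ[ℂ] ℂ} {ν' : Fin r' → ℤ}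
    (hx : IsFixed 𝒜' x ν') : IsFixed 𝒜 x (π ν') := by
  intro d m y hy hne
  obtain ⟨m', rfl, z, hz, hz'⟩ := ref_ne hr x.toLinearMap hy hne
  rw [hx d m' z hz hz', map_nsmul]

theorem ref_hasWeight (hr : ∀ d m', 𝒜' (d, m') ≤ 𝒜 (d, π m')) {ν' χ' : Fin r' → ℤ}
    {v : R →ₗ[ℂ] ℂ} (hv : HasWeight 𝒜' ν' χ' v) : HasWeight 𝒜 (π ν') (π χ') v := by
  intro d m y hy hne
  obtain ⟨m', rfl, z, hz, hz'⟩ := ref_ne hr v hy hne
  rw [hv d m' z hz hz', map_add, map_nsmul]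

theorem ref_weight (hr : ∀ d m', 𝒜' (d, m') ≤ 𝒜 (d, π m')) {x : R →ₐ[ℂ] ℂ}
    {ν' χ' : Fin r' → ℤ} (h : TangentWeight 𝒜' x ν' χ') : TangentWeight 𝒜 x (π ν') (π χ') := by
  obtain ⟨v, h1, h2, h3⟩ := h
  refine ⟨v, h1, ref_hasWeight hr h2, fun c => ?_⟩
  obtain ⟨d, m, y, hy, hne⟩ := h3 c
  exact ⟨d, π m, y, hr _ _ hy, hne⟩

/-- The derivation of a linear function of the weight. -/
theorem exists_wtDer {M : Type} [AddCommGroup M] [DecidableEq M] (𝒜 : ℕ × M → Submodule ℂ R)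
    [GradedAlgebra 𝒜] (lam : M →+ ℤ) :
    ∃ E : Derivation ℂ R R, ∀ d m, ∀ h ∈ 𝒜 (d, m), E h = (lam m : ℂ) • h := by
  obtain ⟨F, hF⟩ := H587.exists_linearMap 𝒜
    (fun i : ℕ × M => (lam i.2 : ℂ) • (LinearMap.id : R →ₗ[ℂ] R))
  have hF' : ∀ d m, ∀ h ∈ 𝒜 (d, m), F h = (lam m : ℂ) • h := fun d m h hh => hF (d, m) h hh
  have hL : ∀ x y : R, F (x * y) = x • F y + y • F x := by
    intro a b
    let F1 : R →ₗ[ℂ] R →ₗ[ℂ] R := (LinearMap.mul ℂ R).compr₂ F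
    let G : R →ₗ[ℂ] R →ₗ[ℂ] R :=
      (LinearMap.mul ℂ R).compl₁₂ LinearMap.id F +
        ((LinearMap.mul ℂ R).compl₁₂ LinearMap.id F).flip
    have hFG : F1 a b = G a b := by
      refine H587.bilin_ext 𝒜 (F := F1) (G := G) ?_ a b
      rintro ⟨d, m⟩ ⟨d', m'⟩ x hx y hy
      change F (x * y) = x * F y + y * F x
      have hxy : x * y ∈ 𝒜 (d + d', m + m') := SetLike.mul_mem_graded hx hy
      rw [hF' _ _ _ hxy, hF' _ _ _ hx, hF' _ _ _ hy, mul_smul_comm, mul_smul_comm, mul_comm y x,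
        ← add_smul, map_add, Int.cast_add, add_comm]
    exact hFG
  exact ⟨Derivation.mk' F hL, hF'⟩

/-- A point fixed by the torus of `𝒜` is fixed by that of `𝒜'` (fixed points are isolated). -/
theorem ref_fixed_up (hr : ∀ d m', 𝒜' (d, m') ≤ 𝒜 (d, π m')) (hX : IsTorusManifold 𝒜)
    (hiso : ∀ x ν, ¬ IsVertex 𝒜 x → IsFixed 𝒜 x ν → ¬ TangentWeight 𝒜 x ν 0)
    {x : R →ₐ[ℂ] ℂ} {ν : Fin r → ℤ} (hx0 : ¬ IsVertex 𝒜 x) (hx : IsFixed 𝒜 x ν) :
    ∃ ν', π ν' = ν ∧ IsFixed 𝒜' x ν' := by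
  obtain ⟨f, hf, hfx⟩ := exists_deg_one_ne hX.gen hx0 hx
  obtain ⟨ν', hν, g, hg, hgx⟩ := ref_ne hr x.toLinearMap hf hfx
  refine ⟨ν', hν, ?_⟩
  have key : ∀ lam : (Fin r' → ℤ) →+ ℤ, ∀ d m', ∀ h ∈ 𝒜' (d, m'), x h ≠ 0 →
      lam m' = d * lam ν' := by
    intro lam
    obtain ⟨E, hE⟩ := exists_wtDer 𝒜' lam
    have hEA : ∀ d m, ∀ h ∈ 𝒜 (d, m), E h ∈ 𝒜 (d, m) := by
      intro d m h hh
      refine ref_ind hr (P := fun h => E h ∈ 𝒜 (d, m)) ?_ ?_ ?_ hh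
      · rw [Derivation.map_zero]
        exact Submodule.zero_mem _
      · intro a b ha hb
        rw [Derivation.map_add]
        exact Submodule.add_mem _ ha hb
      · intro m' hm' z hz
        rw [hE d m' z hz]
        have := hr d m' hz
        rw [hm'] at this
        exact Submodule.smul_mem _ _ this
    have hnt := hiso x ν hx0 hx
    have hex : ∃ c : ℂ, ∀ d m, ∀ h ∈ 𝒜 (d, m), x (E h) = c * d * x h := by
      by_contra hcon
      push Not at hcon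
      apply hnt
      refine ⟨x.toLinearMap.comp E.toLinearMap, ?_, ?_, fun c => ?_⟩
      · intro a b
        change x (E (a * b)) = x a * x (E b) + x b * x (E a)
        rw [Derivation.leibniz, map_add, smul_eq_mul, smul_eq_mul, map_mul, map_mul]
      · intro d m h hh hne
        rw [add_zero]
        exact hx d m (E h) (hEA d m h hh) hne
      · obtain ⟨d, m, h, hh, hne⟩ := hcon c
        exact ⟨d, m, h, hh, hne⟩
    obtain ⟨c, hc⟩ := hex
    have h1 : c = (lam ν' : ℂ) := by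
      have h2 := hc 1 _ g (hr 1 ν' hg)
      rw [hE 1 ν' g hg, map_smul, smul_eq_mul, Nat.cast_one, mul_one] at h2
      exact (mul_right_cancel₀ hgx h2).symm
    intro d m' h hh hne
    have h2 := hc d _ h (hr d m' hh)
    rw [hE d m' h hh, map_smul, smul_eq_mul, h1] at h2
    have h3 := mul_right_cancel₀ hne h2
    have h4 : (lam m' : ℂ) = ((d * lam ν' : ℤ) : ℂ) := by
      push_cast
      rw [h3, mul_comm]
    exact_mod_cast h4
  intro d m' h hh hne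
  funext j
  have h1 := key (Pi.evalAddMonoidHom (fun _ : Fin r' => ℤ) j) d m' h hh hne
  rw [Pi.smul_apply, nsmul_eq_mul]
  exact h1

theorem ref_torusManifold (hr : ∀ d m', 𝒜' (d, m') ≤ 𝒜 (d, π m')) (hX : IsTorusManifold 𝒜) :
    IsTorusManifold 𝒜' where
  finiteType := hX.finiteType
  domain := hX.domain
  normal := hX.normal
  zero m y hy := hX.zero _ y (hr _ _ hy)
  gen := by
    rw [eq_top_iff, ← hX.gen]
    refine Algebra.adjoin_le ?_
    rintro y ⟨m, hy⟩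
    refine ref_ind hr (P := fun y => y ∈ Algebra.adjoin ℂ {h : R | ∃ m, h ∈ 𝒜' (1, m)})
      (Subalgebra.zero_mem _) (fun a b ha hb => Subalgebra.add_mem _ ha hb) ?_ hy
    intro m' _ z hz
    exact Algebra.subset_adjoin ⟨m', hz⟩
  nonempty := by
    obtain ⟨p, hp⟩ := hX.nonempty
    exact ⟨p, fun h => hp ((ref_vertex hr).1 h)⟩
  smooth p hp := hX.smooth p fun h => hp ((ref_vertex hr).2 h)

theorem ref_nef (hr : ∀ d m', 𝒜' (d, m') ≤ 𝒜 (d, π m')) (hN : NefOnRationalCurves 𝒜) :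
    NefOnRationalCurves 𝒜' := by
  intro e φ h1 h2 a ha v hv
  have h0 : ∀ (d : ℕ) (m : Fin r → ℤ), ∀ y ∈ 𝒜 (d, m), (φ y).IsHomogeneous (d * e) := by
    intro d m y hy
    refine ref_ind hr (P := fun y => (φ y).IsHomogeneous (d * e)) ?_ ?_ ?_ hy
    · rw [map_zero]
      exact MvPolynomial.isHomogeneous_zero _ _ _
    · intro a b ha hb
      rw [map_add]
      exact ha.add hb
    · exact fun m' _ z hz => h1 d m' z hz
  obtain ⟨δ, h3, h4, h5⟩ := hN e φ h0 (fun a ha h => h2 a ha ((ref_vertex hr).2 h)) a ha v hv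
  exact ⟨δ, h3, fun d m y hy => h4 d _ y (hr _ _ hy), h5⟩

/-- M4c. The hypotheses `Hyp` for `𝒜'`. -/
theorem ref_hyp (hr : ∀ d m', 𝒜' (d, m') ≤ 𝒜 (d, π m')) (ht : MaxTor 𝒜')
    (hX : IsTorusManifold 𝒜) (hN : NefOnRationalCurves 𝒜)
    (hiso : ∀ x ν, ¬ IsVertex 𝒜 x → IsFixed 𝒜 x ν → ¬ TangentWeight 𝒜 x ν 0)
    (hind : ∀ x ν ω ω', ¬ IsVertex 𝒜 x → IsFixed 𝒜 x ν → TangentWeight 𝒜 x ν ω →
      TangentWeight 𝒜 x ν ω' → (∃ a b : ℤ, a ≠ 0 ∧ b ≠ 0 ∧ a • ω = b • ω') → ω = ω')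
    (hmult : ∀ x ν ω, ¬ IsVertex 𝒜 x → IsFixed 𝒜 x ν → TangentWeight 𝒜 x ν ω →
      ∀ v v' : R →ₗ[ℂ] ℂ, IsTangent x v → HasWeight 𝒜 ν ω v → IsTangent x v' →
        HasWeight 𝒜 ν ω v' → ∃ c c' : ℂ, (c ≠ 0 ∨ c' ≠ 0) ∧ ∀ h, c * v h + c' * v' h = 0) :
    Hyp 𝒜' where
  hX := ref_torusManifold hr hX
  hN := ref_nef hr hN
  iso x ν' hx0 hx h := by
    have h1 := ref_weight hr h
    rw [map_zero] at h1
    exact hiso x (π ν') (fun h2 => hx0 ((ref_vertex hr).2 h2)) (ref_fixed hr hx) h1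
  ind x ν' ω ω' hx0 hx hω hω' hab := by
    obtain ⟨a, b, ha, hb, hab⟩ := hab
    have hx0' : ¬ IsVertex 𝒜 x := fun h2 => hx0 ((ref_vertex hr).2 h2)
    have hx' := ref_fixed hr hx
    have h1 : π ω = π ω' := hind x (π ν') _ _ hx0' hx' (ref_weight hr hω) (ref_weight hr hω')
      ⟨a, b, ha, hb, by rw [← map_zsmul, ← map_zsmul, hab]⟩
    have h2 := ref_weight hr hω
    obtain ⟨v, hv1, hv2, hv3⟩ := hω
    obtain ⟨v', hv1', hv2', hv3'⟩ := hω'
    have h3 := ref_hasWeight hr hv2'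
    rw [← h1] at h3
    obtain ⟨c, c', hc, hcc⟩ := hmult x (π ν') (π ω) hx0' hx' h2 v v' hv1 (ref_hasWeight hr hv2)
      hv1' h3
    by_cases h4 : c = 0
    · have h5 : c' ≠ 0 := hc.resolve_left (fun h => h h4)
      obtain ⟨d, m, y, hy, hne⟩ := hv3' 0
      have h6 := hcc y
      rw [h4, zero_mul, zero_add] at h6
      rw [zero_mul, zero_mul] at hne
      exact absurd ((mul_eq_zero.1 h6).resolve_left h5) hne
    · obtain ⟨d, m, y, hy, hne⟩ := hv3 0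
      rw [zero_mul, zero_mul] at hne
      have h5 := hv2 d m y hy hne
      have h6 : v' y ≠ 0 := by
        intro h7
        have h8 := hcc y
        rw [h7, mul_zero, add_zero] at h8
        exact hne ((mul_eq_zero.1 h8).resolve_left h4)
      have h7 := hv2' d m y hy h6
      rw [h5] at h7
      exact add_left_cancel h7
  mult x ν' ω hx0 hx hω v v' hv1 hv2 hv1' hv2' :=
    hmult x (π ν') (π ω) (fun h2 => hx0 ((ref_vertex hr).2 h2)) (ref_fixed hr hx)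
      (ref_weight hr hω) v v' hv1 (ref_hasWeight hr hv2) hv1' (ref_hasWeight hr hv2')
  tor := ht

theorem ref_iSup (hr : ∀ d m', 𝒜' (d, m') ≤ 𝒜 (d, π m')) (d : ℕ) :
    ⨆ m, 𝒜 (d, m) = ⨆ m', 𝒜' (d, m') := by
  apply le_antisymm
  · refine iSup_le fun m => ?_
    rw [ref_sup hr]
    exact iSup_le fun m' => le_iSup (fun m' => 𝒜' (d, m')) m'.1
  · exact iSup_le fun m' => (hr d m').trans (le_iSup (fun m => 𝒜 (d, m)) _)

/-- M4d. The conclusions. -/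
theorem ref_back (hr : ∀ d m', 𝒜' (d, m') ≤ 𝒜 (d, π m'))
    (h : IsHomogeneousManifold 𝒜' ∧ IsTransitive 𝒜') :
    IsHomogeneousManifold 𝒜 ∧ IsTransitive 𝒜 := by
  constructor
  · intro p hp v hv
    obtain ⟨D, hD, hDv⟩ := h.1 p (fun h2 => hp ((ref_vertex hr).1 h2)) v hv
    refine ⟨D, fun d m y hy => ?_, hDv⟩
    rw [ref_iSup hr]
    refine ref_ind hr (P := fun y => D y ∈ ⨆ m', 𝒜' (d, m')) ?_ ?_ (fun m' _ z hz => hD d m' z hz)
      hy
    · rw [Derivation.map_zero]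
      exact Submodule.zero_mem _
    · intro a b ha hb
      rw [Derivation.map_add]
      exact Submodule.add_mem _ ha hb
  · intro z z' hz hz'
    obtain ⟨F, hF, hFz⟩ := h.2 z z' (fun h2 => hz ((ref_vertex hr).1 h2))
      (fun h2 => hz' ((ref_vertex hr).1 h2))
    refine ⟨F, fun d m y hy => ?_, hFz⟩
    rw [ref_iSup hr]
    refine ref_ind hr (P := fun y => F y ∈ ⨆ m', 𝒜' (d, m')) ?_ ?_ (fun m' _ z hz => hF d m' z hz)
      hy
    · rw [map_zero]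
      exact Submodule.zero_mem _
    · intro a b ha hb
      rw [map_add]
      exact Submodule.add_mem _ ha hb

end Vale.Agent.P280.N
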