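import Vale.Agent.P280.H93.Cor5Fin
import Vale.Agent.P280.H812.X3Done

/-! P280, plan N: definitions. `K = FractionRing R`; `VF R` = rational vector fields on the cone. -/

open DirectSum Vale.Agent.P280.T Vale.Agent.P280.H127

namespace Vale.Agent.P280.N

section
variable {r : ℕ} {R : Type} [CommRing R] [Algebra ℂ R]

/-- The hypotheses: isolated fixed points, independent weights of multiplicity one, maximal torus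
(the derivations of weight `0` are diagonal up to a nilpotent part). -/
structure Hyp (𝒜 : ℕ × (Fin r → ℤ) → Submodule ℂ R) : Prop where
  hX : IsTorusManifold 𝒜
  hN : NefOnRationalCurves 𝒜
  iso : ∀ x ν, ¬ IsVertex 𝒜 x → IsFixed 𝒜 x ν → ¬ TangentWeight 𝒜 x ν 0
  ind : ∀ x ν ω ω', ¬ IsVertex 𝒜 x → IsFixed 𝒜 x ν → TangentWeight 𝒜 x ν ω →
    TangentWeight 𝒜 x ν ω' → (∃ a b : ℤ, a ≠ 0 ∧ b ≠ 0 ∧ a • ω = b • ω') → ω = ω'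
  mult : ∀ x ν ω, ¬ IsVertex 𝒜 x → IsFixed 𝒜 x ν → TangentWeight 𝒜 x ν ω →
    ∀ v v' : R →ₗ[ℂ] ℂ, IsTangent x v → HasWeight 𝒜 ν ω v → IsTangent x v' →
      HasWeight 𝒜 ν ω v' → ∃ c c' : ℂ, (c ≠ 0 ∨ c' ≠ 0) ∧ ∀ h, c * v h + c' * v' h = 0
  tor : ∀ D : Derivation ℂ R R, (∀ d m, ∀ h ∈ 𝒜 (d, m), D h ∈ 𝒜 (d, m)) →
    ∃ (α : ℂ) (β : (Fin r → ℤ) →+ ℂ), ∀ d m, ∀ h ∈ 𝒜 (d, m), ∃ n : ℕ,
      (fun x : R => D x - ((d : ℂ) * α + β m) • x)^[n] h = 0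

/-- A point of `X` fixed by the torus (a point of the cone over it), with its character. -/
structure FP (𝒜 : ℕ × (Fin r → ℤ) → Submodule ℂ R) where
  q : R →ₐ[ℂ] ℂ
  ν : Fin r → ℤ
  nv : ¬ IsVertex 𝒜 q
  fix : IsFixed 𝒜 q ν

variable {𝒜 : ℕ × (Fin r → ℤ) → Submodule ℂ R}

/-- `χ` is a tangent weight at `y`. -/
def FP.Pi (y : FP 𝒜) (χ : Fin r → ℤ) : Prop := TangentWeight 𝒜 y.q y.ν χ

/-- `χ` is a tangent weight at some fixed point. -/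
def Wt (𝒜 : ℕ × (Fin r → ℤ) → Submodule ℂ R) (χ : Fin r → ℤ) : Prop := ∃ y : FP 𝒜, y.Pi χ

/-- `y` is in the lowest component for `l`. -/
def Low (l : (Fin r → ℤ) →+ ℤ) (y : FP 𝒜) : Prop :=
  ∀ d m, ∀ h ∈ 𝒜 (d, m), h ≠ 0 → d • l y.ν ≤ l m

/-- All tangent weights at `y` are nonnegative for `l`. -/
def Pos (l : (Fin r → ℤ) →+ ℤ) (y : FP 𝒜) : Prop := ∀ χ, y.Pi χ → 0 ≤ l χ

end

section
variable {r : ℕ} {R : Type} [CommRing R] [IsDomain R] [Algebra ℂ R]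
variable {𝒜 : ℕ × (Fin r → ℤ) → Submodule ℂ R}

/-- Rational vector fields on the cone. -/
abbrev VF (R : Type) [CommRing R] [IsDomain R] [Algebra ℂ R] :=
  Derivation ℂ (FractionRing R) (FractionRing R)

/-- The inclusion of `R` in its fraction field. -/
abbrev iK (h : R) : FractionRing R := algebraMap R (FractionRing R) h

/-- `x` is regular at the point `q` of the cone. -/
def Rg (q : R →ₐ[ℂ] ℂ) (x : FractionRing R) : Prop := ∃ a s : R, q s ≠ 0 ∧ iK s * x = iK a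

/-- `x` is regular at `q` with value `c`. -/
def Val (q : R →ₐ[ℂ] ℂ) (x : FractionRing R) (c : ℂ) : Prop :=
  ∃ a s : R, q s ≠ 0 ∧ iK s * x = iK a ∧ q a = q s * c

/-- The field `v` is regular at `q`. -/
def RgV (q : R →ₐ[ℂ] ℂ) (v : VF R) : Prop := ∀ h : R, Rg q (v (iK h))

/-- The field `v` is regular at `q` with value `t`. -/
def ValV (q : R →ₐ[ℂ] ℂ) (v : VF R) (t : R →ₗ[ℂ] ℂ) : Prop := ∀ h : R, Val q (v (iK h)) (t h)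

/-- The field `v` is regular at `q` modulo the `K`-span of `W`. -/
def RM (q : R →ₐ[ℂ] ℂ) (W : Set (VF R)) (v : VF R) : Prop :=
  ∃ u ∈ Submodule.span (FractionRing R) W, RgV q (v - u)

/-- `x` is homogeneous of degree `d` and weight `m`. -/
def HK (𝒜 : ℕ × (Fin r → ℤ) → Submodule ℂ R) (d : ℤ) (m : Fin r → ℤ) (x : FractionRing R) :
    Prop :=
  ∃ (a b : ℕ) (n n' : Fin r → ℤ), ∃ f ∈ 𝒜 (a, n), ∃ g ∈ 𝒜 (b, n'), g ≠ 0 ∧ iK g * x = iK f ∧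
    d = a - b ∧ m = n - n'

/-- `v` is homogeneous of degree `0` and lowers the weights by `χ`. -/
def HV (𝒜 : ℕ × (Fin r → ℤ) → Submodule ℂ R) (χ : Fin r → ℤ) (v : VF R) : Prop :=
  ∀ d m, ∀ h ∈ 𝒜 (d, m), HK 𝒜 d (m - χ) (v (iK h))

/-- `v` is a regular field on the cone. -/
def Glob (v : VF R) : Prop := ∀ h : R, ∃ a : R, v (iK h) = iK a

/-- `z` is a coordinate of weight `χ` at `y`. -/
def Crd (y : FP 𝒜) (χ : Fin r → ℤ) (d : ℕ) (z : R) : Prop :=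
  z ∈ 𝒜 (d, d • y.ν + χ) ∧ y.q z = 0 ∧
    ∃ t : R →ₗ[ℂ] ℂ, IsTangent y.q t ∧ HasWeight 𝒜 y.ν χ t ∧ t z ≠ 0

/-- The fields `w i` of weights `χ i` are global and independent at `y`. -/
structure Ind (y : FP 𝒜) {ι : Type} (w : ι → VF R) (χ : ι → Fin r → ℤ) : Prop where
  glob : ∀ i, Glob (w i)
  hv : ∀ i, HV 𝒜 (χ i) (w i)
  inj : Function.Injective χ
  pi : ∀ i, y.Pi (χ i)
  ne : ∀ i, ¬ ValV y.q (w i) 0

/-- `χ` is a vertex (exposed by some `l`). -/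
def Vx (𝒜 : ℕ × (Fin r → ℤ) → Submodule ℂ R) (χ : Fin r → ℤ) : Prop :=
  Wt 𝒜 χ ∧ ∃ l : (Fin r → ℤ) →+ ℤ, 0 < l χ ∧ ∀ ω, Wt 𝒜 ω → ω ≠ χ → l ω < l χ

/-- The sl2 of a vertex. `β` takes values in `N ℤ` on the weights. -/
structure Root (𝒜 : ℕ × (Fin r → ℤ) → Submodule ℂ R) (N : ℤ) (χ : Fin r → ℤ)
    (β : (Fin r → ℤ) →+ ℤ) (E F : VF R) : Prop where
  globE : Glob E
  globF : Glob F
  hvE : HV 𝒜 χ E
  hvF : HV 𝒜 (-χ) F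
  two : β χ = 2 * N
  br : ∃ α : ℂ, ∀ d m, ∀ h ∈ 𝒜 (d, m), ⁅E, F⁆ (iK h) = -(((d : ℂ) * α + (β m : ℂ)) • iK h)
  atE : ∀ y : FP 𝒜, y.Pi χ → ¬ ValV y.q E 0
  atF : ∀ y : FP 𝒜, y.Pi (-χ) → ¬ ValV y.q F 0
  int : ∀ ω, Wt 𝒜 ω → N ∣ β ω
  bd : ∀ ω, Wt 𝒜 ω → ω ≠ χ → ω ≠ -χ → |β ω| ≤ N
  hull : ∀ (l : (Fin r → ℤ) →+ ℤ) (a : ℤ), (∀ ω, Wt 𝒜 ω → l ω ≤ a) →
    ∀ μ, Wt 𝒜 μ → N * l μ - β μ * l χ ≤ N * a

/-- A sign. -/
def sg (s : Bool) : ℤ := if s then 1 else -1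

/-- The vertices of the face: `lam ± e j`. -/
def vx (lam : Fin r → ℤ) {m : ℕ} (e : Fin m → Fin r → ℤ) (j : Fin m) (s : Bool) : Fin r → ℤ :=
  lam + sg s • e j

/-- The face with centre `lam`: its weights are `lam` and the vertices `lam ± e j`. -/
structure Face (𝒜 : ℕ × (Fin r → ℤ) → Submodule ℂ R) (N : ℤ) (lam : Fin r → ℤ) (m : ℕ)
    (e : Fin m → Fin r → ℤ) (L0 : (Fin r → ℤ) →+ ℤ) (β : Fin m → Bool → ((Fin r → ℤ) →+ ℤ))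
    (E F : Fin m → Bool → VF R) : Prop where
  N0 : 0 < N
  m2 : 2 ≤ m
  wt : Wt 𝒜 lam
  pos : 0 < L0 lam
  max : ∀ ω, Wt 𝒜 ω → L0 ω ≤ L0 lam
  top : ∀ ω, Wt 𝒜 ω → L0 ω = L0 lam → ω = lam ∨ ∃ j s, ω = vx lam e j s
  lze : ∀ j, L0 (e j) = 0
  root : ∀ j s, Root 𝒜 N (vx lam e j s) (β j s) (E j s) (F j s)
  bl : ∀ j s, β j s lam = N
  be : ∀ j s i, β j s (e i) = if i = j then sg s * N else 0
  S : ∀ μ, Wt 𝒜 μ → L0 μ = 0 → (∃ j s, μ = sg s • e j) ∨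
    ∃ i j s s', i ≠ j ∧ μ = sg s • e i + sg s' • e j

/-- `L_k = 3 ^ m N L0 + ∑_{i < k} 3 ^ (m - 1 - i) β_i`. -/
def Lk (N : ℤ) {m : ℕ} (L0 : (Fin r → ℤ) →+ ℤ) (β : Fin m → Bool → ((Fin r → ℤ) →+ ℤ)) (k : ℕ) :
    (Fin r → ℤ) →+ ℤ :=
  ((3 : ℤ) ^ m * N) • L0 + ∑ i : Fin m, if (i : ℕ) < k then ((3 : ℤ) ^ (m - 1 - i)) • β i true else 0

end

end Vale.Agent.P280.N
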