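import Vale.Agent.P280.N.C01
import Vale.Agent.P280.H587.CorA

/-! P280, plan N: package D01. -/

open DirectSum Vale.Agent.P280.T Vale.Agent.P280.H127

namespace Vale.Agent.P280.N

variable {r : ℕ} {R : Type} [CommRing R] [IsDomain R] [Algebra ℂ R]
  {𝒜 : ℕ × (Fin r → ℤ) → Submodule ℂ R} [GradedAlgebra 𝒜]

/-- There are only finitely many tangent weights. -/
theorem D01.wt_finite (H : Hyp 𝒜) : {ω | Wt 𝒜 ω}.Finite := by
  have hfin : (H587.wts 𝒜).Finite := finite_weights H.hX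
  refine (hfin.image2 (fun a b => a - b) hfin).subset ?_
  rintro ω ⟨y, hω⟩
  obtain ⟨h1, h2⟩ := H587.tangentWeight_mem H.hX y.nv y.fix hω
  exact ⟨y.ν + ω, h2, y.ν, h1, by simp⟩

/-- A homomorphism is bounded on the tangent weights. -/
theorem D01.wt_bound (H : Hyp 𝒜) (g : (Fin r → ℤ) →+ ℤ) :
    ∃ K : ℤ, 0 ≤ K ∧ ∀ ω, Wt 𝒜 ω → |g ω| ≤ K := by
  classical
  have hfin := D01.wt_finite H
  refine ⟨∑ a ∈ hfin.toFinset, |g a|, Finset.sum_nonneg fun a _ => abs_nonneg _, fun ω hω => ?_⟩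
  exact Finset.single_le_sum (f := fun a => |g a|) (fun a _ => abs_nonneg _)
    (hfin.mem_toFinset.2 hω)

/-- `l` refined by `g`: first compare `l`, then `g`. -/
theorem D01.exists_combo (H : Hyp 𝒜) (l g : (Fin r → ℤ) →+ ℤ) :
    ∃ l' : (Fin r → ℤ) →+ ℤ, (∀ ω ω', Wt 𝒜 ω → Wt 𝒜 ω' → l ω < l ω' → l' ω < l' ω') ∧
      (∀ ω ω', l ω = l ω' → l' ω - l' ω' = g ω - g ω') ∧
      ∀ ω, Wt 𝒜 ω → 0 < l ω → 0 < l' ω := by
  obtain ⟨K, hK0, hK⟩ := D01.wt_bound H g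
  have hl' : ∀ m, ((2 * K + 1) • l + g) m = (2 * K + 1) * l m + g m := fun m => by
    change (2 * K + 1) • l m + g m = _
    rw [smul_eq_mul]
  refine ⟨(2 * K + 1) • l + g, ?_, ?_, ?_⟩
  · intro ω ω' hω hω' hlt
    have h1 := abs_le.1 (hK ω hω)
    have h2 := abs_le.1 (hK ω' hω')
    rw [hl', hl']
    nlinarith
  · intro ω ω' h
    rw [hl', hl', h]
    ring
  · intro ω hω hpos
    have h1 := abs_le.1 (hK ω hω)
    rw [hl']
    nlinarith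

/-- D01. Every functional attains its maximum over the weights `ω` with `l ω = a` (the maximum of
`l`) at a vertex. -/
theorem max_at_vertex (H : Hyp 𝒜) (l : (Fin r → ℤ) →+ ℤ) {a : ℤ} (ha : 0 < a)
    (hmax : ∀ ω, Wt 𝒜 ω → l ω ≤ a) (hex : ∃ ω, Wt 𝒜 ω ∧ l ω = a) (g : (Fin r → ℤ) →+ ℤ) :
    ∃ χ, Vx 𝒜 χ ∧ l χ = a ∧ ∀ ω, Wt 𝒜 ω → l ω = a → g ω ≤ g χ := by
  obtain ⟨γ, hγ⟩ := H587.exists_generic (D01.wt_finite H)
  obtain ⟨l1, h1a, h1b, h1c⟩ := D01.exists_combo H l g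
  obtain ⟨l2, h2a, h2b, h2c⟩ := D01.exists_combo H l1 γ
  obtain ⟨ω0, hω0, hl0⟩ := hex
  obtain ⟨χ, hχ, hχm⟩ := Set.exists_max_image {ω | Wt 𝒜 ω} (fun ω => l2 ω) (D01.wt_finite H) ⟨ω0, hω0⟩
  have hχa : l χ = a := by
    by_contra hne
    have hlt : l χ < l ω0 := by
      rw [hl0]
      exact lt_of_le_of_ne (hmax χ hχ) hne
    exact absurd (hχm ω0 hω0) (not_le.2 (h2a _ _ hχ hω0 (h1a _ _ hχ hω0 hlt)))
  refine ⟨χ, ⟨hχ, l2, ?_, ?_⟩, hχa, ?_⟩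
  · exact h2c χ hχ (h1c χ hχ (hχa ▸ ha))
  · intro ω hω hne
    rcases lt_trichotomy (l1 ω) (l1 χ) with hlt | heq | hgt
    · exact h2a _ _ hω hχ hlt
    · refine lt_of_le_of_ne (hχm ω hω) fun h => ?_
      have h3 := h2b ω χ heq
      have h4 : l2 ω = l2 χ := h
      rw [h4, sub_self] at h3
      exact hne (hγ hω hχ (by omega))
    · exact absurd (hχm ω hω) (not_le.2 (h2a _ _ hχ hω hgt))
  · intro ω hω hωa
    by_contra hcon
    push Not at hcon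
    have h3 := h1b ω χ (hωa.trans hχa.symm)
    exact absurd (hχm ω hω) (not_le.2 (h2a _ _ hχ hω (by omega)))

/-- D02. The minimal face (RI). -/
theorem min_face (H : Hyp 𝒜) {lam : Fin r → ℤ} (hw : Wt 𝒜 lam) (l : (Fin r → ℤ) →+ ℤ)
    (hl : 0 < l lam) (hmax : ∀ ω, Wt 𝒜 ω → l ω ≤ l lam) :
    ∃ l' : (Fin r → ℤ) →+ ℤ, 0 < l' lam ∧ (∀ ω, Wt 𝒜 ω → l' ω ≤ l' lam) ∧
      ∀ g : (Fin r → ℤ) →+ ℤ, (∀ ω, Wt 𝒜 ω → l' ω = l' lam → g ω ≤ g lam) →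
        ∀ ω, Wt 𝒜 ω → l' ω = l' lam → g ω = g lam := by
  induction hn : {ω | Wt 𝒜 ω ∧ l ω = l lam}.ncard using Nat.strong_induction_on generalizing l with
  | _ n ih =>
    by_cases hcase : ∀ g : (Fin r → ℤ) →+ ℤ, (∀ ω, Wt 𝒜 ω → l ω = l lam → g ω ≤ g lam) →
        ∀ ω, Wt 𝒜 ω → l ω = l lam → g ω = g lam
    · exact ⟨l, hl, hmax, hcase⟩
    · push Not at hcase
      obtain ⟨g, hg, ω0, hω0, hl0, hne⟩ := hcase
      have hlt : g ω0 < g lam := lt_of_le_of_ne (hg ω0 hω0 hl0) hne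
      obtain ⟨l', ha, hb, hc⟩ := D01.exists_combo H l g
      have hmax' : ∀ ω, Wt 𝒜 ω → l' ω ≤ l' lam := by
        intro ω hω
        rcases (hmax ω hω).lt_or_eq with h | h
        · exact (ha _ _ hω hw h).le
        · have h3 := hb ω lam h
          have h4 := hg ω hω h
          omega
      refine ih _ ?_ l' (hc lam hw hl) hmax' rfl
      rw [← hn]
      refine Set.ncard_lt_ncard ⟨?_, ?_⟩ ((D01.wt_finite H).subset fun ω h => h.1)
      · rintro ω ⟨hω, h⟩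
        refine ⟨hω, ?_⟩
        by_contra hne'
        exact absurd h (ha _ _ hω hw (lt_of_le_of_ne (hmax ω hω) hne')).ne
      · intro hsub
        obtain ⟨-, h⟩ := hsub ⟨hω0, hl0⟩
        have h3 := hb ω0 lam hl0
        omega

end Vale.Agent.P280.N
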