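import Vale.Agent.P280.H83.Api3
import Vale.Agent.P280.H981.Sl2
import Vale.Agent.P280.H754.Low

/-! P280, plan N: package A04. -/

open DirectSum Vale.Agent.P280.T Vale.Agent.P280.H127

namespace Vale.Agent.P280.N

variable {r : ℕ} {R : Type} [CommRing R] [IsDomain R] [Algebra ℂ R]
  {𝒜 : ℕ × (Fin r → ℤ) → Submodule ℂ R} [GradedAlgebra 𝒜]

omit [IsDomain R] [GradedAlgebra 𝒜] in
theorem A04.samePoint_symm {p q : R →ₐ[ℂ] ℂ} (h : SamePoint 𝒜 p q) : SamePoint 𝒜 q p := by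
  obtain ⟨c, hc, h1⟩ := h
  refine ⟨c⁻¹, inv_ne_zero hc, fun d m a ha => ?_⟩
  rw [h1 d m a ha, ← mul_assoc, ← mul_pow, inv_mul_cancel₀ hc, one_pow, one_mul]

omit [IsDomain R] [GradedAlgebra 𝒜] in
theorem A04.samePoint_ne {p q : R →ₐ[ℂ] ℂ} (h : SamePoint 𝒜 p q) {d : ℕ} {m : Fin r → ℤ} {a : R}
    (ha : a ∈ 𝒜 (d, m)) (hp : p a ≠ 0) : q a ≠ 0 := by
  obtain ⟨c, hc, h1⟩ := h
  rw [h1 d m a ha]
  exact mul_ne_zero (pow_ne_zero d hc) hp

omit [IsDomain R] in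
/-- The scaling of the cone. -/
theorem A04.exists_scale (c : ℂ) : ∃ σ : R →ₐ[ℂ] R, ∀ (d : ℕ) (m : Fin r → ℤ), ∀ a ∈ 𝒜 (d, m),
    σ a = c ^ d • a := by
  obtain ⟨σ, hσ⟩ := exists_algHom (B := R) 𝒜
    (fun i => c ^ i.1 • (LinearMap.id : R →ₗ[ℂ] R)) (by simp) (by
      intro i j a _ b _
      simp only [LinearMap.smul_apply, LinearMap.id_apply, Prod.fst_add, pow_add]
      rw [smul_mul_smul_comm])
  exact ⟨σ, fun d m a ha => hσ (d, m) a ha⟩

omit [IsDomain R] [GradedAlgebra 𝒜] in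
theorem A04.samePoint_nu {y y' : FP 𝒜} (h : SamePoint 𝒜 y.q y'.q) : y.ν = y'.ν := by
  have h1 := y.nv
  unfold IsVertex at h1
  push Not at h1
  obtain ⟨d, m, hd, a, ha, h2⟩ := h1
  have h3 := y.fix d m a ha h2
  have h4 := y'.fix d m a ha (A04.samePoint_ne h ha h2)
  have h5 : (d : ℕ) • y.ν = d • y'.ν := h3.symm.trans h4
  funext i
  have h6 := congrFun h5 i
  simp only [Pi.smul_apply, nsmul_eq_mul] at h6
  exact mul_left_cancel₀ (by exact_mod_cast hd.ne') h6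

omit [IsDomain R] in
theorem A04.same_tw {p q : R →ₐ[ℂ] ℂ} (h : SamePoint 𝒜 p q) {ν χ : Fin r → ℤ}
    (hp : TangentWeight 𝒜 p ν χ) : TangentWeight 𝒜 q ν χ := by
  obtain ⟨c, hc, h1⟩ := h
  obtain ⟨v, hv, hw, hne⟩ := hp
  obtain ⟨σ, hσ⟩ := A04.exists_scale (𝒜 := 𝒜) c
  have hq : ∀ a : R, q a = p (σ a) := by
    intro a
    have h2 := algHom_ext_graded 𝒜 (F := q) (G := p.comp σ) (fun i a ha => by
      rw [AlgHom.comp_apply, hσ i.1 i.2 a ha, map_smul, smul_eq_mul]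
      exact h1 i.1 i.2 a ha)
    rw [h2, AlgHom.comp_apply]
  refine ⟨v.comp σ.toLinearMap, ?_, ?_, ?_⟩
  · intro a b
    have h2 := hv (σ a) (σ b)
    rw [LinearMap.comp_apply, LinearMap.comp_apply, LinearMap.comp_apply, AlgHom.toLinearMap_apply,
      AlgHom.toLinearMap_apply, AlgHom.toLinearMap_apply, map_mul, h2, hq, hq]
  · intro d m a ha h2
    rw [LinearMap.comp_apply, AlgHom.toLinearMap_apply, hσ d m a ha, map_smul] at h2
    exact hw d m a ha (fun h3 => h2 (by rw [h3, smul_zero]))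
  · intro c'
    obtain ⟨d, m, a, ha, h2⟩ := hne c'
    refine ⟨d, m, a, ha, fun h3 => h2 ?_⟩
    rw [LinearMap.comp_apply, AlgHom.toLinearMap_apply, hσ d m a ha, map_smul, smul_eq_mul,
      h1 d m a ha] at h3
    have h4 : c ^ d ≠ 0 := pow_ne_zero d hc
    apply mul_left_cancel₀ h4
    rw [h3]
    ring

/-- A04. -/
theorem same_pi {y y' : FP 𝒜} (h : SamePoint 𝒜 y.q y'.q) (H : Hyp 𝒜) :
    y.ν = y'.ν ∧ ∀ χ, y.Pi χ ↔ y'.Pi χ := by
  have h1 := A04.samePoint_nu h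
  refine ⟨h1, fun χ => ⟨fun h2 => ?_, fun h2 => ?_⟩⟩
  · have h3 := A04.same_tw h h2
    rw [h1] at h3
    exact h3
  · have h3 := A04.same_tw (A04.samePoint_symm h) h2
    rw [← h1] at h3
    exact h3

/-- A homogeneous rational function regular at a fixed point is regular at each point of the cone
over it. -/
theorem A04.same_rg (H : Hyp 𝒜) {y y' : FP 𝒜} (h : SamePoint 𝒜 y.q y'.q) {d : ℤ} {m : Fin r → ℤ}
    {x : FractionRing R} (hx : HK 𝒜 d m x) (hr : Rg y.q x) : Rg y'.q x := by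
  obtain ⟨k, _, s, a, hs, _, _, h1, h2⟩ := hx.exists_den H.hX y.nv y.fix hr
  exact ⟨a, s, A04.samePoint_ne h hs (by rw [h1]; exact one_ne_zero), h2⟩

/-- The same for homogeneous fields. -/
theorem A04.same_rgV (H : Hyp 𝒜) {y y' : FP 𝒜} (h : SamePoint 𝒜 y.q y'.q) {lam : Fin r → ℤ}
    {v : VF R} (hv : HV 𝒜 lam v) (hr : RgV y.q v) : RgV y'.q v := by
  intro a
  induction a using DirectSum.Decomposition.inductionOn 𝒜 with
  | zero =>
    rw [iK_zero, map_zero]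
    exact Rg.zero
  | @homogeneous i a => exact A04.same_rg H h (hv i.1 i.2 a a.2) (hr a)
  | add a b ha hb =>
    rw [iK_add, map_add]
    exact ha.add hb

theorem same_RM (H : Hyp 𝒜) {y y' : FP 𝒜} (h : SamePoint 𝒜 y.q y'.q) {lam : Fin r → ℤ} {v : VF R}
    (hv : HV 𝒜 lam v) {ι : Type} [Fintype ι] {w : ι → VF R} {χ : ι → Fin r → ℤ}
    (hw : Ind y w χ) : RM y.q (Set.range w) v → RM y'.q (Set.range w) v := by
  classical
  intro hr
  obtain ⟨g, hg, h1⟩ := exists_hnorm H.hX (fun i => (hw.glob i).rgV) hw.hv hw.inj hw.ne hv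
  have h2 : HV 𝒜 lam (v - ∑ i, g i • w i) := by
    refine hv.sub (HV.sum _ fun i _ => ?_)
    exact ((hw.hv i).smul (hg i)).cast (by abel)
  have h3 := A04.same_rgV H h h2 (h1.1 hr)
  exact rm_range.2 ⟨g, h3⟩

end Vale.Agent.P280.N
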