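import Vale.Agent.P280.N.B00
import Vale.Agent.P280.N.C00
import Vale.Agent.P280.H170.NL
import Vale.Agent.P280.H224.Exch

/-! P280, plan N: package B05. -/

open DirectSum Vale.Agent.P280.T Vale.Agent.P280.H127

namespace Vale.Agent.P280.N

variable {r : ℕ} {R : Type} [CommRing R] [IsDomain R] [Algebra ℂ R]
  {𝒜 : ℕ × (Fin r → ℤ) → Submodule ℂ R} [GradedAlgebra 𝒜]

/-- B05 (F34'): the only use of nefness besides the library. -/
theorem nef_string (H : Hyp 𝒜) {N : ℤ} (hN : 0 < N) {a : Fin r → ℤ} {β : (Fin r → ℤ) →+ ℤ}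
    {E F : VF R} (hr : Root 𝒜 N a β E F) (y : FP 𝒜) (hna : ¬ y.Pi (-a)) {χ : Fin r → ℤ}
    (hχ : y.Pi χ) (hne : ∀ k : ℤ, χ ≠ k • a) (hlow : ¬ y.Pi (χ - a)) (hβ : β χ < 0) :
    y.Pi (χ + a) := by
  obtain ⟨De, Df, c, -, -, hDe, hDf, hbr⟩ := H170.root_ders hr
  have hNC : (N : ℂ) ≠ 0 := by exact_mod_cast hN.ne'
  obtain ⟨κ, hκ⟩ := hr.int χ ⟨y, hχ⟩
  have hκneg : κ < 0 := by
    rw [hκ] at hβ
    by_contra h
    push Not at h
    have := mul_nonneg hN.le h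
    omega
  let b : (Fin r → ℤ) →+ ℂ := (AddMonoidHom.mulLeft ((N : ℂ)⁻¹)).comp ((Int.castAddHom ℂ).comp β)
  have hb : ∀ m, b m = (N : ℂ)⁻¹ * (β m : ℂ) := fun m => rfl
  have hba : b a = 2 := by
    rw [hb, hr.two]
    push_cast
    field_simp
  have hbχ : b χ = κ := by
    rw [hb, hκ]
    push_cast
    field_simp
  have hE' : H93.IsHField 𝒜 a ((N : ℂ)⁻¹ • De) := fun d m h hh =>
    Submodule.smul_mem _ _ (hDe d m h hh)
  refine H224.exch H.hX H.hN y.nv y.fix hE' hDf (b := b) (c := -((N : ℂ)⁻¹ * c)) hba ?_ hna hbχ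
    hκneg hχ
  intro d m h hh
  have h1 := hbr d m h hh
  rw [Derivation.commutator_apply]
  change Df ((N : ℂ)⁻¹ • De h) - (N : ℂ)⁻¹ • De (Df h) = _
  rw [Df.map_smul, ← smul_sub]
  have h2 : Df (De h) - De (Df h) = -((c * d + (-((Int.castAddHom ℂ).comp β) :
      (Fin r → ℤ) →+ ℂ) m) • h) := by
    rw [← h1]
    abel
  rw [h2, ← neg_smul, smul_smul, hb, AddMonoidHom.neg_apply, AddMonoidHom.comp_apply,
    Int.coe_castAddHom]
  congr 1
  ring

end Vale.Agent.P280.N
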