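import Vale.Agent.P280.N.M2
import Vale.Agent.P280.N.F02

/-! P280, plan N, M5: the theorem without the hypothesis on the torus. -/

open DirectSum Vale.Agent.P280.T Vale.Agent.P280.H127

namespace Vale.Agent.P280.N

variable {r : ℕ} {R : Type} [CommRing R] [Algebra ℂ R]
  {𝒜 : ℕ × (Fin r → ℤ) → Submodule ℂ R} [GradedAlgebra 𝒜]

/-- M5. -/
theorem homogeneous_of_boundary_all (hX : IsTorusManifold 𝒜) (hN : NefOnRationalCurves 𝒜)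
    (hiso : ∀ x ν, ¬ IsVertex 𝒜 x → IsFixed 𝒜 x ν → ¬ TangentWeight 𝒜 x ν 0)
    (hind : ∀ x ν ω ω', ¬ IsVertex 𝒜 x → IsFixed 𝒜 x ν → TangentWeight 𝒜 x ν ω →
      TangentWeight 𝒜 x ν ω' → (∃ a b : ℤ, a ≠ 0 ∧ b ≠ 0 ∧ a • ω = b • ω') → ω = ω')
    (hmult : ∀ x ν ω, ¬ IsVertex 𝒜 x → IsFixed 𝒜 x ν → TangentWeight 𝒜 x ν ω →
      ∀ v v' : R →ₗ[ℂ] ℂ, IsTangent x v → HasWeight 𝒜 ν ω v → IsTangent x v' →
        HasWeight 𝒜 ν ω v' → ∃ c c' : ℂ, (c ≠ 0 ∨ c' ≠ 0) ∧ ∀ h, c * v h + c' * v' h = 0)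
    (l : (Fin r → ℤ) →+ ℤ) (p : R →ₐ[ℂ] ℂ) (μ : Fin r → ℤ) (a : ℤ) (hs : IsSource 𝒜 l p μ a)
    (h : ∀ χ, TangentWeight 𝒜 p μ χ → ∃ l' : (Fin r → ℤ) →+ ℤ, 0 < l' χ ∧
      ∀ y ξ ω, ¬ IsVertex 𝒜 y → IsFixed 𝒜 y ξ → TangentWeight 𝒜 y ξ ω → l' ω ≤ l' χ) :
    IsHomogeneousManifold 𝒜 ∧ IsTransitive 𝒜 := by
  obtain ⟨r', 𝒜', hg, π, hr, ht⟩ := exists_maxTor hX
  have hdom := hX.domain
  have H : Hyp 𝒜' := ref_hyp hr ht hX hN hiso hind hmult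
  obtain ⟨ν', hν, hp'⟩ := ref_fixed_up hr hX hiso hs.1 hs.2.1
  refine ref_back hr (homogeneous_of_boundary H (l.comp π) p ν' a ?_ ?_)
  · refine ⟨fun h1 => hs.1 ((ref_vertex hr).1 h1), hp', fun χ hχ => ?_⟩
    have h1 := ref_weight hr hχ
    rw [hν] at h1
    exact hs.2.2 _ h1
  · intro χ hχ
    have h1 := ref_weight hr hχ
    rw [hν] at h1
    obtain ⟨l', hl', hm⟩ := h _ h1
    refine ⟨l'.comp π, hl', fun y ξ ω hy hy' hω => ?_⟩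
    exact hm y (π ξ) (π ω) (fun h2 => hy ((ref_vertex hr).2 h2)) (ref_fixed hr hy')
      (ref_weight hr hω)

end Vale.Agent.P280.N
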