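import Vale.Agent.P280.H83.Api3
import Vale.Agent.P280.H981.Sl2
import Vale.Agent.P280.H754.Low

/-! P280, plan N: package E01. -/

open DirectSum Vale.Agent.P280.T Vale.Agent.P280.H127

namespace Vale.Agent.P280.N

variable {r : ℕ} {R : Type} [CommRing R] [IsDomain R] [Algebra ℂ R]
  {𝒜 : ℕ × (Fin r → ℤ) → Submodule ℂ R} [GradedAlgebra 𝒜]
variable {N : ℤ} {lam : Fin r → ℤ} {m : ℕ} {e : Fin m → Fin r → ℤ} {L0 : (Fin r → ℤ) →+ ℤ}
  {β : Fin m → Bool → ((Fin r → ℤ) →+ ℤ)} {E F : Fin m → Bool → VF R}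

theorem sg_beq (s t : Bool) : sg (s == t) = sg s * sg t := by
  cases s <;> cases t <;> rfl

theorem vx_symm (σ : Equiv.Perm (Fin m)) (ε : Fin m → Bool) (j : Fin m) (s : Bool) :
    vx lam (fun j => sg (ε j) • e (σ j)) j s = vx lam e (σ j) (s == ε j) := by
  rw [vx, vx, sg_beq, ← smul_smul]

theorem beq_beq (s t : Bool) : ((s == t) == t) = s := by
  cases s <;> cases t <;> rfl

/-- E01. Signed permutations of a face. -/
theorem Face.symm (hF : Face 𝒜 N lam m e L0 β E F) (σ : Equiv.Perm (Fin m)) (ε : Fin m → Bool) :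
    Face 𝒜 N lam m (fun j => sg (ε j) • e (σ j)) L0 (fun j s => β (σ j) (s == ε j))
      (fun j s => E (σ j) (s == ε j)) (fun j s => F (σ j) (s == ε j)) := by
  have key : ∀ (j : Fin m) (s : Bool), sg s • e j =
      sg (s == ε (σ.symm j)) • (fun j => sg (ε j) • e (σ j)) (σ.symm j) := by
    intro j s
    simp only [Equiv.apply_symm_apply]
    rw [smul_smul, ← sg_beq, beq_beq]
  refine ⟨hF.N0, hF.m2, hF.wt, hF.pos, hF.max, ?_, ?_, ?_, ?_, ?_, ?_⟩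
  · intro ω hω h0
    rcases hF.top ω hω h0 with h | ⟨j, s, h⟩
    · exact Or.inl h
    · refine Or.inr ⟨σ.symm j, s == ε (σ.symm j), ?_⟩
      rw [vx_symm, Equiv.apply_symm_apply, beq_beq]
      exact h
  · intro j
    rw [map_zsmul, hF.lze, smul_zero]
  · intro j s
    rw [vx_symm]
    exact hF.root (σ j) (s == ε j)
  · intro j s
    exact hF.bl (σ j) (s == ε j)
  · intro j s i
    rw [map_zsmul, hF.be, smul_eq_mul]
    by_cases hij : i = j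
    · subst hij
      rw [if_pos rfl, if_pos rfl, sg_beq]
      have := sg_mul_self (ε i)
      linear_combination (sg s * N) * this
    · rw [if_neg hij, if_neg fun h => hij (σ.injective h), mul_zero]
  · intro μ hμ h0
    rcases hF.S μ hμ h0 with ⟨j, s, h⟩ | ⟨i, j, s, s', hij, h⟩
    · exact Or.inl ⟨σ.symm j, s == ε (σ.symm j), by rw [h, key j s]⟩
    · refine Or.inr ⟨σ.symm i, σ.symm j, s == ε (σ.symm i), s' == ε (σ.symm j),
        fun h => hij (σ.symm.injective h), ?_⟩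
      rw [h, key i s, key j s']

/-- E05. The values of `L_k`. -/
theorem Lk_e (hF : Face 𝒜 N lam m e L0 β E F) (k : ℕ) (j : Fin m) :
    Lk N L0 β k (e j) = if (j : ℕ) < k then 3 ^ (m - 1 - j) * N else 0 := hF.Lk_e k j

theorem Lk_sign (hF : Face 𝒜 N lam m e L0 β E F) (k : ℕ) {μ : Fin r → ℤ} (hμ : Wt 𝒜 μ) :
    (0 < L0 μ → 0 < Lk N L0 β k μ) ∧ (L0 μ < 0 → Lk N L0 β k μ < 0) :=
  ⟨fun h => hF.Lk_pos_of_L0 hμ h k, fun h => hF.Lk_neg_of_L0 hμ h k⟩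

theorem Lk_low (hF : Face 𝒜 N lam m e L0 β E F) (k : ℕ) {μ : Fin r → ℤ} (hμ : Wt 𝒜 μ)
    (h : L0 μ < L0 lam) : Lk N L0 β k μ < Lk N L0 β k lam :=
  (hF.Lk_lt_of_L0 hμ h k).trans_le (hF.le_Lk_lam k)

theorem Lk_ne (hF : Face 𝒜 N lam m e L0 β E F) {μ : Fin r → ℤ} (hμ : Wt 𝒜 μ) :
    Lk N L0 β m μ ≠ 0 := by
  intro h0
  have hN := hF.N0
  obtain ⟨h1, h2⟩ := (hF.Lk_eq_zero_iff hμ m).1 h0
  rcases hF.S μ hμ h1 with ⟨j, s, h⟩ | ⟨i, j, s, s', hij, h⟩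
  · have h3 := h2 j j.2
    rw [h, map_zsmul, hF.be, if_pos rfl, smul_eq_mul, sg_true, one_mul] at h3
    exact (mul_ne_zero (sg_ne_zero s) hN.ne') h3
  · have h3 := h2 i i.2
    rw [h, map_add, map_zsmul, map_zsmul, hF.be, hF.be, if_pos rfl, if_neg (Ne.symm hij),
      smul_eq_mul, smul_eq_mul, mul_zero, add_zero, sg_true, one_mul] at h3
    exact (mul_ne_zero (sg_ne_zero s) hN.ne') h3

theorem Lk_dom (hF : Face 𝒜 N lam m e L0 β E F) {j k : ℕ} (hjk : j ≤ k) {μ : Fin r → ℤ}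
    (hμ : Wt 𝒜 μ) : (0 < Lk N L0 β j μ → 0 < Lk N L0 β k μ) ∧
      (Lk N L0 β j μ < 0 → Lk N L0 β k μ < 0) :=
  ⟨hF.Lk_pos_mono hμ hjk, hF.Lk_neg_mono hμ hjk⟩

end Vale.Agent.P280.N
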