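import Vale.Agent.P280.N.C05
import Vale.Agent.P280.N.C01
import Vale.Agent.P280.H170.Sl2

/-! P280, plan N: package E02. -/

open DirectSum Vale.Agent.P280.T Vale.Agent.P280.H127

namespace Vale.Agent.P280.N

variable {r : ℕ} {R : Type} [CommRing R] [IsDomain R] [Algebra ℂ R]
  {𝒜 : ℕ × (Fin r → ℤ) → Submodule ℂ R} [GradedAlgebra 𝒜]
variable {N : ℤ} {lam : Fin r → ℤ} {m : ℕ} {e : Fin m → Fin r → ℤ} {L0 : (Fin r → ℤ) →+ ℤ}
  {β : Fin m → Bool → ((Fin r → ℤ) →+ ℤ)} {E F : Fin m → Bool → VF R}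

theorem sg_mul_sg (s : Bool) : sg s * sg s = 1 := by
  cases s <;> rfl

/-- The torus element `⁅E, F⁆` of a root acts on the global fields of weight `ω` by `β ω`. -/
theorem root_br_lie {χ : Fin r → ℤ} {b : (Fin r → ℤ) →+ ℤ} {E F : VF R}
    (hr : Root 𝒜 N χ b E F) {D : VF R} (hD : Glob D) {ω : Fin r → ℤ} (hDv : HV 𝒜 ω D) :
    ⁅⁅E, F⁆, D⁆ = (b ω : ℂ) • D := by
  obtain ⟨α, hα⟩ := hr.br
  refine vf_ext_hom (𝒜 := 𝒜) fun d m' h hh => ?_
  obtain ⟨a, ha⟩ := hD h
  have h1 : HK 𝒜 d (m' - ω) (iK a) := by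
    rw [← ha]
    exact hDv d m' h hh
  have h2 := hα d _ a h1.mem
  have h3 := hα d _ h hh
  rw [Derivation.commutator_apply, h3, ha, h2, map_neg, Derivation.map_smul, ha,
    Derivation.smul_apply, ha, map_sub, Int.cast_sub]
  rw [sub_neg_eq_add, neg_add_eq_sub, ← sub_smul]
  congr 1
  ring

/-- The difference of two vertices which are not opposite or equal is not zero. -/
theorem vx_diff_ne (hF : Face 𝒜 N lam m e L0 β E F) {i j : Fin m} (s s' : Bool) (hij : i ≠ j) :
    sg s' • e j - sg s • e i ≠ 0 := by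
  intro h
  have h1 := congrArg (β i s) h
  rw [map_sub, map_zsmul, map_zsmul, hF.be i s j, hF.be i s i, if_neg (Ne.symm hij), if_pos rfl,
    smul_zero, zero_sub, map_zero, neg_eq_zero, smul_eq_mul, ← mul_assoc, sg_mul_sg, one_mul] at h1
  have := hF.N0
  omega

/-- E02 (f1). -/
theorem f1 (H : Hyp 𝒜) (hF : Face 𝒜 N lam m e L0 β E F) (y : FP 𝒜) {i j : Fin m}
    {s s' : Bool} (hij : i ≠ j) (h1 : ¬ y.Pi (vx lam e i s)) (h2 : y.Pi (vx lam e j s')) :
    y.Pi (sg s' • e j - sg s • e i) := by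
  by_contra hcon
  have hri := hF.root i s
  have hrj := hF.root j s'
  have hN := hF.N0
  have hpos := hF.pos
  -- the values of `L0` and `β`
  have hLi : L0 (vx lam e i s) = L0 lam := by
    rw [vx, map_add, map_zsmul, hF.lze, smul_zero, add_zero]
  have hLj : L0 (vx lam e j s') = L0 lam := by
    rw [vx, map_add, map_zsmul, hF.lze, smul_zero, add_zero]
  have hbj : β i s (vx lam e j s') = N := by
    rw [vx, map_add, map_zsmul, hF.be i s j, if_neg (Ne.symm hij), smul_zero, add_zero, hF.bl]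
  -- `E i s` and `E j s'` commute
  have hEE : ⁅E i s, E j s'⁆ = 0 := by
    by_contra hne
    have h3 := hull_field H L0 hpos.le hF.max (hri.globE.lie hrj.globE)
      (hri.hvE.lie hrj.hvE) hne
    rw [map_add, hLi, hLj] at h3
    linarith
  -- the bracket with `D = ⁅F i s, E j s'⁆`
  have hED : ⁅E i s, ⁅F i s, E j s'⁆⁆ = (N : ℂ) • E j s' := by
    have h3 := vf_jacobi (E i s) (F i s) (E j s')
    rw [hEE, vf_lie_zero, sub_zero, root_br_lie hri hrj.globE hrj.hvE, hbj] at h3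
    exact h3.symm
  -- the values at `y`
  have hvi0 : vx lam e i s ≠ 0 := by
    intro h
    have h3 := hri.two
    rw [h, map_zero] at h3
    omega
  have e1 : ValV y.q (E i s) 0 :=
    val_zero_of_not_pi H.hX hvi0 hri.hvE hri.globE.rgV h1
  have hw : -(vx lam e i s) + vx lam e j s' = sg s' • e j - sg s • e i := by
    rw [vx, vx]
    abel
  have e2 : ValV y.q ⁅F i s, E j s'⁆ 0 := by
    refine val_zero_of_not_pi H.hX (vx_diff_ne hF s s' hij) ?_
      (hri.globF.lie hrj.globE).rgV hcon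
    exact (hri.hvF.lie hrj.hvE).cast hw
  -- conclusion
  have e3 : ValV y.q ((N : ℂ) • E j s') 0 := by
    rw [← hED]
    obtain ⟨A, hA⟩ := hri.globE.exists_der
    obtain ⟨B, hB⟩ := (hri.globF.lie hrj.globE).exists_der
    intro h
    have k1 : ∀ x : R, y.q (A x) = 0 := fun x => by
      have h3 := e1 x
      rw [← hA, toVF_iK] at h3
      exact (Val.iK (A x)).unique h3
    have k2 : ∀ x : R, y.q (B x) = 0 := fun x => by
      have h3 := e2 x
      rw [← hB, toVF_iK] at h3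
      exact (Val.iK (B x)).unique h3
    rw [← hA, ← hB, ← toVF_lie, toVF_iK, LinearMap.zero_apply]
    have h3 : y.q (⁅A, B⁆ h) = 0 := by
      rw [Derivation.commutator_apply, map_sub, k1, k2, sub_zero]
    rw [← h3]
    exact Val.iK _
  have hNC : (N : ℂ) ≠ 0 := by
    exact_mod_cast hN.ne'
  have e4 := e3.smulC ((N : ℂ)⁻¹)
  rw [smul_smul, inv_mul_cancel₀ hNC, one_smul, smul_zero] at e4
  exact hrj.atE y h2 e4

/-- E03 (f2). -/
theorem f2 (H : Hyp 𝒜) (hF : Face 𝒜 N lam m e L0 β E F) (y : FP 𝒜) (hy : Pos L0 y) {j : Fin m}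
    {s : Bool} (hl : y.Pi lam) (h1 : ¬ y.Pi (vx lam e j s)) : y.Pi (-(sg s • e j)) := by
  have hr := hF.root j s
  have hN := hF.N0
  have hv0 : vx lam e j s ≠ 0 := by
    intro h
    have h3 := hr.two
    rw [h, map_zero] at h3
    omega
  have h2 : ¬ y.Pi (-(vx lam e j s)) := hF.not_neg_vx hy j s
  obtain ⟨A, hA, hA'⟩ := hr.globE.exists_hder hr.hvE
  obtain ⟨B, hB, hB'⟩ := hr.globF.exists_hder hr.hvF
  obtain ⟨α, hα⟩ := hr.br
  have hNC : (N : ℂ) ≠ 0 := by
    exact_mod_cast hN.ne'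
  let θ : (Fin r → ℤ) →+ ℂ := -((Int.castAddHom ℂ).comp (β j s))
  have hθ : ∀ x, θ x = -((β j s x : ℤ) : ℂ) := fun x => rfl
  have hθv : θ (vx lam e j s) = -(2 * N) := by
    rw [hθ, hr.two]
    push_cast
    ring
  have hθl : θ lam = -N := by
    rw [hθ, hF.bl]
  have h3 := H170.tangentWeight_sub (𝒜 := 𝒜) H.hX y.nv y.fix (χ := lam) hA' hB' (c := -α) (θ := θ)
    (fun d m' h hh => by
      have h4 := hα d m' h hh
      rw [← hA, ← hB, ← toVF_lie, toVF_iK, ← iK_smul, ← iK_neg] at h4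
      have h5 := iK_inj h4
      rw [Derivation.commutator_apply] at h5
      rw [h5, ← neg_smul, hθ]
      congr 1
      ring)
    (H170.field_eq_zero y.fix hv0 hA' h1) (H170.field_eq_zero y.fix (neg_ne_zero.2 hv0) hB' h2)
    (by
      rw [hθv]
      exact neg_ne_zero.2 (mul_ne_zero two_ne_zero hNC))
    (fun k h => by
      rw [hθv, hθl] at h
      have h4 : ((k : ℂ) + 1) * N = 0 := by linear_combination -h / 2
      rcases mul_eq_zero.1 h4 with h5 | h5
      · exact (by exact_mod_cast Nat.succ_ne_zero k : (k : ℂ) + 1 ≠ 0) h5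
      · exact hNC h5) hl
  have h4 : lam - vx lam e j s = -(sg s • e j) := by
    rw [vx]
    abel
  rwa [h4] at h3

/-- E04 (f3). -/
theorem f3 (H : Hyp 𝒜) (hF : Face 𝒜 N lam m e L0 β E F) (y : FP 𝒜) (hy : Pos L0 y)
    (hl : y.Pi lam) (j : Fin m) : y.Pi (vx lam e j true) ∨ y.Pi (vx lam e j false) := by
  by_contra hcon
  push Not at hcon
  have h1 := f2 H hF y hy hl hcon.1
  have h2 := f2 H hF y hy hl hcon.2
  have e1 : -(sg true • e j) = -e j := by
    rw [sg, if_pos rfl, one_smul]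
  have e2 : -(sg false • e j) = e j := by
    rw [sg, if_neg (by decide), neg_one_smul, neg_neg]
  rw [e1] at h1
  rw [e2] at h2
  have h3 := H.ind y.q y.ν _ _ y.nv y.fix h1 h2 ⟨1, -1, one_ne_zero, by norm_num, by
    rw [one_smul, neg_one_smul]⟩
  have h4 := congrArg (β j true) h3
  rw [map_neg, hF.be j true j, if_pos rfl, sg, if_pos rfl, one_mul] at h4
  have := hF.N0
  omega

end Vale.Agent.P280.N
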