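import Vale.Agent.P280.N.E01
import Vale.Agent.P280.N.E02
import Vale.Agent.P280.N.A16
import Vale.Agent.P280.H170.NL

/-! P280, plan N: package E06. -/

open DirectSum Vale.Agent.P280.T Vale.Agent.P280.H127

namespace Vale.Agent.P280.N

variable {r : ℕ} {R : Type} [CommRing R] [IsDomain R] [Algebra ℂ R]
  {𝒜 : ℕ × (Fin r → ℤ) → Submodule ℂ R} [GradedAlgebra 𝒜]
variable {N : ℤ} {lam : Fin r → ℤ} {m : ℕ} {e : Fin m → Fin r → ℤ} {L0 : (Fin r → ℤ) →+ ℤ}
  {β : Fin m → Bool → ((Fin r → ℤ) →+ ℤ)} {E F : Fin m → Bool → VF R}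

namespace E06

/-- The weights of the face at a fixed point. -/
def top (lam : Fin r → ℤ) (e : Fin m → Fin r → ℤ) (y : FP 𝒜) : Set (Fin r → ℤ) :=
  {ω | y.Pi ω ∧ (ω = lam ∨ ∃ (j : Fin m) (s : Bool), ω = vx lam e j s)}

theorem top_eq (hF : Face 𝒜 N lam m e L0 β E F) (y : FP 𝒜) :
    top lam e y = {ω | y.Pi ω ∧ L0 ω = L0 lam} := by
  ext ω
  constructor
  · rintro ⟨h1, rfl | ⟨j, s, rfl⟩⟩
    · exact ⟨h1, rfl⟩
    · exact ⟨h1, hF.L0_vx j s⟩
  · rintro ⟨h1, h2⟩
    exact ⟨h1, hF.top ω ⟨y, h1⟩ h2⟩

/-- the number of weights of the face at a point of `S` -/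
theorem le_top (H : Hyp 𝒜) (hF : Face 𝒜 N lam m e L0 β E F) {y0 y : FP 𝒜} (h0 : Pos L0 y0)
    (hl : y0.Pi lam) (hA : ∀ j, y0.Pi (vx lam e j true)) (hy : Pos L0 y) :
    m + 1 ≤ (top lam e y).ncard := by
  classical
  have h1 : (top lam e y).ncard = (top lam e y0).ncard := by
    rw [top_eq hF, top_eq hF]
    exact H170.low_count H (low_of_pos H.hX hy) (low_of_pos H.hX h0) _
  rw [h1]
  let T : Finset (Fin r → ℤ) := insert lam (Finset.univ.image fun j : Fin m => vx lam e j true)
  have hT : (T : Set (Fin r → ℤ)) ⊆ top lam e y0 := by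
    intro ω hω
    rw [Finset.mem_coe, Finset.mem_insert, Finset.mem_image] at hω
    rcases hω with rfl | ⟨j, -, rfl⟩
    · exact ⟨hl, Or.inl rfl⟩
    · exact ⟨hA j, Or.inr ⟨j, true, rfl⟩⟩
  have h2 : T.card = m + 1 := by
    rw [Finset.card_insert_of_notMem, Finset.card_image_of_injective, Finset.card_univ,
      Fintype.card_fin]
    · intro i j hij
      exact (hF.vx_inj hij).1
    · intro h3
      obtain ⟨j, -, hj⟩ := Finset.mem_image.1 h3
      exact hF.vx_ne_lam j true hj
  rw [← h2, ← Set.ncard_coe_finset]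
  exact Set.ncard_le_ncard hT ((H170.pi_finite H y0).subset fun _ hω => hω.1)

/-- the weights produced by a missing vertex -/
theorem sub_mem (H : Hyp 𝒜) (hF : Face 𝒜 N lam m e L0 β E F) {y : FP 𝒜} (hy : Pos L0 y)
    {j : Fin m} (hj : ¬ y.Pi (vx lam e j true)) {ω : Fin r → ℤ} (hω : ω ∈ top lam e y)
    (hne : ω ≠ vx lam e j false) : y.Pi (ω - vx lam e j true) := by
  have hlow := low_of_pos H.hX hy
  obtain ⟨h1, rfl | ⟨i, s, rfl⟩⟩ := hω
  · have h2 := H170.f2 H hF hlow hj h1
    have h3 : ω - vx ω e j true = -(sg true • e j) := by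
      rw [vx]
      abel
    rw [h3]
    exact h2
  · by_cases hij : i = j
    · subst hij
      cases s
      · exact absurd rfl hne
      · exact absurd h1 hj
    · have h2 := H170.f1 H hF hlow hij hj h1
      have h3 : vx lam e i s - vx lam e j true = sg s • e i - sg true • e j := by
        rw [vx, vx]
        abel
      rw [h3]
      exact h2

/-- the values of `Lk` at the differences -/
theorem Lk_sub (hF : Face 𝒜 N lam m e L0 β E F) (k : ℕ) (i j : Fin m) (s s' : Bool) :
    Lk N L0 β k (vx lam e i s - vx lam e j s') =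
      sg s * (if (i : ℕ) < k then 3 ^ (m - 1 - i) * N else 0) -
        sg s' * (if (j : ℕ) < k then 3 ^ (m - 1 - j) * N else 0) := by
  rw [map_sub, hF.Lk_vx, hF.Lk_vx]
  ring

theorem Lk_lam_sub (hF : Face 𝒜 N lam m e L0 β E F) (k : ℕ) (j : Fin m) (s' : Bool) :
    Lk N L0 β k (lam - vx lam e j s') =
      -(sg s' * (if (j : ℕ) < k then 3 ^ (m - 1 - j) * N else 0)) := by
  rw [map_sub, hF.Lk_vx]
  ring

theorem pow_pos' (hN : 0 < N) (i : Fin m) : 0 < (3 : ℤ) ^ (m - 1 - (i : ℕ)) * N := by positivity

theorem pow_lt' (hN : 0 < N) {i j : Fin m} (hij : (j : ℕ) < i) :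
    (3 : ℤ) ^ (m - 1 - (i : ℕ)) * N < 3 ^ (m - 1 - (j : ℕ)) * N :=
  mul_lt_mul_of_pos_right (pow_lt_pow_right₀ (by norm_num) (by have := i.2; omega)) hN

/-- a bound of cardinality -/
theorem ncard_le_of (hF : Face 𝒜 N lam m e L0 β E F) {S : Set (Fin r → ℤ)} {k : ℕ} (hk : k ≤ m)
    {A : Finset (Fin r → ℤ)} (hS : ∀ ω ∈ S, ω ∈ A ∨ ∃ u : Fin m, (u : ℕ) < k ∧
      ω = vx lam e u true) : S.ncard ≤ k + A.card := by
  classical
  let T : Finset (Fin r → ℤ) :=
    (Finset.univ.image fun u : Fin k => vx lam e ⟨u, by omega⟩ true) ∪ A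
  have h1 : S ⊆ (T : Set (Fin r → ℤ)) := by
    intro ω hω
    rw [Finset.mem_coe, Finset.mem_union, Finset.mem_image]
    rcases hS ω hω with h2 | ⟨u, hu, rfl⟩
    · exact Or.inr h2
    · exact Or.inl ⟨⟨u, hu⟩, Finset.mem_univ _, rfl⟩
  refine (Set.ncard_le_ncard h1 (Finset.finite_toSet T)).trans ?_
  rw [Set.ncard_coe_finset]
  refine (Finset.card_union_le _ _).trans ?_
  have h2 : (Finset.univ.image fun u : Fin k => vx lam e ⟨u, by omega⟩ true).card ≤ k := by
    refine Finset.card_image_le.trans ?_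
    rw [Finset.card_univ, Fintype.card_fin]
  omega

end E06

open E06

/-- E06. Counting on `S^{(k)}`. (0-indexed: the indices `i < k` of the vertices `lam + e i`.) -/
theorem cnt (H : Hyp 𝒜) (hF : Face 𝒜 N lam m e L0 β E F) {y0 : FP 𝒜} (h0 : Pos L0 y0)
    (hl : y0.Pi lam) (hA : ∀ j, y0.Pi (vx lam e j true)) (k : ℕ) {y : FP 𝒜}
    (hy : Pos (Lk N L0 β k) y) (i : Fin m) (hi : (i : ℕ) < k) : y.Pi (vx lam e i true) := by
  classical
  have hN := hF.N0
  by_contra h1
  have hy0 := hF.pos_L0 hy
  have h2 := le_top H hF h0 hl hA hy0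
  have h3 : (top lam e y).ncard ≤ i + ({vx lam e i false} : Finset (Fin r → ℤ)).card := by
    refine ncard_le_of hF (by omega) fun ω hω => ?_
    by_cases hne : ω = vx lam e i false
    · left
      rw [Finset.mem_singleton]
      exact hne
    right
    have h4 := hy _ (sub_mem H hF hy0 h1 hω hne)
    obtain ⟨h5, rfl | ⟨u, s, rfl⟩⟩ := hω
    · rw [Lk_lam_sub hF, if_pos hi, sg_true, one_mul] at h4
      have := pow_pos' hN i
      linarith
    · rw [Lk_sub hF, if_pos hi, sg_true, one_mul] at h4
      have h6 := pow_pos' hN i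
      have h7 := pow_pos' hN u
      by_cases hu : (u : ℕ) < k
      · rw [if_pos hu] at h4
        cases s
        · rw [sg_false] at h4
          linarith
        · rw [sg_true, one_mul] at h4
          refine ⟨u, ?_, rfl⟩
          by_contra h8
          rcases Nat.lt_or_ge (i : ℕ) u with h9 | h9
          · have := pow_lt' hN h9
            linarith
          · have h10 : u = i := Fin.ext (by omega)
            subst h10
            exact h1 h5
      · rw [if_neg hu, mul_zero] at h4
        linarith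
  rw [Finset.card_singleton] at h3
  have := i.2
  omega

/-- E07. Counting at the lowest polar point. -/
theorem cnt_step (H : Hyp 𝒜) (hF : Face 𝒜 N lam m e L0 β E F) {y0 : FP 𝒜} (h0 : Pos L0 y0)
    (hl : y0.Pi lam) (hA : ∀ j, y0.Pi (vx lam e j true)) {k k' : Fin m} (hk : (k' : ℕ) = k + 1)
    {y : FP 𝒜} (hy : Pos (Lk N L0 β k) y) {b : Fin r → ℤ} (hb : y.Pi (-b))
    (hcb : 0 < Lk N L0 β m b) (hoth : ∀ ψ, y.Pi ψ → ψ ≠ -b → 0 < Lk N L0 β m ψ) :
    (y.Pi (vx lam e k true) ∧ y.Pi (vx lam e k' true)) ∨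
    ((k : ℕ) + 2 = m ∧ y.Pi lam ∧ y.Pi (vx lam e k true) ∧ ¬ y.Pi (vx lam e k' true) ∧
      b = e k') ∨
    ((k : ℕ) + 2 = m ∧ b = e k + e k') := by
  classical
  have hN := hF.N0
  have hy0 := hF.pos_L0 hy
  have h2 := le_top H hF h0 hl hA hy0
  have hneg : ∀ (j : Fin m) (ω : Fin r → ℤ), y.Pi (ω - vx lam e j true) →
      Lk N L0 β m (ω - vx lam e j true) < 0 → ω = vx lam e j true - b := by
    intro j ω h3 h4
    by_contra h5
    have h6 := hoth _ h3 (fun h7 => h5 (by
      rw [sub_eq_iff_eq_add] at h7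
      rw [h7]
      abel))
    linarith
  -- the vertex `k`
  have hk1 : y.Pi (vx lam e k true) := by
    by_contra h1
    have h3 : (top lam e y).ncard ≤ k + ({vx lam e k false, vx lam e k true - b} :
        Finset (Fin r → ℤ)).card := by
      refine ncard_le_of hF (by omega) fun ω hω => ?_
      rw [Finset.mem_insert, Finset.mem_singleton]
      by_cases hne : ω = vx lam e k false
      · exact Or.inl (Or.inl hne)
      have h4 := sub_mem H hF hy0 h1 hω hne
      have h5 := hy _ h4
      obtain ⟨h6, rfl | ⟨u, s, rfl⟩⟩ := hω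
      · refine Or.inl (Or.inr (hneg _ _ h4 ?_))
        rw [Lk_lam_sub hF, if_pos k.2, sg_true, one_mul]
        have := pow_pos' hN k
        linarith
      · rw [Lk_sub hF, if_neg (lt_irrefl _), mul_zero, sub_zero] at h5
        have h7 := pow_pos' hN u
        rcases Nat.lt_trichotomy (u : ℕ) k with hu | hu | hu
        · rw [if_pos hu] at h5
          cases s
          · rw [sg_false] at h5
            linarith
          · exact Or.inr ⟨u, hu, rfl⟩
        · have h10 : u = k := Fin.ext hu
          subst h10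
          cases s
          · exact absurd rfl hne
          · exact absurd h6 h1
        · refine Or.inl (Or.inr (hneg _ _ h4 ?_))
          rw [Lk_sub hF, if_pos k.2, if_pos u.2, sg_true, one_mul]
          have := pow_lt' hN hu
          cases s
          · rw [sg_false]
            linarith
          · rw [sg_true, one_mul]
            linarith
    have h4 := Finset.card_le_two (a := vx lam e k false) (b := vx lam e k true - b)
    have := k'.2
    omega
  by_cases h1 : y.Pi (vx lam e k' true)
  · exact Or.inl ⟨hk1, h1⟩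
  right
  have key : ∀ ω ∈ top lam e y, ω ≠ vx lam e k' false →
      (∃ u : Fin m, (u : ℕ) < k + 1 ∧ ω = vx lam e u true) ∨ ω = vx lam e k' true - b := by
    intro ω hω hne
    have h4 := sub_mem H hF hy0 h1 hω hne
    have h5 := hy _ h4
    obtain ⟨h6, rfl | ⟨u, s, rfl⟩⟩ := hω
    · refine Or.inr (hneg _ _ h4 ?_)
      rw [Lk_lam_sub hF, if_pos k'.2, sg_true, one_mul]
      have := pow_pos' hN k'
      linarith
    · rw [Lk_sub hF, if_neg (by omega : ¬ (k' : ℕ) < k), mul_zero, sub_zero] at h5
      have h7 := pow_pos' hN u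
      rcases Nat.lt_trichotomy (u : ℕ) k' with hu | hu | hu
      · cases s
        · rcases Nat.lt_or_ge (u : ℕ) k with hu' | hu'
          · rw [if_pos hu', sg_false] at h5
            linarith
          · refine Or.inr (hneg _ _ h4 ?_)
            rw [Lk_sub hF, if_pos k'.2, if_pos u.2, sg_true, one_mul, sg_false]
            have := pow_pos' hN k'
            linarith
        · exact Or.inl ⟨u, by omega, rfl⟩
      · have h10 : u = k' := Fin.ext hu
        subst h10
        cases s
        · exact absurd rfl hne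
        · exact absurd h6 h1
      · refine Or.inr (hneg _ _ h4 ?_)
        rw [Lk_sub hF, if_pos k'.2, if_pos u.2, sg_true, one_mul]
        have := pow_lt' hN hu
        cases s
        · rw [sg_false]
          linarith
        · rw [sg_true, one_mul]
          linarith
  have h3 : (top lam e y).ncard ≤ (k + 1) + ({vx lam e k' false, vx lam e k' true - b} :
      Finset (Fin r → ℤ)).card := by
    refine ncard_le_of hF (by omega) fun ω hω => ?_
    rw [Finset.mem_insert, Finset.mem_singleton]
    by_cases hne : ω = vx lam e k' false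
    · exact Or.inl (Or.inl hne)
    · rcases key ω hω hne with h4 | h4
      · exact Or.inr h4
      · exact Or.inl (Or.inr h4)
  have h3' := Finset.card_le_two (a := vx lam e k' false) (b := vx lam e k' true - b)
  have hkm : (k : ℕ) + 2 = m := by
    have := k'.2
    omega
  -- the extra weight is in the face and not among the others
  have h4 : ∃ ω ∈ top lam e y, ω ≠ vx lam e k' false ∧
      ¬ ∃ u : Fin m, (u : ℕ) < k + 1 ∧ ω = vx lam e u true := by
    by_contra h5
    push Not at h5
    have h6 : (top lam e y).ncard ≤ (k + 1) + ({vx lam e k' false} :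
        Finset (Fin r → ℤ)).card := by
      refine ncard_le_of hF (by omega) fun ω hω => ?_
      rw [Finset.mem_singleton]
      by_cases hne : ω = vx lam e k' false
      · exact Or.inl hne
      · exact Or.inr (h5 ω hω hne)
    rw [Finset.card_singleton] at h6
    omega
  obtain ⟨ω, hω, hne, h5⟩ := h4
  have h6 := (key ω hω hne).resolve_left h5
  obtain ⟨h9, rfl | ⟨u, s, rfl⟩⟩ := hω
  · left
    refine ⟨hkm, h9, hk1, h1, ?_⟩
    have h10 : b = vx ω e k' true - ω := by
      rw [eq_sub_iff_add_eq, ← eq_sub_iff_add_eq']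
      exact h6
    rw [h10, vx, sg_true, one_smul, add_sub_cancel_left]
  · right
    refine ⟨hkm, ?_⟩
    have h10 : b = vx lam e k' true - vx lam e u s := by
      rw [eq_sub_iff_add_eq, ← eq_sub_iff_add_eq']
      exact h6
    have h11 := u.2
    cases s
    · have h12 : u = k := by
        apply Fin.ext
        rcases Nat.lt_trichotomy (u : ℕ) k with hu | hu | hu
        · exfalso
          have h13 := hy _ (sub_mem H hF hy0 h1 ⟨h9, Or.inr ⟨u, false, rfl⟩⟩ hne)
          rw [Lk_sub hF, if_neg (by omega : ¬ (k' : ℕ) < k), mul_zero, sub_zero, if_pos hu,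
            sg_false] at h13
          have := pow_pos' hN u
          linarith
        · exact hu
        · exfalso
          have h13 : u = k' := Fin.ext (by omega)
          subst h13
          exact hne rfl
      subst h12
      rw [h10, vx, vx, sg_true, sg_false]
      simp only [one_smul, neg_smul]
      abel
    · exfalso
      rcases Nat.lt_or_ge (u : ℕ) (k + 1) with hu | hu
      · exact h5 ⟨u, hu, rfl⟩
      · have h13 : u = k' := Fin.ext (by omega)
        subst h13
        exact h1 h9

end Vale.Agent.P280.N
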