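import Vale.Agent.P280.N.E00
import Vale.Agent.P280.N.E06
import Vale.Agent.P280.N.A12

/-! P280, plan N: package E10b. -/

open DirectSum Vale.Agent.P280.T Vale.Agent.P280.H127

namespace Vale.Agent.P280.N

variable {r : ℕ} {R : Type} [CommRing R] [IsDomain R] [Algebra ℂ R]
  {𝒜 : ℕ × (Fin r → ℤ) → Submodule ℂ R} [GradedAlgebra 𝒜]
variable {N : ℤ} {lam : Fin r → ℤ} {m : ℕ} {e : Fin m → Fin r → ℤ} {L0 : (Fin r → ℤ) →+ ℤ}
  {β : Fin m → Bool → ((Fin r → ℤ) →+ ℤ)} {E F : Fin m → Bool → VF R}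

namespace E10b

omit [GradedAlgebra 𝒜] in
/-- the fields `w_i`, `i < k`, are independent at `y` if their weights are tangent weights -/
theorem ind_wf (hF : Face 𝒜 N lam m e L0 β E F) {y : FP 𝒜} (k : ℕ)
    (h : ∀ i : Fin m, (i : ℕ) < k → y.Pi (vx lam e i true)) :
    Ind y (wf E k) (fun i => vx lam e i.1 true) where
  glob i := (hF.root i.1 true).globE
  hv i := (hF.root i.1 true).hvE
  inj _ _ hij := Subtype.ext (hF.vx_inj hij).1
  pi i := h i.1 i.2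
  ne i := (hF.root i.1 true).atE y (h i.1 i.2)

omit [GradedAlgebra 𝒜] in
/-- the weights which are not among the first `k` vertices -/
theorem top_le (hF : Face 𝒜 N lam m e L0 β E F) {y : FP 𝒜} (k : ℕ) {ψ : Fin r → ℤ} (hψ : y.Pi ψ)
    (h : ∀ i : {i : Fin m // (i : ℕ) < k}, ψ ≠ vx lam e i.1 true) :
    Lk N L0 β k ψ ≤ Lk N L0 β k lam := by
  have hN := hF.N0
  rcases eq_or_lt_of_le (hF.max ψ ⟨y, hψ⟩) with h1 | h1
  · rcases hF.top ψ ⟨y, hψ⟩ h1 with rfl | ⟨j, s, rfl⟩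
    · exact le_rfl
    · rw [hF.Lk_vx]
      by_cases hj : (j : ℕ) < k
      · rw [if_pos hj]
        have h2 : (0 : ℤ) < 3 ^ (m - 1 - (j : ℕ)) * N := by positivity
        cases s
        · rw [sg_false]
          nlinarith
        · exact absurd rfl (h ⟨j, hj⟩)
      · rw [if_neg hj, mul_zero, add_zero]
  · exact ((hF.Lk_lt_of_L0 ⟨y, hψ⟩ h1 k).trans_le (hF.le_Lk_lam k)).le

end E10b

/-- E10c. The polar point with `k, k'` in `A_y` or `k` in `A_y`: `v` is regular there modulo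
`W_{k+1}`. -/
theorem step_c (H : Hyp 𝒜) (hF : Face 𝒜 N lam m e L0 β E F) {y0 : FP 𝒜}
    (h0 : Pos (Lk N L0 β m) y0) (hl : y0.Pi lam) (hA : ∀ j, y0.Pi (vx lam e j true))
    {k : Fin m} {v : VF R} (hv : HV 𝒜 lam v)
    (hrm : ∀ y : FP 𝒜, Pos (Lk N L0 β (k + 1)) y → RM y.q (Set.range (wf E (k + 1))) v)
    {y : FP 𝒜} (hy : Pos (Lk N L0 β k) y) (hky : y.Pi (vx lam e k true)) {b : Fin r → ℤ}
    (hb : y.Pi (-b)) (hcb : 0 < Lk N L0 β m b)
    (hoth : ∀ ψ, y.Pi ψ → ψ ≠ -b → 0 < Lk N L0 β m ψ)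
    (hz : ∀ d z, Crd y (-b) d z → ∃ n : ℕ, RM y.q (Set.range (wf E k)) ((iK z) ^ n • v)) :
    RM y.q (Set.range (wf E (k + 1))) v := by
  have hN := hF.N0
  have hkm : (k : ℕ) + 1 ≤ m := k.2
  have hnn : ∀ ψ, y.Pi ψ → ψ ≠ -b → 0 ≤ Lk N L0 β (k + 1) ψ := by
    intro ψ hψ hne
    exact hF.Lk_nonneg_mono ⟨y, hψ⟩ hkm (hoth ψ hψ hne).le
  by_cases hlb : 0 < Lk N L0 β (k + 1) b
  · have hpi : ∀ i : Fin m, (i : ℕ) < k + 1 → y.Pi (vx lam e i true) := by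
      intro i hi
      rcases Nat.lt_succ_iff_lt_or_eq.1 hi with h1 | h1
      · exact cnt H hF (hF.pos_L0 h0) hl hA k hy i h1
      · rw [Fin.ext h1]
        exact hky
    obtain ⟨n, χ, -, hχ, hcrd, -⟩ := coords H y
    obtain ⟨i, hi⟩ := (hχ (-b)).1 hb
    obtain ⟨d, z, hzc⟩ := hcrd i
    rw [hi] at hzc
    obtain ⟨p, hp⟩ := hz d z hzc
    have hlam := hF.Lk_lam_pos (k + 1)
    refine lemmaL H y (E10b.ind_wf hF (k + 1) hpi) (Lk N L0 β (k + 1)) hzc hnn ?_ hlb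
      (by linarith) hv p (hp.mono ?_)
    · intro ψ hψ hne
      have := E10b.top_le hF (k + 1) hψ hne
      linarith
    · rintro _ ⟨j, rfl⟩
      exact ⟨⟨j.1, j.2.trans (Nat.lt_succ_self _)⟩, rfl⟩
  · refine hrm y fun ψ hψ => ?_
    by_cases hne : ψ = -b
    · rw [hne, map_neg]
      linarith
    · exact hnn ψ hψ hne

/-- E10b. -/
theorem step_b (H : Hyp 𝒜) (hF : Face 𝒜 N lam m e L0 β E F) {y0 : FP 𝒜}
    (h0 : Pos (Lk N L0 β m) y0) (hl : y0.Pi lam) (hA : ∀ j, y0.Pi (vx lam e j true))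
    {k k' : Fin m} (hk : (k' : ℕ) = k + 1) {v : VF R} (hv : HV 𝒜 lam v) (hr : RgV y0.q v)
    {X Y : VF R} (hX : Glob X) (hY : Glob Y) (hXv : HV 𝒜 (e k - e k') X)
    (hYv : HV 𝒜 (e k' - e k) Y) (hY1 : ⁅Y, E k true⁆ = E k' true)
    (hY2 : ∀ l, l ≠ k → ⁅Y, E l true⁆ = 0) (hX2 : ∀ l, l ≠ k' → ⁅X, E l true⁆ = 0)
    (hXY : ⁅⁅X, Y⁆, v⁆ = 0)
    (h : ⁅Y, v⁆ ∈ Submodule.span (FractionRing R) (Set.range (wf E k))) :
    ⁅X, v⁆ ∈ Submodule.span (FractionRing R) (Set.range (wf E k)) := by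
  classical
  have hN := hF.N0
  have hkk : k ≠ k' := fun h1 => by rw [h1] at hk; omega
  have hind := E10b.ind_wf (E := E) (F := F) hF (y := y0) m fun i _ => hA i
  -- weights
  have hom : HV 𝒜 (lam + (e k - e k')) ⁅X, v⁆ := by
    have := HV.lie hXv hv
    rwa [add_comm] at this
  have hLe : ∀ i : Fin m, Lk N L0 β m (e i) = 3 ^ (m - 1 - (i : ℕ)) * N := by
    intro i
    rw [hF.Lk_e, if_pos i.2]
  have hpk : (3 : ℤ) ^ (m - 1 - (k : ℕ)) = 3 * 3 ^ (m - 1 - (k' : ℕ)) := by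
    rw [← pow_succ']
    congr 1
    have := k'.2
    omega
  have hpk' : (0 : ℤ) < 3 ^ (m - 1 - (k' : ℕ)) * N := by positivity
  have hlam := hF.Lk_lam_pos m
  have hLom : Lk N L0 β m (lam + (e k - e k')) =
      Lk N L0 β m lam + 2 * (3 ^ (m - 1 - (k' : ℕ)) * N) := by
    rw [map_add, map_sub, hLe, hLe, hpk]
    ring
  obtain ⟨x, hx, hxs⟩ := lf4 H y0 hind (Lk N L0 β m) h0 (om := lam + (e k - e k'))
    (fun ψ hψ hne => by
      have := E10b.top_le hF m hψ hne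
      rw [hLom]
      linarith) (by rw [hLom]; linarith) hom (hX.rgV.lie hr)
  -- the coefficients after `k` vanish
  have hx0 : ∀ i : {i : Fin m // (i : ℕ) < m}, (k : ℕ) < i.1 → x i = 0 := by
    intro i hi
    refine lf1 H y0 (Lk N L0 β m) h0 (hx i).2 (hx i).1 ?_
    have h1 : Lk N L0 β m (vx lam e i.1 true - (lam + (e k - e k'))) =
        3 ^ (m - 1 - (i.1 : ℕ)) * N - 2 * (3 ^ (m - 1 - (k' : ℕ)) * N) := by
      rw [vx, map_sub, map_add, map_zsmul, hLom, hLe, sg_true, one_smul]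
      ring
    rw [h1, zero_mul]
    have h2 : (3 : ℤ) ^ (m - 1 - (i.1 : ℕ)) ≤ 3 ^ (m - 1 - (k' : ℕ)) := by
      apply pow_le_pow_right₀ (by norm_num)
      omega
    nlinarith
  -- the bracket with `Y`
  have hbr : ⁅Y, ⁅X, v⁆⁆ ∈ Submodule.span (FractionRing R) (Set.range (wf E k)) := by
    have h1 : ⁅Y, ⁅X, v⁆⁆ = ⁅X, ⁅Y, v⁆⁆ - ⁅⁅X, Y⁆, v⁆ := by
      rw [vlie_lie]
      abel
    rw [h1, hXY, sub_zero]
    refine span_stable (fun u hu => ?_) _ h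
    obtain ⟨i, rfl⟩ := hu
    have h2 : (i.1 : Fin m) ≠ k' := fun h3 => by
      have := i.2
      rw [h3] at this
      omega
    rw [wf, hX2 _ h2]
    exact Submodule.zero_mem _
  -- expand
  have hexp : ⁅Y, ⁅X, v⁆⁆ = ∑ i, (Y (x i)) • wf E m i + x ⟨k, k.2⟩ • E k' true := by
    rw [hxs, vlie_sum]
    have h1 : ∀ i, ⁅Y, x i • wf E m i⁆ = Y (x i) • wf E m i + x i • ⁅Y, wf E m i⁆ :=
      fun i => lie_smul_vf _ _ _
    rw [Finset.sum_congr rfl fun i _ => h1 i, Finset.sum_add_distrib]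
    congr 1
    rw [Finset.sum_eq_single (⟨k, k.2⟩ : {i : Fin m // (i : ℕ) < m})]
    · rw [wf, hY1]
    · intro i _ hi
      have h2 : (i.1 : Fin m) ≠ k := fun h3 => hi (Subtype.ext h3)
      rw [wf, hY2 _ h2, smul_zero]
    · intro h2
      exact absurd (Finset.mem_univ _) h2
  -- the span of the first fields
  have himg : Set.range (wf E k) = wf E m '' {i | (i.1 : ℕ) < k} := by
    ext u
    constructor
    · rintro ⟨i, rfl⟩
      exact ⟨⟨i.1, i.1.2⟩, i.2, rfl⟩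
    · rintro ⟨i, hi, rfl⟩
      exact ⟨⟨i.1, hi⟩, rfl⟩
  have hk'm : (k' : ℕ) < m := k'.2
  have hxk : x ⟨k, k.2⟩ = 0 := by
    rw [himg] at hbr
    obtain ⟨g, hg, hge⟩ := mem_span_image_iff.1 hbr
    rw [hexp] at hge
    have h1 : ∑ i : {i : Fin m // (i : ℕ) < m}, (Y (x i) - g i +
        if i = ⟨k', hk'm⟩ then x ⟨k, k.2⟩ else 0) • wf E m i = 0 := by
      simp_rw [add_smul, sub_smul, ite_smul, zero_smul]
      rw [Finset.sum_add_distrib, Finset.sum_sub_distrib, Finset.sum_ite_eq' Finset.univ,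
        if_pos (Finset.mem_univ _)]
      have h2 : wf E m ⟨k', hk'm⟩ = E k' true := rfl
      rw [h2, ← hge]
      abel
    have h2 := hind.coef_zero h1 ⟨k', hk'm⟩
    rw [if_pos rfl, hx0 ⟨k', hk'm⟩ (by simp only; omega), map_zero,
      hg ⟨k', hk'm⟩ (by simp only [Set.mem_ofPred_eq]; omega), sub_zero, zero_add] at h2
    exact h2
  rw [himg]
  refine mem_span_image_iff.2 ⟨x, fun i hi => ?_, hxs⟩
  have h3 : ¬ (i.1 : ℕ) < k := hi
  rcases Nat.lt_or_ge (k : ℕ) i.1 with h4 | h4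
  · exact hx0 i h4
  · have h5 : i = ⟨k, k.2⟩ := Subtype.ext (Fin.ext (by simp only; omega))
    rw [h5]
    exact hxk

end Vale.Agent.P280.N
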