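import Vale.Agent.P280.N.A01
import Vale.Agent.P280.N.A10
import Vale.Agent.P280.H900.Den

/-! P280, plan N: package A17. -/

open DirectSum Vale.Agent.P280.T Vale.Agent.P280.H127

namespace Vale.Agent.P280.N

variable {r : ℕ} {R : Type} [CommRing R] [IsDomain R] [Algebra ℂ R]
  {𝒜 : ℕ × (Fin r → ℤ) → Submodule ℂ R} [GradedAlgebra 𝒜]

/-- A17 (EXT0). -/
theorem ext0 (H : Hyp 𝒜) (l : (Fin r → ℤ) →+ ℤ) {lam : Fin r → ℤ} (hpos : 0 < l lam)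
    (hmax : ∀ ω, Wt 𝒜 ω → l ω ≤ l lam) {v : VF R} (hv : HV 𝒜 lam v)
    (hreg : ∀ y : FP 𝒜, Low l y → RgV y.q v) : Glob v :=
  H900.glob_of_low H.hX hpos hmax hv hreg

end Vale.Agent.P280.N
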