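import Vale.Agent.P280.N.A16
import Vale.Agent.P280.H900.Den

/-! P280, plan N: package A18. -/

open DirectSum Vale.Agent.P280.T Vale.Agent.P280.H127

namespace Vale.Agent.P280.N

variable {r : ℕ} {R : Type} [CommRing R] [IsDomain R] [Algebra ℂ R]
  {𝒜 : ℕ × (Fin r → ℤ) → Submodule ℂ R} [GradedAlgebra 𝒜]

/-- A18 (BE). -/
theorem baseExt (H : Hyp 𝒜) (l : (Fin r → ℤ) →+ ℤ) {a : ℤ} (hpos : 0 < a)
    (hmax : ∀ ω, Wt 𝒜 ω → l ω ≤ a)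
    (h : ∀ y : FP 𝒜, Low l y → ∀ ω, l ω = a → y.Pi ω → ∀ t : R →ₗ[ℂ] ℂ, IsTangent y.q t →
      HasWeight 𝒜 y.ν ω t → ∃ D : VF R, Glob D ∧ HV 𝒜 ω D ∧ ValV y.q D t) :
    BaseExt 𝒜 l a := by
  obtain ⟨g0, hg0⟩ := H587.exists_generic (finite_weights H.hX)
  refine H900.baseExt_of_fixed H.hX hg0 hpos.ne' ?_
  intro q ν χ hq hq' hlow hχ hχa t ht htw
  let y : FP 𝒜 := ⟨q, ν, hq, hq'⟩
  obtain ⟨D, hD, hDv, hDt⟩ := h y ((H900.low_iff H.hX (y := y)).2 hlow) χ hχa hχ t ht htw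
  obtain ⟨E, rfl, hE⟩ := hD.exists_hder hDv
  refine ⟨E, hE, fun x => ?_⟩
  have h1 : Val q (toVF E (iK x)) (q (E x)) := by
    rw [toVF_iK]
    exact Val.iK (E x)
  exact h1.unique (hDt x)

end Vale.Agent.P280.N
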