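import Vale.Agent.P280.H83.Api3
import Vale.Agent.P280.H981.Sl2
import Vale.Agent.P280.H754.Low

/-! P280, plan N: package B00. -/

open DirectSum Vale.Agent.P280.T Vale.Agent.P280.H127

namespace Vale.Agent.P280.N

variable {r : ℕ} {R : Type} [CommRing R] [IsDomain R] [Algebra ℂ R]
  {𝒜 : ℕ × (Fin r → ℤ) → Submodule ℂ R} [GradedAlgebra 𝒜]

/-- The `T`-curve from `y` to `y'` in direction `a`. -/
structure Curve (y y' : FP 𝒜) (a : Fin r → ℤ) (n : ℕ) (φ : R →ₐ[ℂ] Polynomial ℂ) : Prop where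
  n1 : 1 ≤ n
  ya : y.Pi a
  ya' : y'.Pi (-a)
  nu : y'.ν = y.ν + n • a
  hom : ∀ d m, ∀ h ∈ 𝒜 (d, m), φ h ≠ 0 → ∃ i : ℕ, i ≤ d * n ∧ m = d • y.ν + i • a ∧
    ∃ c : ℂ, φ h = Polynomial.C c * Polynomial.X ^ i
  ev : ∀ h, (φ h).eval 0 = y.q h
  ev' : ∀ d m, ∀ h ∈ 𝒜 (d, m), (φ h).coeff (d * n) = y'.q h
  un : ∃ d, ∃ h ∈ 𝒜 (d, d • y.ν + a), (φ h).coeff 1 ≠ 0
  un' : ∃ d, ∃ h ∈ 𝒜 (d, d • y'.ν - a), (φ h).coeff (d * n - 1) ≠ 0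

end Vale.Agent.P280.N
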