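import Vale.Agent.P280.N.B00

/-! P280, plan N: package B03. -/

open DirectSum Vale.Agent.P280.T Vale.Agent.P280.H127

namespace Vale.Agent.P280.N

variable {r : ℕ} {R : Type} [CommRing R] [IsDomain R] [Algebra ℂ R]
  {𝒜 : ℕ × (Fin r → ℤ) → Submodule ℂ R} [GradedAlgebra 𝒜]

/-- The lowest coefficient of a derivation along the curve is a tangent vector. -/
theorem along_tangent {y : FP 𝒜} {φ : R →ₐ[ℂ] Polynomial ℂ} (hev : ∀ h, (φ h).eval 0 = y.q h)
    {δ : R →ₗ[ℂ] Polynomial ℂ} (hδ : ∀ x z, δ (x * z) = φ x * δ z + φ z * δ x) {k : ℕ}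
    (hk : ∀ h, ∀ i < k, (δ h).coeff i = 0) :
    IsTangent y.q ((Polynomial.lcoeff ℂ k).comp δ) := by
  have key : ∀ x z : R, (φ x * δ z).coeff k = y.q x * (δ z).coeff k := by
    intro x z
    rw [Polynomial.coeff_mul, Finset.sum_eq_single (0, k)]
    · rw [Polynomial.coeff_zero_eq_eval_zero, hev]
    · rintro ⟨i, j⟩ hij hne
      rw [Finset.HasAntidiagonal.mem_antidiagonal] at hij
      simp only at hij ⊢
      rw [hk z j, mul_zero]
      rcases Nat.eq_zero_or_pos i with h0 | h0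
      · exfalso
        apply hne
        subst h0
        rw [zero_add] at hij
        rw [hij]
      · omega
    · intro h
      exact absurd (Finset.HasAntidiagonal.mem_antidiagonal.2 (zero_add k)) h
  intro x z
  simp only [LinearMap.comp_apply, Polynomial.lcoeff_apply]
  rw [hδ, Polynomial.coeff_add, key, key]

/-- Its weight. -/
theorem along_weight {y : FP 𝒜} {a μ : Fin r → ℤ} {δ : R →ₗ[ℂ] Polynomial ℂ}
    (hdeg : ∀ d m, ∀ h ∈ 𝒜 (d, m), δ h ≠ 0 → ∃ i : ℕ, m = d • y.ν + i • a + μ ∧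
      ∃ c : ℂ, δ h = Polynomial.C c * Polynomial.X ^ i) (k : ℕ) :
    HasWeight 𝒜 y.ν (μ + (k : ℤ) • a) ((Polynomial.lcoeff ℂ k).comp δ) := by
  intro d m h hh hne
  rw [LinearMap.comp_apply, Polynomial.lcoeff_apply] at hne
  have h0 : δ h ≠ 0 := fun h0 => hne (by rw [h0, Polynomial.coeff_zero])
  obtain ⟨i, hi, c, hc⟩ := hdeg d m h hh h0
  rw [hc, Polynomial.coeff_C_mul_X_pow] at hne
  have hik : k = i := by
    by_contra hik
    exact hne (if_neg hik)
  rw [hi, ← hik, natCast_zsmul]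
  abel

/-- A non-zero derivation along the curve which vanishes to order `j` gives a tangent weight. -/
theorem along_pi {y : FP 𝒜} {a μ : Fin r → ℤ} {φ : R →ₐ[ℂ] Polynomial ℂ}
    (hev : ∀ h, (φ h).eval 0 = y.q h) {δ : R →ₗ[ℂ] Polynomial ℂ}
    (hδ : ∀ x z, δ (x * z) = φ x * δ z + φ z * δ x)
    (hdeg : ∀ d m, ∀ h ∈ 𝒜 (d, m), δ h ≠ 0 → ∃ i : ℕ, m = d • y.ν + i • a + μ ∧
      ∃ c : ℂ, δ h = Polynomial.C c * Polynomial.X ^ i)
    (hμ : ∀ k : ℤ, μ ≠ k • a) (hne : ∃ h, δ h ≠ 0) {j : ℕ}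
    (hj : ∀ h, ∀ i < j, (δ h).coeff i = 0) :
    ∃ k : ℕ, j ≤ k ∧ (∀ h, ∀ i < k, (δ h).coeff i = 0) ∧ (∃ h, (δ h).coeff k ≠ 0) ∧
      y.Pi (μ + (k : ℤ) • a) := by
  classical
  have hex : ∃ k, ∃ h, (δ h).coeff k ≠ 0 := by
    obtain ⟨h, hh⟩ := hne
    by_contra hcon
    push Not at hcon
    exact hh (Polynomial.ext fun k => by rw [hcon k h, Polynomial.coeff_zero])
  have hk := Nat.find_spec hex
  have hmin : ∀ h, ∀ i < Nat.find hex, (δ h).coeff i = 0 := by
    intro h i hi
    have := Nat.find_min hex hi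
    push Not at this
    exact this h
  generalize Nat.find hex = k at hk hmin
  refine ⟨k, ?_, hmin, hk, ?_⟩
  · by_contra hlt
    obtain ⟨h, hh⟩ := hk
    exact hh (hj h k (not_le.1 hlt))
  · refine tangentWeight_of_ne y.fix ?_ (along_tangent hev hδ hmin) (along_weight hdeg k) ?_
    · intro h0
      apply hμ (-(k : ℤ))
      rw [neg_smul]
      exact eq_neg_of_add_eq_zero_left h0
    · intro h0
      obtain ⟨h, hh⟩ := hk
      exact hh (LinearMap.congr_fun h0 h)

/-- A homogeneous global field along the curve. -/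
theorem along_field {y y' : FP 𝒜} {a : Fin r → ℤ} {n : ℕ} {φ : R →ₐ[ℂ] Polynomial ℂ}
    (hφ : Curve y y' a n φ) {lam : Fin r → ℤ} {D : VF R} (hD : Glob D) (hDv : HV 𝒜 lam D) :
    ∃ δ : R →ₗ[ℂ] Polynomial ℂ, (∀ x z, δ (x * z) = φ x * δ z + φ z * δ x) ∧
      (∀ d m, ∀ h ∈ 𝒜 (d, m), δ h ≠ 0 → ∃ i : ℕ, i ≤ d * n ∧ m = d • y.ν + i • a + lam ∧
        ∃ c : ℂ, δ h = Polynomial.C c * Polynomial.X ^ i) ∧
      (ValV y.q D 0 ↔ ∀ h, (δ h).coeff 0 = 0) ∧
      (ValV y'.q D 0 ↔ ∀ d m, ∀ h ∈ 𝒜 (d, m), (δ h).coeff (d * n) = 0) ∧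
      ValV y.q D ((Polynomial.lcoeff ℂ 0).comp δ) := by
  obtain ⟨E, rfl, hE⟩ := hD.exists_hder hDv
  have hval : ∀ z : FP 𝒜, ValV z.q (toVF E) (z.q.toLinearMap.comp (E : R →ₗ[ℂ] R)) := by
    intro z h
    rw [toVF_iK]
    exact Val.iK (E h)
  have hval0 : ∀ z : FP 𝒜, ValV z.q (toVF E) 0 ↔ ∀ h, z.q (E h) = 0 := by
    intro z
    constructor
    · intro h0 h
      exact LinearMap.congr_fun ((hval z).unique h0) h
    · intro h0
      have h1 : (z.q.toLinearMap.comp (E : R →ₗ[ℂ] R)) = 0 := LinearMap.ext fun h => h0 h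
      rw [← h1]
      exact hval z
  refine ⟨φ.toLinearMap.comp (E : R →ₗ[ℂ] R), ?_, ?_, ?_, ?_, ?_⟩
  · intro x z
    simp only [LinearMap.comp_apply, AlgHom.toLinearMap_apply, Derivation.coeFn_coe,
      Derivation.leibniz, smul_eq_mul, map_add, map_mul]
  · intro d m h hh hne
    simp only [LinearMap.comp_apply, AlgHom.toLinearMap_apply, Derivation.coeFn_coe] at hne ⊢
    obtain ⟨i, hi, hm, hc⟩ := hφ.hom d (m - lam) (E h) (hE d m h hh) hne
    exact ⟨i, hi, by rw [← hm]; abel, hc⟩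
  · rw [hval0]
    refine forall_congr' fun h => ?_
    simp only [LinearMap.comp_apply, AlgHom.toLinearMap_apply, Derivation.coeFn_coe]
    rw [Polynomial.coeff_zero_eq_eval_zero, hφ.ev]
  · rw [hval0]
    constructor
    · intro h0 d m h hh
      simp only [LinearMap.comp_apply, AlgHom.toLinearMap_apply, Derivation.coeFn_coe]
      rw [hφ.ev' d _ _ (hE d m h hh)]
      exact h0 h
    · intro h0 h
      classical
      rw [← DirectSum.sum_support_decompose 𝒜 h, map_sum, map_sum]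
      refine Finset.sum_eq_zero fun i _ => ?_
      have h1 := h0 i.1 i.2 _ (DirectSum.decompose 𝒜 h i).2
      simp only [LinearMap.comp_apply, AlgHom.toLinearMap_apply, Derivation.coeFn_coe] at h1
      rw [hφ.ev' i.1 _ _ (hE i.1 i.2 _ (DirectSum.decompose 𝒜 h i).2)] at h1
      exact h1
  · intro h
    have h1 := hval y h
    have h2 : (y.q.toLinearMap.comp (E : R →ₗ[ℂ] R)) h =
        ((Polynomial.lcoeff ℂ 0).comp (φ.toLinearMap.comp (E : R →ₗ[ℂ] R))) h := by
      simp only [LinearMap.comp_apply, AlgHom.toLinearMap_apply, Derivation.coeFn_coe,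
        Polynomial.lcoeff_apply]
      rw [Polynomial.coeff_zero_eq_eval_zero, hφ.ev]
    rw [← h2]
    exact h1

/-- B03 (TA). -/
theorem curve_ta (H : Hyp 𝒜) {y y' : FP 𝒜} {a : Fin r → ℤ} {n : ℕ}
    {φ : R →ₐ[ℂ] Polynomial ℂ} (hφ : Curve y y' a n φ) {lam : Fin r → ℤ} {D : VF R}
    (hD : Glob D) (hDv : HV 𝒜 lam D) (hl : ∀ k : ℤ, lam ≠ k • a) (h0 : ValV y.q D 0)
    (h1 : ¬ ValV y'.q D 0) : ∃ k : ℕ, 1 ≤ k ∧ y.Pi (lam + k • a) := by
  obtain ⟨δ, hδ, hdeg, hy, hy', -⟩ := along_field hφ hD hDv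
  obtain ⟨k, hk, -, -, hk2⟩ := along_pi (a := a) (μ := lam) (j := 1) hφ.ev hδ
    (fun d m h hh hne => by
      obtain ⟨i, -, hi, hc⟩ := hdeg d m h hh hne
      exact ⟨i, hi, hc⟩) hl
    (by
      by_contra hcon
      push Not at hcon
      exact h1 (hy'.2 fun d m h _ => by rw [hcon h, Polynomial.coeff_zero]))
    (fun h i hi => by
      obtain rfl : i = 0 := by omega
      exact hy.1 h0 h)
  refine ⟨k, hk, ?_⟩
  rw [natCast_zsmul] at hk2
  exact hk2

/-- B04 (TD). -/
theorem curve_td (H : Hyp 𝒜) {y y' : FP 𝒜} {a : Fin r → ℤ} {n : ℕ}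
    {φ : R →ₐ[ℂ] Polynomial ℂ} (hφ : Curve y y' a n φ) {lam : Fin r → ℤ} {D w : VF R}
    (hD : Glob D) (hDv : HV 𝒜 lam D) (hl : ∀ k : ℤ, lam ≠ k • a) (h0 : ValV y.q D 0)
    (hw : Glob w) (hwv : HV 𝒜 (lam + a) w) (hw0 : ¬ ValV y.q w 0) (hw1 : ¬ ValV y'.q w 0)
    (h2 : ∀ k : ℕ, 2 ≤ k → ¬ y.Pi (lam + k • a)) : ValV y'.q D 0 := by
  obtain ⟨δ, hδ, hdeg, hy, hy', -⟩ := along_field hφ hD hDv
  obtain ⟨ω, hω, hωdeg, hωy, hωy', -⟩ := along_field hφ hw hwv
  have hδ0 := hy.1 h0
  have hdeg' : ∀ d m, ∀ h ∈ 𝒜 (d, m), δ h ≠ 0 → ∃ i : ℕ, m = d • y.ν + i • a + lam ∧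
      ∃ c : ℂ, δ h = Polynomial.C c * Polynomial.X ^ i := fun d m h hh hne => by
    obtain ⟨i, -, hi, hc⟩ := hdeg d m h hh hne
    exact ⟨i, hi, hc⟩
  have hωdeg' : ∀ d m, ∀ h ∈ 𝒜 (d, m), ω h ≠ 0 → ∃ i : ℕ, m = d • y.ν + i • a + (lam + a) ∧
      ∃ c : ℂ, ω h = Polynomial.C c * Polynomial.X ^ i := fun d m h hh hne => by
    obtain ⟨i, -, hi, hc⟩ := hωdeg d m h hh hne
    exact ⟨i, hi, hc⟩
  have hla : ∀ k : ℤ, lam + a ≠ k • a := fun k hk => hl (k - 1) (by
    rw [sub_smul, one_smul, ← hk]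
    abel)
  -- the two tangent vectors of weight `lam + a`
  have ht1 : IsTangent y.q ((Polynomial.lcoeff ℂ 1).comp δ) :=
    along_tangent hφ.ev hδ (fun h i hi => by
      obtain rfl : i = 0 := by omega
      exact hδ0 h)
  have hw1' : HasWeight 𝒜 y.ν (lam + a) ((Polynomial.lcoeff ℂ 1).comp δ) := by
    have := along_weight (y := y) (a := a) (μ := lam) hdeg' 1
    rwa [Nat.cast_one, one_smul] at this
  have ht2 : IsTangent y.q ((Polynomial.lcoeff ℂ 0).comp ω) :=
    along_tangent hφ.ev hω (fun h i hi => absurd hi (Nat.not_lt_zero i))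
  have hw2' : HasWeight 𝒜 y.ν (lam + a) ((Polynomial.lcoeff ℂ 0).comp ω) := by
    have := along_weight (y := y) (a := a) (μ := lam + a) hωdeg' 0
    rwa [Nat.cast_zero, zero_smul, add_zero] at this
  have hne0 : (Polynomial.lcoeff ℂ 0).comp ω ≠ 0 := by
    intro hz
    exact hw0 (hωy.2 fun h => LinearMap.congr_fun hz h)
  have hPi : y.Pi (lam + a) := tangentWeight_of_ne y.fix
    (by
      intro hz
      exact hla 0 (by rw [hz, zero_smul])) ht2 hw2' hne0
  obtain ⟨c, c', hcc, hlin⟩ := H.mult y.q y.ν (lam + a) y.nv y.fix hPi _ _ ht1 hw1' ht2 hw2'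
  have hc : c ≠ 0 := by
    intro hc
    subst hc
    rcases hcc with h | h
    · exact h rfl
    · apply hne0
      refine LinearMap.ext fun x => ?_
      have h3 := hlin x
      rw [zero_mul, zero_add] at h3
      exact (mul_eq_zero.1 h3).resolve_left h
  -- subtract
  set b : ℂ := c' / c with hb
  have hlin' : ∀ x, (δ x).coeff 1 + b * (ω x).coeff 0 = 0 := by
    intro x
    have h3 := hlin x
    simp only [LinearMap.comp_apply, Polynomial.lcoeff_apply] at h3
    rw [hb]
    field_simp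
    linear_combination h3
  let δ' : R →ₗ[ℂ] Polynomial ℂ :=
    δ + b • ((LinearMap.mulLeft ℂ (Polynomial.X : Polynomial ℂ)).comp ω)
  have hδ'a : ∀ x, δ' x = δ x + b • (Polynomial.X * ω x) := fun x => rfl
  have hzero : ∀ x, δ' x = 0 := by
    by_contra hcon
    push Not at hcon
    obtain ⟨k, hk, -, -, hk2⟩ := along_pi (y := y) (a := a) (μ := lam) (φ := φ) (j := 2)
      (δ := δ') hφ.ev
      (by
        intro x z
        rw [hδ'a, hδ'a, hδ'a, hδ, hω]
        simp only [Polynomial.smul_eq_C_mul]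
        ring)
      (by
        intro d m h hh hne
        by_cases hδh : δ h = 0
        · by_cases hωh : ω h = 0
          · exfalso
            apply hne
            rw [hδ'a, hδh, hωh, mul_zero, smul_zero, add_zero]
          · obtain ⟨i, hi, e, he⟩ := hωdeg' d m h hh hωh
            refine ⟨i + 1, ?_, b * e, ?_⟩
            · rw [hi, add_smul, one_smul]
              abel
            · rw [hδ'a, hδh, he, zero_add, Polynomial.smul_eq_C_mul, Polynomial.C_mul]
              ring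
        · obtain ⟨i, hi, e, he⟩ := hdeg' d m h hh hδh
          by_cases hωh : ω h = 0
          · refine ⟨i, hi, e, ?_⟩
            rw [hδ'a, hωh, mul_zero, smul_zero, add_zero, he]
          · obtain ⟨i', hi', e', he'⟩ := hωdeg' d m h hh hωh
            have hii : i = i' + 1 := by
              have h3 : ((i : ℤ) - (i' + 1)) • a = 0 := by
                have h4 : d • y.ν + i • a + lam = d • y.ν + i' • a + (lam + a) := by
                  rw [← hi, ← hi']
                have h5 : (i : ℤ) • a = (i' : ℤ) • a + a := by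
                  rw [natCast_zsmul, natCast_zsmul]
                  have h6 : d • y.ν + i • a + lam - d • y.ν - lam =
                      d • y.ν + i' • a + (lam + a) - d • y.ν - lam := by rw [h4]
                  have h7 : d • y.ν + i • a + lam - d • y.ν - lam = i • a := by abel
                  have h8 : d • y.ν + i' • a + (lam + a) - d • y.ν - lam = i' • a + a := by abel
                  rw [h7, h8] at h6
                  exact h6
                rw [sub_smul, add_smul, one_smul, h5]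
                abel
              have ha0 : a ≠ 0 := by
                intro ha
                exact H.iso y.q y.ν y.nv y.fix (by rw [← ha]; exact hφ.ya)
              rcases smul_eq_zero.1 h3 with h4 | h4
              · omega
              · exact absurd h4 ha0
            refine ⟨i, hi, e + b * e', ?_⟩
            rw [hδ'a, he, he', hii, Polynomial.smul_eq_C_mul, Polynomial.C_add, Polynomial.C_mul]
            ring)
      hl hcon
      (by
        intro h i hi
        rw [hδ'a, Polynomial.coeff_add, Polynomial.coeff_smul, smul_eq_mul]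
        rcases i with _ | i
        · rw [Polynomial.coeff_X_mul_zero, mul_zero, add_zero]
          exact hδ0 h
        · obtain rfl : i = 0 := by omega
          rw [Polynomial.coeff_X_mul]
          exact hlin' h)
    rw [natCast_zsmul] at hk2
    exact h2 k hk hk2
  -- the degree at the other end
  have hb0 : b = 0 := by
    by_contra hb0
    apply hw1
    refine hωy'.2 fun d m h hh => ?_
    have h3 := congrArg (fun p => Polynomial.coeff p (d * n + 1)) (hzero h)
    simp only [hδ'a, Polynomial.coeff_add, Polynomial.coeff_smul, smul_eq_mul,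
      Polynomial.coeff_zero] at h3
    rw [Polynomial.coeff_X_mul] at h3
    have h4 : (δ h).coeff (d * n + 1) = 0 := by
      by_cases hδh : δ h = 0
      · rw [hδh, Polynomial.coeff_zero]
      · obtain ⟨i, hi, -, e, he⟩ := hdeg d m h hh hδh
        rw [he, Polynomial.coeff_C_mul_X_pow, if_neg (by omega)]
    rw [h4, zero_add] at h3
    exact (mul_eq_zero.1 h3).resolve_left hb0
  refine hy'.2 fun d m h hh => ?_
  have h3 := hzero h
  rw [hδ'a, hb0, zero_smul, add_zero] at h3
  rw [h3, Polynomial.coeff_zero]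

end Vale.Agent.P280.N
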