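import Vale.Agent.P280.H83.Api3
import Vale.Agent.P280.H981.Sl2
import Vale.Agent.P280.H754.Low

/-! P280, plan N: package E00. -/

open DirectSum Vale.Agent.P280.T Vale.Agent.P280.H127

namespace Vale.Agent.P280.N

variable {r : ℕ} {R : Type} [CommRing R] [IsDomain R] [Algebra ℂ R]
  {𝒜 : ℕ × (Fin r → ℤ) → Submodule ℂ R} [GradedAlgebra 𝒜]
variable {N : ℤ} {lam : Fin r → ℤ} {m : ℕ} {e : Fin m → Fin r → ℤ} {L0 : (Fin r → ℤ) →+ ℤ}
  {β : Fin m → Bool → ((Fin r → ℤ) →+ ℤ)} {E F : Fin m → Bool → VF R}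

/-- `W_k = {w_i : i < k}` as a family. -/
def wf (E : Fin m → Bool → VF R) (k : ℕ) : {i : Fin m // (i : ℕ) < k} → VF R :=
  fun i => E i.1 true

/-- The state of the induction: `v` is regular at `y0` with value `t`, and regular modulo `W_k` at
all fixed points which are lowest for `L_k`. -/
structure St (𝒜 : ℕ × (Fin r → ℤ) → Submodule ℂ R) (N : ℤ) (lam : Fin r → ℤ) {m : ℕ}
    (L0 : (Fin r → ℤ) →+ ℤ) (β : Fin m → Bool → ((Fin r → ℤ) →+ ℤ)) (E : Fin m → Bool → VF R)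
    (y0 : FP 𝒜) (t : R →ₗ[ℂ] ℂ) (k : ℕ) (v : VF R) : Prop where
  hv : HV 𝒜 lam v
  val : ValV y0.q v t
  rm : ∀ y : FP 𝒜, Pos (Lk N L0 β k) y → RM y.q (Set.range (wf E k)) v

end Vale.Agent.P280.N
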