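import Vale.Agent.P280.N.C05
import Vale.Agent.P280.N.C01
import Vale.Agent.P280.N.E01
import Vale.Agent.P280.H79.Exch

/-! P280, plan N: package E08. -/

open DirectSum Vale.Agent.P280.T Vale.Agent.P280.H127

namespace Vale.Agent.P280.N

variable {r : ℕ} {R : Type} [CommRing R] [IsDomain R] [Algebra ℂ R]
  {𝒜 : ℕ × (Fin r → ℤ) → Submodule ℂ R} [GradedAlgebra 𝒜]
variable {N : ℤ} {lam : Fin r → ℤ} {m : ℕ} {e : Fin m → Fin r → ℤ} {L0 : (Fin r → ℤ) →+ ℤ}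
  {β : Fin m → Bool → ((Fin r → ℤ) →+ ℤ)} {E F : Fin m → Bool → VF R}

/-- E08. The fields of the exchange root `e i - e j`. -/
theorem exch (H : Hyp 𝒜) (hF : Face 𝒜 N lam m e L0 β E F) {i j : Fin m} (hij : i ≠ j) :
    ∃ X Y : VF R, Glob X ∧ Glob Y ∧ HV 𝒜 (e i - e j) X ∧ HV 𝒜 (e j - e i) Y ∧
      ⁅Y, E i true⁆ = E j true ∧ (∀ l, l ≠ i → ⁅Y, E l true⁆ = 0) ∧
      (∀ l, l ≠ j → ⁅X, E l true⁆ = 0) ∧ (∃ s : ℂ, s ≠ 0 ∧ ⁅X, E j true⁆ = s • E i true) ∧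
      ∀ v : VF R, HV 𝒜 lam v → ⁅⁅X, Y⁆, v⁆ = 0 :=
  H79.exch H hF hij

end Vale.Agent.P280.N
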