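import Vale.Agent.P280.N.E00
import Vale.Agent.P280.N.E06
import Vale.Agent.P280.N.A01
import Vale.Agent.P280.N.A06
import Vale.Agent.P280.N.A10
import Vale.Agent.P280.N.A12
import Vale.Agent.P280.N.A19
import Vale.Agent.P280.N.A15
import Vale.Agent.P280.N.A04
import Vale.Agent.P280.N.B01
import Vale.Agent.P280.N.E01
import Vale.Agent.P280.N.E10b

/-! P280, plan N: package E09. -/

open DirectSum Vale.Agent.P280.T Vale.Agent.P280.H127

namespace Vale.Agent.P280.N

variable {r : ℕ} {R : Type} [CommRing R] [IsDomain R] [Algebra ℂ R]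
  {𝒜 : ℕ × (Fin r → ℤ) → Submodule ℂ R} [GradedAlgebra 𝒜]
variable {N : ℤ} {lam : Fin r → ℤ} {m : ℕ} {e : Fin m → Fin r → ℤ} {L0 : (Fin r → ℤ) →+ ℤ}
  {β : Fin m → Bool → ((Fin r → ℤ) →+ ℤ)} {E F : Fin m → Bool → VF R}

namespace E09

/-- a function of weight `b` with a pole along the coordinate `z` of weight `-b` has a pole of
order at most one, and two such functions differ by a regular one up to a constant -/
theorem pole_aux (H : Hyp 𝒜) (y : FP 𝒜) (c : (Fin r → ℤ) →+ ℤ) {b : Fin r → ℤ} (hb : 0 < c b)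
    (hc : ∀ ψ, y.Pi ψ → ψ ≠ -b → 0 < c ψ) {dz : ℕ} {z : R} (hz : Crd y (-b) dz z)
    {g : FractionRing R} (hg : HK 𝒜 0 b g) (k : ℕ) (hk : Rg y.q ((iK z) ^ k * g)) :
    Rg y.q (iK z * g) := by
  have hz0 : z ≠ 0 := by
    obtain ⟨t, -, -, ht⟩ := hz.2.2
    rintro rfl
    exact ht (map_zero t)
  have hzk : iK z ≠ 0 := iK_ne_zero hz0
  have hzh : HK 𝒜 (dz : ℤ) (dz • y.ν + -b) (iK z) := HK.ofR hz.1
  have hpow : ∀ n : ℕ, HK 𝒜 ((n * dz : ℕ) : ℤ) ((n * dz) • y.ν - n • b) ((iK z) ^ n) := by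
    intro n
    induction n with
    | zero => exact HK.one.cast (by simp) (by simp)
    | succ n ih =>
      rw [pow_succ]
      exact (ih.mul hzh).cast (by push_cast; ring) (by
        rw [succ_nsmul, add_mul, one_mul, add_smul]
        abel)
  induction k with
  | zero =>
    rw [pow_zero, one_mul] at hk
    exact (Rg.iK z).mul hk
  | succ k ih =>
    rcases Nat.eq_zero_or_pos k with rfl | hk0
    · rwa [zero_add, pow_one] at hk
    · apply ih
      have h1 : HK 𝒜 (((k + 1) * dz : ℕ) : ℤ) (((k + 1) * dz) • y.ν - (k + 1) • b + b)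
          ((iK z) ^ (k + 1) * g) := ((hpow (k + 1)).mul hg).cast (by ring) rfl
      obtain ⟨x', hx', h2⟩ := lf2 H y c (b := b) (fun ψ hψ hne => (hc ψ hψ hne).le) hz h1 hk (by
        rw [map_add, map_sub, map_nsmul, map_nsmul, nsmul_eq_mul, nsmul_eq_mul]
        have h3 : (1 : ℤ) ≤ k := by exact_mod_cast hk0
        push_cast
        nlinarith)
      have h3 : (iK z) ^ k * g = x' := by
        apply mul_left_cancel₀ hzk
        rw [← h2, pow_succ]
        ring
      rw [h3]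
      exact hx'

theorem pole_cmp (H : Hyp 𝒜) (y : FP 𝒜) (c : (Fin r → ℤ) →+ ℤ) {b : Fin r → ℤ} (hb : 0 < c b)
    (hc : ∀ ψ, y.Pi ψ → ψ ≠ -b → 0 < c ψ) {dz : ℕ} {z : R} (hz : Crd y (-b) dz z)
    {g X : FractionRing R} (hg : HK 𝒜 0 b g) (k : ℕ) (hk : Rg y.q ((iK z) ^ k * g))
    (hX : HK 𝒜 0 b X) (hX1 : Rg y.q (iK z * X)) (hX2 : ¬ Rg y.q X) :
    ∃ κ : ℂ, Rg y.q (g - κ • X) := by
  have hz0 : z ≠ 0 := by
    obtain ⟨t, -, -, ht⟩ := hz.2.2
    rintro rfl
    exact ht (map_zero t)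
  have hzk : iK z ≠ 0 := iK_ne_zero hz0
  have hzh : HK 𝒜 (dz : ℤ) (dz • y.ν + -b) (iK z) := HK.ofR hz.1
  have key : ∀ f : FractionRing R, HK 𝒜 0 b f → Val y.q (iK z * f) 0 → Rg y.q f := by
    intro f hf hv
    obtain ⟨x', hx', h2⟩ := lf2' H y c hc hz (hzh.mul hf) hv.rg (by
      rw [map_add, map_add, map_neg, map_nsmul, nsmul_eq_mul]
      ring) hv
    have h3 : f = x' := mul_left_cancel₀ hzk h2
    rw [h3]
    exact hx'
  obtain ⟨γ, hγ⟩ := (pole_aux H y c hb hc hz hg k hk).val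
  obtain ⟨ξ, hξ⟩ := hX1.val
  have hξ0 : ξ ≠ 0 := by
    rintro rfl
    exact hX2 (key X hX hξ)
  refine ⟨γ / ξ, key _ (hg.sub (hX.smul _)) ?_⟩
  have h1 := hγ.sub (hξ.smul (γ / ξ))
  rw [div_mul_cancel₀ _ hξ0, sub_self] at h1
  have h2 : iK z * (g - (γ / ξ) • X) = iK z * g - (γ / ξ) • (iK z * X) := by
    rw [mul_sub, mul_smul_comm]
  rw [h2]
  exact h1

section face
variable (hF : Face 𝒜 N lam m e L0 β E F) {kk : Fin m} (hkk : (kk : ℕ) = m - 1)
include hF hkk

omit [GradedAlgebra 𝒜] in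
/-- the weights on which `L_{m-1}` vanishes -/
theorem zero_class {ψ : Fin r → ℤ} (hψ : Wt 𝒜 ψ) (h0 : Lk N L0 β (m - 1) ψ = 0) :
    ψ = e kk ∨ ψ = -e kk := by
  have hN := hF.N0
  obtain ⟨h1, h2⟩ := (hF.Lk_eq_zero_iff hψ (m - 1)).1 h0
  have hge : ∀ i : Fin m, β i true ψ ≠ 0 → i = kk := by
    intro i hi
    apply Fin.ext
    by_contra hne
    have := i.2
    exact hi (h2 i (by omega))
  rcases hF.S ψ hψ h1 with ⟨j, s, rfl⟩ | ⟨i, j, s, s', hij, rfl⟩
  · have hj : j = kk := by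
      apply hge
      rw [map_zsmul, hF.be, if_pos rfl, smul_eq_mul, sg_true, one_mul]
      exact mul_ne_zero (sg_ne_zero s) hN.ne'
    subst hj
    cases s
    · right
      rw [sg_false, neg_one_smul]
    · left
      rw [sg_true, one_smul]
  · exfalso
    apply hij
    have h3 : i = kk := by
      apply hge
      rw [map_add, map_zsmul, map_zsmul, hF.be, hF.be, if_pos rfl, if_neg (Ne.symm hij),
        smul_eq_mul, smul_eq_mul, mul_zero, add_zero, sg_true, one_mul]
      exact mul_ne_zero (sg_ne_zero s) hN.ne'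
    have h4 : j = kk := by
      apply hge
      rw [map_add, map_zsmul, map_zsmul, hF.be, hF.be, if_pos rfl, if_neg hij,
        smul_eq_mul, smul_eq_mul, mul_zero, zero_add, sg_true, one_mul]
      exact mul_ne_zero (sg_ne_zero s') hN.ne'
    rw [h3, h4]

omit [GradedAlgebra 𝒜] in
theorem Lm_e : Lk N L0 β m (e kk) = N := by
  rw [hF.Lk_e, if_pos kk.2, hkk, Nat.sub_self, pow_zero, one_mul]

omit [GradedAlgebra 𝒜] in
theorem Lm1_e : Lk N L0 β (m - 1) (e kk) = 0 := by
  rw [hF.Lk_e, if_neg (by omega)]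

omit [GradedAlgebra 𝒜] in
theorem not_both (H : Hyp 𝒜) (y : FP 𝒜) (h1 : y.Pi (e kk)) (h2 : y.Pi (-e kk)) : False := by
  have h3 := H.ind y.q y.ν (e kk) (-e kk) y.nv y.fix h1 h2
    ⟨1, -1, one_ne_zero, by norm_num, by rw [one_smul, neg_smul, one_smul, neg_neg]⟩
  have h4 := Lm_e hF hkk
  have h5 := congrArg (Lk N L0 β m) h3
  rw [map_neg, h4] at h5
  have := hF.N0
  omega

/-- a point of the lowest component of `L_{m-1}` with tangent weight `e_{m-1}` is lowest
for `L_m` -/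
theorem pos_of (H : Hyp 𝒜) (y : FP 𝒜) (hy : Pos (Lk N L0 β (m - 1)) y) (h1 : y.Pi (e kk)) :
    Pos (Lk N L0 β m) y := by
  have hN := hF.N0
  intro ψ hψ
  rcases lt_or_eq_of_le (hy ψ hψ) with h2 | h2
  · exact ((Lk_dom hF (Nat.sub_le m 1) ⟨y, hψ⟩).1 h2).le
  · rcases zero_class hF hkk ⟨y, hψ⟩ h2.symm with rfl | rfl
    · rw [Lm_e hF hkk]
      exact hN.le
    · exact (not_both hF hkk H y h1 hψ).elim

omit [GradedAlgebra 𝒜] in
theorem pos_l_of (y : FP 𝒜) (hy : Pos (Lk N L0 β (m - 1)) y) {ψ : Fin r → ℤ} (hψ : y.Pi ψ)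
    (h1 : ψ ≠ e kk) (h2 : ψ ≠ -e kk) : 0 < Lk N L0 β (m - 1) ψ := by
  rcases lt_or_eq_of_le (hy ψ hψ) with h3 | h3
  · exact h3
  · rcases zero_class hF hkk ⟨y, hψ⟩ h3.symm with h4 | h4
    · exact absurd h4 h1
    · exact absurd h4 h2

/-- the points of the lowest component of `L_{m-1}` with tangent weight `- e_{m-1}` are all the
same -/
theorem same_of (H : Hyp 𝒜) {y y2 : FP 𝒜} (hy : Pos (Lk N L0 β (m - 1)) y) (h1 : y.Pi (-e kk))
    (hy2 : Pos (Lk N L0 β (m - 1)) y2) (h2 : y2.Pi (-e kk)) : SamePoint 𝒜 y.q y2.q := by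
  classical
  set ε : Fin m → Bool := fun j => if j = kk then false else true with hε
  have hF' := Face.symm hF (Equiv.refl _) ε
  have hkk' : (kk : ℕ) = m - 1 := hkk
  have hL : ∀ ψ, Lk N L0 (fun j s => β ((Equiv.refl (Fin m)) j) (s == ε j)) (m - 1) ψ =
      Lk N L0 β (m - 1) ψ := by
    intro ψ
    rw [Lk_apply, Lk_apply, ts, ts]
    congr 1
    refine Finset.sum_congr rfl fun i _ => ?_
    by_cases hi : (i : ℕ) < m - 1
    · rw [if_pos hi, if_pos hi]
      have h3 : i ≠ kk := by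
        rintro rfl
        omega
      have h4 : ε i = true := if_neg h3
      simp only [Equiv.refl_apply, h4, beq_self_eq_true]
    · rw [if_neg hi, if_neg hi]
  have hek : sg (ε kk) • e ((Equiv.refl (Fin m)) kk) = -e kk := by
    have h4 : ε kk = false := if_pos rfl
    simp only [Equiv.refl_apply, h4, sg_false, neg_one_smul]
  have hpos : ∀ y : FP 𝒜, Pos (Lk N L0 β (m - 1)) y → y.Pi (-e kk) →
      Pos (Lk N L0 (fun j s => β ((Equiv.refl (Fin m)) j) (s == ε j)) m) y := by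
    intro y hy h1
    refine pos_of hF' hkk' H y (fun ψ hψ => ?_) ?_
    · rw [hL]
      exact hy ψ hψ
    · rw [hek]
      exact h1
  exact pos_unique H _ (fun μ hμ => Lk_ne hF' hμ) (hpos y hy h1) (hpos y2 hy2 h2)

/-- the other end of the line -/
theorem other_end (H : Hyp 𝒜) {y0 : FP 𝒜} (h0 : Pos (Lk N L0 β m) y0) {y : FP 𝒜}
    (hy : Pos (Lk N L0 β (m - 1)) y) (h1 : y.Pi (-e kk)) : y0.Pi (e kk) := by
  obtain ⟨y', n, φ, hφ⟩ := exists_curve H y h1
  have h2 : y'.Pi (e kk) := by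
    have := hφ.ya'
    rwa [neg_neg] at this
  have h3 : Pos (Lk N L0 β (m - 1)) y' := by
    rw [← low_iff H] at hy ⊢
    intro d μ h hh hne
    rw [hφ.nu, map_add, map_nsmul, map_neg, Lm1_e hF hkk, neg_zero, smul_zero, add_zero]
    exact hy d μ h hh hne
  have h4 := pos_unique H _ (fun μ hμ => Lk_ne hF hμ) (pos_of hF hkk H y' h3 h2) h0
  exact ((same_pi h4 H).2 _).1 h2

/-- the lowest polar point of a field which is regular at `y0` -/
theorem polar_pt (H : Hyp 𝒜) {y0 : FP 𝒜} (h0 : Pos (Lk N L0 β m) y0) (hl : y0.Pi lam)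
    (hA : ∀ j, y0.Pi (vx lam e j true)) {v : VF R} (hv : HV 𝒜 lam v) (hr : RgV y0.q v)
    (hnot : ¬ ∀ y : FP 𝒜, Pos (Lk N L0 β (m - 1)) y → RM y.q (Set.range (wf E (m - 1))) v) :
    ∃ y : FP 𝒜, Pos (Lk N L0 β (m - 1)) y ∧ ¬ RM y.q (Set.range (wf E (m - 1))) v ∧
      y.Pi (-e kk) ∧ (∀ ψ, y.Pi ψ → ψ ≠ -e kk → 0 < Lk N L0 β m ψ) ∧
      ∀ d z, Crd y (-e kk) d z →
        ∃ k : ℕ, RM y.q (Set.range (wf E (m - 1))) ((iK z) ^ k • v) := by
  have hN := hF.N0
  have hind : ∀ y : FP 𝒜, Low (Lk N L0 β (m - 1)) y →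
      Ind y (wf E (m - 1)) (fun i => vx lam e i.1 true) := by
    intro y hy
    exact E10b.ind_wf hF (m - 1) fun i hi =>
      cnt H hF (hF.pos_L0 h0) hl hA (m - 1) ((low_iff H _ y).1 hy) i hi
  obtain ⟨y, b, hy, hynot, hb, hcb, hoth, hz⟩ :=
    lpp H (Lk N L0 β (m - 1)) (Lk N L0 β m) (fun μ hμ => Lk_ne hF hμ)
      (fun μ hμ => Lk_dom hF (Nat.sub_le m 1) hμ) hind hv
      (fun y0' h0' => same_RM H (pos_unique H _ (fun μ hμ => Lk_ne hF hμ) h0 h0') hv
        (E10b.ind_wf hF (m - 1) fun i _ => hA i) hr.rm)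
      (fun hall => hnot fun y hy => hall y ((low_iff H _ y).2 hy))
  have hy' := (low_iff H _ y).1 hy
  have h1 : Lk N L0 β (m - 1) (-b) = 0 := by
    apply le_antisymm _ (hy' _ hb)
    by_contra h2
    have h3 := (Lk_dom hF (Nat.sub_le m 1) ⟨y, hb⟩).1 (not_le.1 h2)
    rw [map_neg] at h3
    omega
  have hbe : b = e kk := by
    rcases zero_class hF hkk ⟨y, hb⟩ h1 with h2 | h2
    · exfalso
      have h3 := congrArg (Lk N L0 β m) h2
      rw [map_neg, Lm_e hF hkk] at h3
      omega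
    · exact neg_injective h2
  subst hbe
  exact ⟨y, hy', hynot, hb, hoth, hz⟩

end face

end E09

open E09 in
/-- E09. From `m` to `m - 1`. -/
theorem e_last (H : Hyp 𝒜) (hF : Face 𝒜 N lam m e L0 β E F) {y0 : FP 𝒜}
    (h0 : Pos (Lk N L0 β m) y0) (hl : y0.Pi lam) (hA : ∀ j, y0.Pi (vx lam e j true))
    {t : R →ₗ[ℂ] ℂ} (ht : IsTangent y0.q t) (htw : HasWeight 𝒜 y0.ν lam t) {v : VF R}
    (hv : St 𝒜 N lam L0 β E y0 t m v) : ∃ v', St 𝒜 N lam L0 β E y0 t (m - 1) v' := by
  classical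
  have hN := hF.N0
  have hm2 := hF.m2
  by_cases hall : ∀ y : FP 𝒜, Pos (Lk N L0 β (m - 1)) y → RM y.q (Set.range (wf E (m - 1))) v
  · exact ⟨v, hv.hv, hv.val, hall⟩
  set kk : Fin m := ⟨m - 1, by omega⟩ with hkkdef
  have hkk : (kk : ℕ) = m - 1 := rfl
  obtain ⟨y, hy, hynot, hb, hoth, hz⟩ := polar_pt hF hkk H h0 hl hA hv.hv hv.val.rgV hall
  have hek := Lm_e hF hkk
  have hek1 := Lm1_e hF hkk
  -- the coordinate
  obtain ⟨n, χ, -, hχ, hcrd, -⟩ := coords H y
  obtain ⟨dz, z, hzc⟩ : ∃ d z, Crd y (-e kk) d z := by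
    obtain ⟨i, hi⟩ := (hχ (-e kk)).1 hb
    rw [← hi]
    exact hcrd i
  obtain ⟨k, hk⟩ := hz dz z hzc
  have hind : Ind y (wf E (m - 1)) (fun i => vx lam e i.1 true) :=
    E10b.ind_wf hF (m - 1) fun i hi => cnt H hF (hF.pos_L0 h0) hl hA (m - 1) hy i hi
  have hlam := hF.Lk_lam_pos m
  have hcase : ∀ i : Fin m, i = kk ∨ (i : ℕ) < m - 1 := by
    intro i
    rcases Nat.lt_or_ge (i : ℕ) (m - 1) with h | h
    · exact Or.inr h
    · left
      apply Fin.ext
      have := i.2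
      omega
  -- `lam + e_{m-1}` is a tangent weight at `y`
  have hvk : y.Pi (vx lam e kk true) := by
    by_contra hno
    apply hynot
    refine lemmaL H y hind (Lk N L0 β m) hzc (fun ψ hψ hne => (hoth ψ hψ hne).le) ?_
      (by rw [hek]; exact hN) (by rw [hek]; linarith) hv.hv k hk
    intro ψ hψ hne
    have := E10b.top_le hF m hψ (by
      rintro ⟨i, hi⟩ h'
      change ψ = vx lam e i true at h'
      rcases hcase i with h | h
      · rw [h', h] at hψ
        exact hno hψ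
      · exact hne ⟨i, h⟩ h')
    rw [hek]
    linarith
  -- the family with one more field
  let w' : Option {i : Fin m // (i : ℕ) < m - 1} → VF R :=
    fun o => o.elim (E kk true) (fun i => E i.1 true)
  let χ' : Option {i : Fin m // (i : ℕ) < m - 1} → Fin r → ℤ :=
    fun o => o.elim (vx lam e kk true) (fun i => vx lam e i.1 true)
  have hind' : Ind y w' χ' := by
    refine ⟨?_, ?_, ?_, ?_, ?_⟩
    · rintro (_ | i)
      · exact (hF.root kk true).globE
      · exact (hF.root i.1 true).globE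
    · rintro (_ | i)
      · exact (hF.root kk true).hvE
      · exact (hF.root i.1 true).hvE
    · rintro (_ | i) (_ | j) hij
      · rfl
      · exfalso
        have h1 := (hF.vx_inj hij).1
        have h2 := j.2
        rw [← h1] at h2
        omega
      · exfalso
        have h1 := (hF.vx_inj hij).1
        have h2 := i.2
        rw [h1] at h2
        omega
      · exact congrArg some (Subtype.ext (hF.vx_inj hij).1)
    · rintro (_ | i)
      · exact hvk
      · exact hind.pi i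
    · rintro (_ | i)
      · exact (hF.root kk true).atE y hvk
      · exact hind.ne i
  have hsub : Set.range (wf E (m - 1)) ⊆ Set.range w' := by
    rintro _ ⟨i, rfl⟩
    exact ⟨some i, rfl⟩
  have hrm : RM y.q (Set.range w') v := by
    refine lemmaL H y hind' (Lk N L0 β m) hzc (fun ψ hψ hne => (hoth ψ hψ hne).le) ?_
      (by rw [hek]; exact hN) (by rw [hek]; linarith) hv.hv k (hk.mono hsub)
    intro ψ hψ hne
    have := E10b.top_le hF m hψ (by
      rintro ⟨i, hi⟩ h'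
      change ψ = vx lam e i true at h'
      rcases hcase i with h | h
      · rw [h] at h'
        exact hne none h'
      · exact hne (some ⟨i, h⟩) h')
    rw [hek]
    linarith
  obtain ⟨ρ, g, hρ, hρv, hg, hvg⟩ := rm_hom H y hind' hv.hv hrm
  have hg0 : HK 𝒜 0 (e kk) (g none) := (hg none).cast rfl (by
    change vx lam e kk true - lam = e kk
    rw [vx, sg_true, one_smul, add_sub_cancel_left])
  have hdec : v - g none • E kk true = ρ + ∑ i, g (some i) • wf E (m - 1) i := by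
    rw [hvg, Fintype.sum_option]
    change ρ + (g none • E kk true + ∑ i, g (some i) • wf E (m - 1) i) - g none • E kk true = _
    abel
  have hdecr : RM y.q (Set.range (wf E (m - 1))) (v - g none • E kk true) := by
    rw [hdec]
    exact hρ.rm.add (RM.of_mem (Submodule.sum_mem _ fun i _ =>
      Submodule.smul_mem _ _ (Submodule.subset_span ⟨i, rfl⟩)))
  -- the pole of the coefficient
  have hgk : Rg y.q ((iK z) ^ k * g none) := by
    have h1 : RM y.q (Set.range (wf E (m - 1))) (((iK z) ^ k * g none) • E kk true) := by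
      have h2 := hk.sub (hdecr.smul ((Rg.iK z).pow k))
      have h3 : (iK z) ^ k • v - (iK z) ^ k • (v - g none • E kk true) =
          ((iK z) ^ k * g none) • E kk true := by
        rw [smul_sub, sub_sub_cancel, smul_smul]
      rwa [h3] at h2
    obtain ⟨a, ha⟩ := rm_range.1 h1
    have h2 := lf5 H y hind' (fun o => o.elim ((iK z) ^ k * g none) (fun i => -a i)) (by
      rw [Fintype.sum_option]
      change RgV y.q (((iK z) ^ k * g none) • E kk true + ∑ i, (-a i) • wf E (m - 1) i)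
      have h3 : ∑ i, (-a i) • wf E (m - 1) i = -∑ i, a i • wf E (m - 1) i := by
        rw [← Finset.sum_neg_distrib]
        exact Finset.sum_congr rfl fun i _ => Derivation.ext fun x => by
          rw [Derivation.smul_apply, Derivation.neg_apply, Derivation.smul_apply, smul_eq_mul,
            smul_eq_mul, neg_mul]
      rw [h3, ← sub_eq_add_neg]
      exact ha) none
    exact h2
  -- the correction
  have hy0l : Pos (Lk N L0 β (m - 1)) y0 := hF.pos_mono (Nat.sub_le m 1) h0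
  have hy0e : y0.Pi (e kk) := other_end hF hkk H h0 hy hb
  obtain ⟨X, hX, hX0, hXn, hXz⟩ := xf H (Lk N L0 β (m - 1)) y0 y (a := e kk)
    ((low_iff H _ _).2 hy0l) ((low_iff H _ _).2 hy) hek1 hy0e hb
    (fun ψ hψ hne => pos_l_of hF hkk y0 hy0l hψ hne (fun h =>
      not_both hF hkk H y0 hy0e (h ▸ hψ)))
    (fun ψ hψ hne => pos_l_of hF hkk y hy hψ (fun h =>
      not_both hF hkk H y (h ▸ hψ) hb) hne)
    (fun h => not_both hF hkk H y (((same_pi h H).2 _).1 hy0e) hb)
  obtain ⟨κ, hκ⟩ := pole_cmp H y (Lk N L0 β m) (by rw [hek]; exact hN) hoth hzc hg0 k hgk hX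
    (hXz dz z hzc) hXn
  have hX00 : Val y0.q X 0 := val_zero y0 hX hX0 (by
    rw [zero_smul]
    exact hF.e_ne_zero kk)
  obtain ⟨t', ht'⟩ := (hF.root kk true).globE.rgV (q := y0.q) |>.val
  have hv' : HV 𝒜 lam (v - κ • (X • E kk true)) :=
    hv.hv.sub (HV.smulC κ ((HV.smul hX (hF.root kk true).hvE).cast (by
      rw [vx, sg_true, one_smul, add_sub_cancel_right])))
  have hval' : ValV y0.q (v - κ • (X • E kk true)) t := by
    have h1 := hv.val.sub (ValV.smulC κ (ValV.smul hX00 ht'))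
    rwa [zero_smul, smul_zero, sub_zero] at h1
  have hy' : RM y.q (Set.range (wf E (m - 1))) (v - κ • (X • E kk true)) := by
    have h1 : v - κ • (X • E kk true) =
        (v - g none • E kk true) + (g none - κ • X) • E kk true := by
      refine Derivation.ext fun x => ?_
      simp only [Derivation.sub_apply, Derivation.add_apply, Derivation.smul_apply, smul_eq_mul]
      rw [sub_mul, smul_mul_assoc]
      ring
    rw [h1]
    exact hdecr.add (RM.smul hκ ((hF.root kk true).globE.rgV.rm))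
  refine ⟨v - κ • (X • E kk true), hv', hval', ?_⟩
  by_contra hnot
  obtain ⟨y2, hy2, hy2not, hb2, -, -⟩ := polar_pt hF hkk H h0 hl hA hv' hval'.rgV hnot
  exact hy2not (same_RM H (same_of hF hkk H hy hb hy2 hb2) hv' hind hy')

end Vale.Agent.P280.N
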