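import Vale.Agent.P280.N.E00
import Vale.Agent.P280.N.E06
import Vale.Agent.P280.N.A12
import Vale.Agent.P280.N.A15
import Vale.Agent.P280.N.A04
import Vale.Agent.P280.N.E10b

/-! P280, plan N: package E10a. -/

open DirectSum Vale.Agent.P280.T Vale.Agent.P280.H127

namespace Vale.Agent.P280.N

variable {r : ℕ} {R : Type} [CommRing R] [IsDomain R] [Algebra ℂ R]
  {𝒜 : ℕ × (Fin r → ℤ) → Submodule ℂ R} [GradedAlgebra 𝒜]
variable {N : ℤ} {lam : Fin r → ℤ} {m : ℕ} {e : Fin m → Fin r → ℤ} {L0 : (Fin r → ℤ) →+ ℤ}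
  {β : Fin m → Bool → ((Fin r → ℤ) →+ ℤ)} {E F : Fin m → Bool → VF R}

namespace E10a

/-- an adjacent transposition reverses only one pair -/
theorem swap_lt {k k' i j : Fin m} (hk : (k' : ℕ) = k + 1) (hij : (i : ℕ) < j)
    (h : (Equiv.swap k k' j : ℕ) < (Equiv.swap k k' i : ℕ)) : i = k ∧ j = k' := by
  rw [Equiv.swap_apply_def, Equiv.swap_apply_def] at h
  split_ifs at h with h1 h2 h3 h4 h5 h6 h7 h8 <;> subst_vars
  all_goals first
    | exact absurd h (by omega)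
    | exact ⟨rfl, rfl⟩

theorem pow_lt_iff {i j : Fin m} {N : ℤ} (hN : 0 < N) :
    (3 : ℤ) ^ (m - 1 - (j : ℕ)) * N < 3 ^ (m - 1 - (i : ℕ)) * N ↔ (i : ℕ) < j := by
  rw [mul_lt_mul_iff_left₀ hN, pow_lt_pow_iff_right₀ (by norm_num)]
  have := i.2
  have := j.2
  omega

/-- the functional of the face with `k` and `k'` exchanged -/
def Lsw (N : ℤ) {m : ℕ} (L0 : (Fin r → ℤ) →+ ℤ) (β : Fin m → Bool → ((Fin r → ℤ) →+ ℤ))
    (k k' : Fin m) : (Fin r → ℤ) →+ ℤ :=
  Lk N L0 (fun j s => β (Equiv.swap k k' j) (s == (fun _ => true : Fin m → Bool) j)) m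

theorem Lsw_e (hF : Face 𝒜 N lam m e L0 β E F) (k k' i : Fin m) :
    Lsw N L0 β k k' (e i) = 3 ^ (m - 1 - (Equiv.swap k k' i : ℕ)) * N := by
  have h := (hF.symm (Equiv.swap k k') (fun _ => true)).Lk_e m (Equiv.swap k k' i)
  rw [if_pos (Fin.is_lt _), Equiv.swap_apply_self, sg_true, one_smul] at h
  exact h

/-- the two functionals have the same sign except on `± (e k - e k')` -/
theorem eq_of_form (hF : Face 𝒜 N lam m e L0 β E F) {k k' : Fin m} (hk : (k' : ℕ) = k + 1)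
    {μ : Fin r → ℤ} (hf : (∃ j s, μ = sg s • e j) ∨
      ∃ i j s s', i ≠ j ∧ μ = sg s • e i + sg s' • e j) (h1 : 0 < Lk N L0 β m μ)
    (h2 : Lsw N L0 β k k' μ < 0) : μ = e k - e k' := by
  have hN := hF.N0
  have hLe : ∀ i : Fin m, Lk N L0 β m (e i) = 3 ^ (m - 1 - (i : ℕ)) * N := by
    intro i
    rw [hF.Lk_e, if_pos i.2]
  have hp : ∀ i : Fin m, (0 : ℤ) < 3 ^ (m - 1 - (i : ℕ)) * N := fun i => by positivity
  rcases hf with ⟨j, s, rfl⟩ | ⟨i, j, s, s', hij, rfl⟩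
  · exfalso
    rw [map_zsmul, hLe, smul_eq_mul] at h1
    rw [map_zsmul, Lsw_e hF, smul_eq_mul] at h2
    have := hp j
    have := hp (Equiv.swap k k' j)
    cases s
    · rw [sg_false] at h1
      linarith
    · rw [sg_true] at h2
      linarith
  · rw [map_add, map_zsmul, map_zsmul, hLe, hLe, smul_eq_mul, smul_eq_mul] at h1
    rw [map_add, map_zsmul, map_zsmul, Lsw_e hF, Lsw_e hF, smul_eq_mul, smul_eq_mul] at h2
    have a1 := hp i
    have a2 := hp j
    have a3 := hp (Equiv.swap k k' i)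
    have a4 := hp (Equiv.swap k k' j)
    cases s <;> cases s'
    · rw [sg_false] at h1
      linarith
    · rw [sg_false, sg_true] at h1 h2 ⊢
      have b1 : (j : ℕ) < i := (pow_lt_iff hN).1 (by linarith)
      have b2 : (Equiv.swap k k' i : ℕ) < (Equiv.swap k k' j : ℕ) :=
        (pow_lt_iff hN).1 (by linarith)
      obtain ⟨rfl, rfl⟩ := swap_lt hk b1 b2
      rw [neg_one_smul, one_smul]
      abel
    · rw [sg_false, sg_true] at h1 h2 ⊢
      have b1 : (i : ℕ) < j := (pow_lt_iff hN).1 (by linarith)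
      have b2 : (Equiv.swap k k' j : ℕ) < (Equiv.swap k k' i : ℕ) :=
        (pow_lt_iff hN).1 (by linarith)
      obtain ⟨rfl, rfl⟩ := swap_lt hk b1 b2
      rw [neg_one_smul, one_smul]
      abel
    · rw [sg_true] at h2
      linarith

theorem L0_zero (hF : Face 𝒜 N lam m e L0 β E F) (k k' : Fin m) {μ : Fin r → ℤ}
    (hμ : Wt 𝒜 μ) (h : Lk N L0 β m μ < 0 ∧ 0 < Lsw N L0 β k k' μ ∨
      0 < Lk N L0 β m μ ∧ Lsw N L0 β k k' μ < 0) : L0 μ = 0 := by
  have hF' := hF.symm (Equiv.swap k k') (fun _ => true)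
  rcases lt_trichotomy (L0 μ) 0 with h1 | h1 | h1
  · have h2 := hF.Lk_neg_of_L0 hμ h1 m
    have h3 : Lsw N L0 β k k' μ < 0 := hF'.Lk_neg_of_L0 hμ h1 m
    rcases h with h | h
    · linarith [h.2]
    · linarith [h.1]
  · exact h1
  · have h2 := hF.Lk_pos_of_L0 hμ h1 m
    have h3 : 0 < Lsw N L0 β k k' μ := hF'.Lk_pos_of_L0 hμ h1 m
    rcases h with h | h
    · linarith [h.1]
    · linarith [h.2]

theorem eq_of_sign (hF : Face 𝒜 N lam m e L0 β E F) {k k' : Fin m} (hk : (k' : ℕ) = k + 1)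
    {μ : Fin r → ℤ} (hμ : Wt 𝒜 μ) (h1 : 0 < Lk N L0 β m μ) (h2 : Lsw N L0 β k k' μ < 0) :
    μ = e k - e k' :=
  eq_of_form hF hk (hF.S μ hμ (L0_zero hF k k' hμ (Or.inr ⟨h1, h2⟩))) h1 h2

theorem eq_of_sign' (hF : Face 𝒜 N lam m e L0 β E F) {k k' : Fin m} (hk : (k' : ℕ) = k + 1)
    {μ : Fin r → ℤ} (hμ : Wt 𝒜 μ) (h1 : Lk N L0 β m μ < 0) (h2 : 0 < Lsw N L0 β k k' μ) :
    μ = -(e k - e k') := by
  have h3 := hF.S μ hμ (L0_zero hF k k' hμ (Or.inl ⟨h1, h2⟩))
  have h4 : -μ = e k - e k' := by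
    refine eq_of_form hF hk ?_ (by rw [map_neg]; linarith) (by rw [map_neg]; linarith)
    rcases h3 with ⟨j, s, h⟩ | ⟨i, j, s, s', hij, h⟩
    · exact Or.inl ⟨j, !s, by rw [h, sg_not, neg_smul]⟩
    · exact Or.inr ⟨i, j, !s, !s', hij, by rw [h, sg_not, sg_not, neg_smul, neg_smul]; abel⟩
  rw [← h4, neg_neg]

/-- the source of the face with `k`, `k'` exchanged: `v` is regular there modulo `W_{k+1}` -/
theorem exists_src (H : Hyp 𝒜) (hF : Face 𝒜 N lam m e L0 β E F) {y0 : FP 𝒜}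
    (h0 : Pos (Lk N L0 β m) y0) (hl : y0.Pi lam) (hA : ∀ j, y0.Pi (vx lam e j true))
    {k k' : Fin m} (hk : (k' : ℕ) = k + 1) {v : VF R} (hv : HV 𝒜 lam v) (hr : RgV y0.q v) :
    ∃ y' : FP 𝒜, Pos (Lsw N L0 β k k') y' ∧ (∀ j, y'.Pi (vx lam e j true)) ∧
      RM y'.q (Set.range (wf E (k + 1))) v := by
  classical
  have hN := hF.N0
  have hF' := hF.symm (Equiv.swap k k') (fun _ => true)
  have hc : ∀ μ, Wt 𝒜 μ → Lk N L0 β m μ ≠ 0 := fun μ hμ => Lk_ne hF hμ
  have hc' : ∀ μ, Wt 𝒜 μ → Lsw N L0 β k k' μ ≠ 0 := fun μ hμ => Lk_ne hF' hμ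
  have hpi : ∀ y : FP 𝒜, Pos (Lsw N L0 β k k') y → ∀ j, y.Pi (vx lam e j true) := by
    intro y hy j
    have h1 := cnt H hF' (hF.pos_L0 h0) hl (fun i => by
      rw [vx_symm]
      exact hA _) m hy (Equiv.swap k k' j) (Fin.is_lt _)
    rw [vx_symm, Equiv.swap_apply_self] at h1
    exact h1
  have hb0 : Lk N L0 β m (e k - e k') + Lsw N L0 β k k' (e k - e k') = 0 := by
    rw [map_sub, map_sub, Lsw_e hF, Lsw_e hF, Equiv.swap_apply_left, Equiv.swap_apply_right,
      hF.Lk_e, hF.Lk_e, if_pos k.2, if_pos k'.2]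
    ring
  set l : (Fin r → ℤ) →+ ℤ := Lk N L0 β m + Lsw N L0 β k k' with hldef
  have hlap : ∀ μ, l μ = Lk N L0 β m μ + Lsw N L0 β k k' μ := fun μ => rfl
  have hlc : ∀ μ, Wt 𝒜 μ → (0 < l μ → 0 < Lk N L0 β m μ) ∧ (l μ < 0 → Lk N L0 β m μ < 0) := by
    intro μ hμ
    constructor
    · intro h1
      by_contra h2
      have h3 : Lk N L0 β m μ < 0 := lt_of_le_of_ne (not_lt.1 h2) (hc μ hμ)
      rw [hlap] at h1
      have h4 := eq_of_sign' hF hk hμ h3 (by linarith)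
      rw [h4, map_neg, map_neg] at h1
      linarith
    · intro h1
      by_contra h2
      have h3 : 0 < Lk N L0 β m μ := lt_of_le_of_ne (not_lt.1 h2) (hc μ hμ).symm
      rw [hlap] at h1
      have h4 := eq_of_sign hF hk hμ h3 (by linarith)
      rw [h4] at h1
      linarith
  have hlc' : ∀ μ, Wt 𝒜 μ → 0 ≤ l μ → Lk N L0 β m μ < 0 → μ = -(e k - e k') := by
    intro μ hμ h1 h2
    rw [hlap] at h1
    exact eq_of_sign' hF hk hμ h2 (by linarith)
  have hmE : ∀ {W : Set (VF R)} {q : R →ₐ[ℂ] ℂ} {u : VF R},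
      RM q (Set.range (Empty.elim : Empty → VF R)) u → RM q W u := by
    intro W q u hu
    refine hu.mono ?_
    rintro _ ⟨x, -⟩
    exact x.elim
  have hIE : ∀ y : FP 𝒜, Ind y (Empty.elim : Empty → VF R) (Empty.elim : Empty → Fin r → ℤ) :=
    fun y => ⟨fun x => x.elim, fun x => x.elim, fun x => x.elim, fun x => x.elim,
      fun x => x.elim⟩
  by_cases hall : ∀ y : FP 𝒜, Low l y → RM y.q (Set.range (Empty.elim : Empty → VF R)) v
  · obtain ⟨y', hy'⟩ := exists_pos H _ hc'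
    refine ⟨y', hy', hpi y' hy', hmE (hall y' ((low_iff H l y').2 fun ψ hψ => ?_))⟩
    by_contra h1
    have h2 := (hlc ψ ⟨y', hψ⟩).2 (not_le.1 h1)
    have h3 := lt_of_le_of_ne (hy' ψ hψ) (hc' ψ ⟨y', hψ⟩).symm
    have h4 := eq_of_sign' hF hk ⟨y', hψ⟩ h2 h3
    apply h1
    rw [h4, map_neg, hlap, hb0, neg_zero]
  · obtain ⟨y, b, hy, hn, hb, hcb, hoth, hz⟩ := lpp H l (Lk N L0 β m) hc hlc (fun y _ => hIE y) hv
      (fun y1 hy1 => same_RM H (pos_unique H _ hc h0 hy1) hv (hIE y0) hr.rm) hall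
    have hbe : b = e k - e k' := by
      have h1 := (low_iff H l y).1 hy _ hb
      have h2 := hlc' _ ⟨y, hb⟩ h1 (by rw [map_neg]; linarith)
      exact neg_injective h2
    have hpos' : Pos (Lsw N L0 β k k') y := by
      intro ψ hψ
      by_cases hne : ψ = -b
      · rw [hne, hbe, map_neg]
        rw [hbe] at hcb
        linarith
      · by_contra h1
        have h2 := eq_of_sign hF hk ⟨y, hψ⟩ (hoth ψ hψ hne) (not_le.1 h1)
        have h3 := (low_iff H l y).1 hy _ hψ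
        rw [← hbe] at h2
        rw [h2] at hψ
        have h4 := H.ind y.q y.ν b (-b) y.nv y.fix hψ hb ⟨1, -1, one_ne_zero, by norm_num, by
          rw [one_smul, neg_one_smul, neg_neg]⟩
        have h5 := congrArg (Lk N L0 β m) h4
        rw [map_neg] at h5
        linarith
    refine ⟨y, hpos', hpi y hpos', ?_⟩
    obtain ⟨n, χ, -, hχ, hcrd, -⟩ := coords H y
    obtain ⟨i, hi⟩ := (hχ (-b)).1 hb
    obtain ⟨d, z, hzc⟩ := hcrd i
    rw [hi] at hzc
    obtain ⟨p, hp⟩ := hz d z hzc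
    have hlb : 0 < Lk N L0 β (k + 1) b := by
      rw [hbe, map_sub, hF.Lk_e, hF.Lk_e, if_pos (Nat.lt_succ_self _), if_neg (by omega), sub_zero]
      positivity
    have hlam := hF.Lk_lam_pos (k + 1)
    refine lemmaL H y (E10b.ind_wf hF (k + 1) fun j _ => hpi y hpos' j) (Lk N L0 β (k + 1)) hzc
      ?_ ?_ hlb (by linarith) hv p (hmE hp)
    · intro ψ hψ hne
      exact hF.Lk_nonneg_mono ⟨y, hψ⟩ (Nat.succ_le_of_lt k.2) (hoth ψ hψ hne).le
    · intro ψ hψ hne
      have := E10b.top_le hF (k + 1) hψ hne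
      linarith

/-- a combination of the fields `w_i`, `i < n`, with vanishing coefficients for `i ≥ k` -/
theorem sum_mem_wf {n k : ℕ} (f : {i : Fin m // (i : ℕ) < n} → FractionRing R)
    (h : ∀ i, k ≤ (i.1 : ℕ) → f i = 0) :
    ∑ i, f i • wf E n i ∈ Submodule.span (FractionRing R) (Set.range (wf E k)) := by
  refine Submodule.sum_mem _ fun i _ => ?_
  by_cases hi : (i.1 : ℕ) < k
  · exact Submodule.smul_mem _ _ (Submodule.subset_span ⟨⟨i.1, hi⟩, rfl⟩)
  · rw [h i (not_lt.1 hi), zero_smul]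
    exact Submodule.zero_mem _

/-- the same with one exceptional coefficient -/
theorem sum_sub_mem_wf {n k : ℕ} (f : {i : Fin m // (i : ℕ) < n} → FractionRing R)
    (a : {i : Fin m // (i : ℕ) < n}) (h : ∀ i, k ≤ (i.1 : ℕ) → i ≠ a → f i = 0) :
    ∑ i, f i • wf E n i - f a • E a.1 true ∈
      Submodule.span (FractionRing R) (Set.range (wf E k)) := by
  classical
  have h1 : ∑ i, f i • wf E n i - f a • E a.1 true =
      ∑ i ∈ Finset.univ.erase a, f i • wf E n i :=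
    (Finset.sum_erase_eq_sub (Finset.mem_univ a)).symm
  rw [h1]
  refine Submodule.sum_mem _ fun i hi => ?_
  by_cases hik : (i.1 : ℕ) < k
  · exact Submodule.smul_mem _ _ (Submodule.subset_span ⟨⟨i.1, hik⟩, rfl⟩)
  · rw [h i (not_lt.1 hik) (Finset.ne_of_mem_erase hi), zero_smul]
    exact Submodule.zero_mem _

end E10a

/-- E10a. The correction at the exchange of `k` and `k' = k + 1`. -/
theorem step_a (H : Hyp 𝒜) (hF : Face 𝒜 N lam m e L0 β E F) {y0 : FP 𝒜}
    (h0 : Pos (Lk N L0 β m) y0) (hl : y0.Pi lam) (hA : ∀ j, y0.Pi (vx lam e j true))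
    {t : R →ₗ[ℂ] ℂ} {k k' : Fin m} (hk : (k' : ℕ) = k + 1) {v : VF R}
    (hv : St 𝒜 N lam L0 β E y0 t (k + 1) v) {Y : VF R} (hY : Glob Y) (hYv : HV 𝒜 (e k' - e k) Y)
    (hY1 : ⁅Y, E k true⁆ = E k' true) (hY2 : ∀ l, l ≠ k → ⁅Y, E l true⁆ = 0) :
    ∃ b0 : FractionRing R, Rg y0.q b0 ∧ HK 𝒜 0 (e k) b0 ∧
      ⁅Y, v - b0 • E k true⁆ ∈ Submodule.span (FractionRing R) (Set.range (wf E k)) := by
  classical
  have hN := hF.N0
  have hF' := hF.symm (Equiv.swap k k') (fun _ => true)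
  obtain ⟨y', hy', hA', hrm⟩ := E10a.exists_src H hF h0 hl hA hk hv.hv hv.val.rgV
  have hind' := E10b.ind_wf (E := E) (F := F) hF (y := y') m fun i _ => hA' i
  have hind := E10b.ind_wf (E := E) (F := F) hF (y := y0) m fun i _ => hA i
  obtain ⟨ρ, g, hρ, hρv, hg, hvs⟩ :=
    rm_hom H y' (E10b.ind_wf hF (k + 1) fun j _ => hA' j) hv.hv hrm
  set c' := E10a.Lsw N L0 β k k' with hc'
  have hce : ∀ i : Fin m, c' (e i) = 3 ^ (m - 1 - (Equiv.swap k k' i : ℕ)) * N :=
    fun i => E10a.Lsw_e hF k k' i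
  set P : ℤ := 3 ^ (m - 1 - (k' : ℕ)) * N with hP
  have hP0 : 0 < P := by positivity
  have hpk : (3 : ℤ) ^ (m - 1 - (k : ℕ)) = 3 * 3 ^ (m - 1 - (k' : ℕ)) := by
    rw [← pow_succ']
    congr 1
    have := k'.2
    omega
  have hcek : c' (e k) = P := by rw [hce, Equiv.swap_apply_left]
  have hcek' : c' (e k') = 3 * P := by
    rw [hce, Equiv.swap_apply_right, hpk, hP]
    ring
  have hlam : 0 < c' lam := hF'.Lk_lam_pos m
  have htop : ∀ ψ, y'.Pi ψ → (∀ i : {i : Fin m // (i : ℕ) < m}, ψ ≠ vx lam e i.1 true) →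
      c' ψ ≤ c' lam := by
    intro ψ hψ hne
    refine E10b.top_le hF' m hψ fun i => ?_
    rw [vx_symm]
    exact hne ⟨Equiv.swap k k' i.1, Fin.is_lt _⟩
  -- the bracket of the regular part
  have hom : HV 𝒜 (lam + (e k' - e k)) ⁅Y, ρ⁆ := by
    have := HV.lie hYv hρv
    rwa [add_comm] at this
  have hcom : c' (lam + (e k' - e k)) = c' lam + 2 * P := by
    rw [map_add, map_sub, hcek, hcek']
    ring
  obtain ⟨x, hx, hxs⟩ := lf4 H y' hind' c' hy' (om := lam + (e k' - e k))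
    (fun ψ hψ hne => by
      have := htop ψ hψ hne
      rw [hcom]
      linarith) (by rw [hcom]; linarith) hom (hY.rgV.lie hρ)
  have hx0 : ∀ i : {i : Fin m // (i : ℕ) < m}, (k : ℕ) ≤ i.1 → i.1 ≠ k' → x i = 0 := by
    intro i hi hne
    refine lf1 H y' c' hy' (hx i).2 (hx i).1 ?_
    have h1 : c' (vx lam e i.1 true - (lam + (e k' - e k))) = c' (e i.1) - 2 * P := by
      rw [vx, map_sub, map_add, map_zsmul, hcom, sg_true, one_smul]
      ring
    rw [h1, zero_mul]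
    by_cases hik : i.1 = k
    · rw [hik, hcek]
      linarith
    · have h2 : Equiv.swap k k' i.1 = i.1 := Equiv.swap_apply_of_ne_of_ne hik hne
      rw [hce, h2]
      have h3 : (3 : ℤ) ^ (m - 1 - (i.1 : ℕ)) * N ≤ P := by
        refine mul_le_mul_of_nonneg_right (pow_le_pow_right₀ (by norm_num) ?_) hN.le
        have : (i.1 : ℕ) ≠ k := fun h => hik (Fin.ext h)
        have : (i.1 : ℕ) ≠ k' := fun h => hne (Fin.ext h)
        omega
      linarith
  have hkm : (k : ℕ) < k + 1 := Nat.lt_succ_self _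
  set gk := g ⟨k, hkm⟩ with hgk
  set rk := x ⟨k', k'.2⟩ with hrk
  -- the bracket of `v`
  have hexp : ⁅Y, v⁆ = ∑ i, x i • wf E m i + (∑ i, (Y (g i)) • wf E (k + 1) i +
      gk • E k' true) := by
    rw [hvs, vlie_add, hxs, vlie_sum]
    congr 1
    have h1 : ∀ i, ⁅Y, g i • wf E (k + 1) i⁆ =
        Y (g i) • wf E (k + 1) i + g i • ⁅Y, wf E (k + 1) i⁆ := fun i => lie_smul_vf _ _ _
    rw [Finset.sum_congr rfl fun i _ => h1 i, Finset.sum_add_distrib]
    congr 1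
    rw [Finset.sum_eq_single (⟨k, hkm⟩ : {i : Fin m // (i : ℕ) < k + 1})]
    · rw [wf, hY1]
    · intro i _ hi
      have h2 : (i.1 : Fin m) ≠ k := fun h3 => hi (Subtype.ext h3)
      rw [wf, hY2 _ h2, smul_zero]
    · intro h2
      exact absurd (Finset.mem_univ _) h2
  have hz1 := E10a.sum_sub_mem_wf (E := E) (k := (k : ℕ)) x ⟨k', k'.2⟩ fun i hi hne =>
    hx0 i hi fun h => hne (Subtype.ext h)
  have hz2 := E10a.sum_sub_mem_wf (E := E) (k := (k : ℕ)) (fun i => Y (g i)) ⟨k, hkm⟩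
    fun i hi hne => absurd (Subtype.ext (Fin.ext (by have := i.2; simp only; omega))) hne
  have hz : ⁅Y, v⁆ - Y gk • E k true - (gk + rk) • E k' true ∈
      Submodule.span (FractionRing R) (Set.range (wf E k)) := by
    have h1 := Submodule.add_mem _ hz1 hz2
    have h2 : ⁅Y, v⁆ - Y gk • E k true - (gk + rk) • E k' true =
        (∑ i, x i • wf E m i - x ⟨k', k'.2⟩ • E k' true) +
        (∑ i, (Y (g i)) • wf E (k + 1) i - Y (g ⟨k, hkm⟩) • E k true) := by
      rw [hexp, add_smul]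
      abel
    rw [h2]
    exact h1
  have hYr : Y rk = 0 := by
    have h1 : HK 𝒜 0 (vx lam e k' true - (lam + (e k' - e k)) - (e k' - e k)) (Y rk) :=
      hYv.app (hx ⟨k', k'.2⟩).2
    refine lf1 H y' c' hy' h1 (hY.rgV.rg (hx ⟨k', k'.2⟩).1) ?_
    rw [vx, map_sub, map_sub, map_add, map_sub, map_zsmul, hcom, sg_true, one_smul, hcek, hcek',
      zero_mul]
    linarith
  refine ⟨gk + rk, ?_, ?_, ?_⟩
  · -- regular at `y0`
    have himg : Set.range (wf E k) = wf E m '' {i | (i.1 : ℕ) < k} := by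
      ext u
      constructor
      · rintro ⟨i, rfl⟩
        exact ⟨⟨i.1, i.1.2⟩, i.2, rfl⟩
      · rintro ⟨i, hi, rfl⟩
        exact ⟨⟨i.1, hi⟩, rfl⟩
    have hne : (⟨k', k'.2⟩ : {i : Fin m // (i : ℕ) < m}) ≠ ⟨k, k.2⟩ := by
      intro h
      have := congrArg (fun i => (i.1 : ℕ)) h
      simp only at this
      omega
    set C : {i : Fin m // (i : ℕ) < m} → FractionRing R :=
      fun i => (if i = ⟨k, k.2⟩ then Y gk else 0) + if i = ⟨k', k'.2⟩ then gk + rk else 0 with hC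
    have hCs : ∑ i, C i • wf E m i = Y gk • E k true + (gk + rk) • E k' true := by
      rw [hC]
      simp_rw [add_smul, ite_smul, zero_smul]
      rw [Finset.sum_add_distrib, Finset.sum_ite_eq' Finset.univ, Finset.sum_ite_eq' Finset.univ,
        if_pos (Finset.mem_univ _), if_pos (Finset.mem_univ _), ← add_smul]
      rfl
    have h1 : RM y0.q (wf E m '' {i | (i.1 : ℕ) < k}) (∑ i, C i • wf E m i) := by
      rw [← himg]
      refine ⟨-(⁅Y, v⁆ - Y gk • E k true - (gk + rk) • E k' true), Submodule.neg_mem _ hz, ?_⟩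
      have h2 : ∑ i, C i • wf E m i - -(⁅Y, v⁆ - Y gk • E k true - (gk + rk) • E k' true) =
          ⁅Y, v⁆ := by
        rw [hCs]
        abel
      rw [h2]
      exact hY.rgV.lie hv.val.rgV
    have h2 := hind.coef_rm h1 (i := ⟨k', k'.2⟩) (by
      simp only [Set.mem_ofPred_eq]
      omega)
    have h3 : C ⟨k', k'.2⟩ = gk + rk := by
      simp only [hC, if_neg hne, zero_add, if_true]
    rwa [h3] at h2
  · refine HK.add ?_ ?_
    · have h1 := hg ⟨k, hkm⟩
      have h2 : vx lam e k true - lam = e k := by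
        rw [vx, sg_true, one_smul]
        abel
      rwa [h2] at h1
    · have h1 := (hx ⟨k', k'.2⟩).2
      have h2 : vx lam e k' true - (lam + (e k' - e k)) = e k := by
        rw [vx, sg_true, one_smul]
        abel
      rwa [h2] at h1
  · have h1 : ⁅Y, v - (gk + rk) • E k true⁆ =
        ⁅Y, v⁆ - Y gk • E k true - (gk + rk) • E k' true := by
      rw [vlie_sub, lie_smul_vf, hY1, map_add, hYr, add_zero]
      abel
    rw [h1]
    exact hz

end Vale.Agent.P280.N
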