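import Vale.Agent.P280.N.E00
import Vale.Agent.P280.N.E01
import Vale.Agent.P280.N.E02
import Vale.Agent.P280.N.A12

/-! P280, plan N: package E10d. -/

open DirectSum Vale.Agent.P280.T Vale.Agent.P280.H127

set_option linter.all false
set_option linter.unusedSectionVars false

namespace Vale.Agent.P280.N.E10d

section gen
variable {R : Type} [CommRing R] [IsDomain R] [Algebra ℂ R] {q : R →ₐ[ℂ] ℂ}

/-- a field with value zero kills regular functions at the point -/
theorem valV_app_zero {v : VF R} (hv : ValV q v 0) {x : FractionRing R} (hx : Rg q x) :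
    Val q (v x) 0 := by
  obtain ⟨c, hc⟩ := hx.val
  obtain ⟨a, s, h1, h2⟩ := hx
  have h3 := ValV.val hv h1 h2 hc
  simpa using h3

/-- the bracket of two fields which vanish at the point vanishes there -/
theorem lie_val_zero {v w : VF R} (hv : ValV q v 0) (hw : ValV q w 0) : ValV q ⁅v, w⁆ 0 := by
  intro h
  rw [Derivation.commutator_apply, LinearMap.zero_apply]
  have h1 := (valV_app_zero hv (hw h).rg).sub (valV_app_zero hw (hv h).rg)
  rwa [sub_zero] at h1

/-- the value of `v` on a product of regular functions, the second of value zero -/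
theorem val_app_mul {v : VF R} (hv : RgV q v) {x y : FractionRing R} {a c : ℂ}
    (hx : Val q x a) (hy : Val q y 0) (hvy : Val q (v y) c) : Val q (v (x * y)) (a * c) := by
  rw [Derivation.leibniz, smul_eq_mul, smul_eq_mul]
  obtain ⟨b, hb⟩ := (hv.rg hx.rg).val
  have h1 := (hx.mul hvy).add (hy.mul hb)
  rwa [zero_mul, add_zero] at h1

end gen

variable {r : ℕ} {R : Type} [CommRing R] [IsDomain R] [Algebra ℂ R]
  {𝒜 : ℕ × (Fin r → ℤ) → Submodule ℂ R} [GradedAlgebra 𝒜]
variable {N : ℤ} {lam : Fin r → ℤ} {m : ℕ} {e : Fin m → Fin r → ℤ} {L0 : (Fin r → ℤ) →+ ℤ}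
  {β : Fin m → Bool → ((Fin r → ℤ) →+ ℤ)} {E F : Fin m → Bool → VF R}

/-- the family `W_k` is independent at `y` -/
theorem ind_wf (hF : Face 𝒜 N lam m e L0 β E F) {y : FP 𝒜} {k : ℕ}
    (h : ∀ i : Fin m, (i : ℕ) < k → y.Pi (vx lam e i true)) :
    Ind y (wf E k) (fun i => vx lam e i.1 true) where
  glob := fun i => (hF.root i.1 true).globE
  hv := fun i => (hF.root i.1 true).hvE
  inj := fun i j hij => Subtype.ext (hF.vx_inj hij).1
  pi := fun i => h i.1 i.2
  ne := fun i => (hF.root i.1 true).atE y (h i.1 i.2)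

theorem wf_image (k : ℕ) : (wf E (k + 1)) '' {i | (i.1 : ℕ) < k} = Set.range (wf E k) := by
  ext v
  constructor
  · rintro ⟨i, hi, rfl⟩
    exact ⟨⟨i.1, hi⟩, rfl⟩
  · rintro ⟨i, rfl⟩
    exact ⟨⟨i.1, Nat.lt_succ_of_lt i.2⟩, i.2, rfl⟩

theorem vx_ne_zero (hF : Face 𝒜 N lam m e L0 β E F) (j : Fin m) (s : Bool) :
    vx lam e j s ≠ 0 := by
  intro h
  have h1 := hF.L0_vx j s
  rw [h, map_zero] at h1
  exact (ne_of_gt hF.pos) h1.symm

/-- no two opposite tangent weights -/
theorem not_pi_neg (H : Hyp 𝒜) {y : FP 𝒜} {ψ : Fin r → ℤ} (h1 : y.Pi ψ) (h2 : y.Pi (-ψ)) :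
    False := by
  have h3 := H.ind y.q y.ν ψ (-ψ) y.nv y.fix h1 h2 ⟨1, -1, one_ne_zero, by norm_num, by
    rw [one_smul, neg_smul, one_smul, neg_neg]⟩
  have h4 : ψ = 0 := by
    have h5 : (2 : ℤ) • ψ = 0 := by
      rw [two_smul]
      nth_rewrite 1 [h3]
      exact neg_add_cancel ψ
    rcases smul_eq_zero.1 h5 with h6 | h6
    · norm_num at h6
    · exact h6
  rw [h4] at h1
  exact H.iso y.q y.ν y.nv y.fix h1

/-- the small values of `c = Lk m` -/
theorem small_c (hF : Face 𝒜 N lam m e L0 β E F) {k k' : Fin m} (hk : (k' : ℕ) = k + 1)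
    (hm : (k : ℕ) + 2 = m) {ψ : Fin r → ℤ} (hψ : Wt 𝒜 ψ) (h0 : 0 < Lk N L0 β m ψ)
    (h1 : Lk N L0 β m ψ ≤ 2 * N) :
    ψ = e k' ∨ (ψ = e k - e k' ∧ Lk N L0 β m ψ = 2 * N) := by
  have hN := hF.N0
  have hm2 := hF.m2
  -- powers
  have hP : ∀ j : Fin m, 1 ≤ (3 : ℤ) ^ (m - 1 - (j : ℕ)) := fun j => one_le_pow₀ (by norm_num)
  have hc : ∀ j : Fin m, Lk N L0 β m (e j) = 3 ^ (m - 1 - (j : ℕ)) * N := by
    intro j
    rw [hF.Lk_e, if_pos j.2]
  have hval : ∀ j : Fin m, (3 : ℤ) ^ (m - 1 - (j : ℕ)) ≤ 2 → j = k' := by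
    intro j hj
    apply Fin.ext
    by_contra hne
    have h2 := j.2
    have h3 : 1 ≤ m - 1 - (j : ℕ) := by omega
    have h4 : (3 : ℤ) ^ 1 ≤ 3 ^ (m - 1 - (j : ℕ)) := pow_le_pow_right₀ (by norm_num) h3
    norm_num at h4
    omega
  have hval2 : ∀ j : Fin m, (3 : ℤ) ^ (m - 1 - (j : ℕ)) ≤ 3 → j = k' ∨ j = k := by
    intro j hj
    by_contra hne
    push Not at hne
    have h2 := j.2
    have h5 : (j : ℕ) ≠ k' := fun h => hne.1 (Fin.ext h)
    have h6 : (j : ℕ) ≠ k := fun h => hne.2 (Fin.ext h)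
    have h3 : 2 ≤ m - 1 - (j : ℕ) := by omega
    have h4 : (3 : ℤ) ^ 2 ≤ 3 ^ (m - 1 - (j : ℕ)) := pow_le_pow_right₀ (by norm_num) h3
    norm_num at h4
    omega
  have hk'1 : (3 : ℤ) ^ (m - 1 - (k' : ℕ)) = 1 := by
    have h2 : m - 1 - (k' : ℕ) = 0 := by omega
    rw [h2, pow_zero]
  have hk3 : (3 : ℤ) ^ (m - 1 - (k : ℕ)) = 3 := by
    have h2 : m - 1 - (k : ℕ) = 1 := by omega
    rw [h2, pow_one]
  rcases lt_trichotomy (L0 ψ) 0 with h2 | h2 | h2
  · exact absurd (hF.Lk_neg_of_L0 hψ h2 m) (by omega)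
  · rcases hF.S ψ hψ h2 with ⟨j, s, rfl⟩ | ⟨i, j, s, s', hij, rfl⟩
    · rw [map_zsmul, hc, smul_eq_mul] at h0 h1
      have h3 := hP j
      cases s
      · rw [sg_false] at h0
        nlinarith
      · rw [sg_true, one_mul] at h1
        left
        have h4 : (3 : ℤ) ^ (m - 1 - (j : ℕ)) ≤ 2 := by
          by_contra hcon
          push Not at hcon
          nlinarith
        rw [hval j h4, sg_true, one_smul]
    · rw [map_add, map_zsmul, map_zsmul, hc, hc, smul_eq_mul, smul_eq_mul] at h0 h1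
      have h3 := hP i
      have h4 := hP j
      have hne : (i : ℕ) ≠ j := fun h => hij (Fin.ext h)
      -- the larger power is at least three times the smaller one
      have h5 : ∀ a b : Fin m, (a : ℕ) < b →
          3 * (3 : ℤ) ^ (m - 1 - (b : ℕ)) ≤ 3 ^ (m - 1 - (a : ℕ)) := by
        intro a b hab
        have hb := b.2
        rw [← pow_succ']
        exact pow_le_pow_right₀ (by norm_num) (by omega)
      have key : ∀ a b : Fin m, a ≠ b →
          0 < (3 : ℤ) ^ (m - 1 - (a : ℕ)) * N - 3 ^ (m - 1 - (b : ℕ)) * N →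
          (3 : ℤ) ^ (m - 1 - (a : ℕ)) * N - 3 ^ (m - 1 - (b : ℕ)) * N ≤ 2 * N →
          b = k' ∧ a = k := by
        intro a b hab g0 g1
        have hne' : (a : ℕ) ≠ b := fun h => hab (Fin.ext h)
        have ha := hP a
        have hb := hP b
        rcases lt_or_gt_of_ne hne' with h6 | h6
        · have h7 := h5 a b h6
          have h8 : (3 : ℤ) ^ (m - 1 - (b : ℕ)) ≤ 2 := by
            by_contra hcon
            push Not at hcon
            nlinarith
          have h9 := hval b h8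
          subst h9
          rw [hk'1] at g1
          have h10 : (3 : ℤ) ^ (m - 1 - (a : ℕ)) ≤ 3 := by
            by_contra hcon
            push Not at hcon
            nlinarith
          rcases hval2 a h10 with h11 | h11
          · exact absurd h11 hab
          · exact ⟨rfl, h11⟩
        · have h7 := h5 b a h6
          nlinarith
      right
      cases s <;> cases s'
      · rw [sg_false] at h0
        nlinarith
      · rw [sg_false, sg_true] at h0 h1
        obtain ⟨rfl, rfl⟩ := key j i hij.symm (by linarith) (by linarith)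
        refine ⟨?_, ?_⟩
        · rw [sg_false, sg_true, one_smul, neg_smul, one_smul]
          abel
        · rw [map_add, map_zsmul, map_zsmul, hc, hc, smul_eq_mul, smul_eq_mul, hk'1, hk3,
            sg_false, sg_true]
          ring
      · rw [sg_false, sg_true] at h0 h1
        obtain ⟨rfl, rfl⟩ := key i j hij (by linarith) (by linarith)
        refine ⟨?_, ?_⟩
        · rw [sg_false, sg_true, one_smul, neg_smul, one_smul]
          abel
        · rw [map_add, map_zsmul, map_zsmul, hc, hc, smul_eq_mul, smul_eq_mul, hk'1, hk3,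
            sg_false, sg_true]
          ring
      · exfalso
        rw [sg_true, one_mul, one_mul] at h1
        rcases lt_or_gt_of_ne hne with h6 | h6
        · have h7 := h5 i j h6
          nlinarith
        · have h7 := h5 j i h6
          nlinarith
  · -- positive `L0`
    exfalso
    have hb : ∀ i : Fin m, -N ≤ β i true ψ := by
      intro i
      by_cases h3 : ψ = vx lam e i true
      · rw [h3, hF.b_vx_self]
        linarith
      · by_cases h4 : ψ = -vx lam e i true
        · rw [h4, map_neg, hF.L0_vx] at h2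
          have := hF.pos
          linarith
        · exact (abs_le.1 ((hF.root i true).bd ψ hψ h3 h4)).1
    have h3 : -N * ∑ i : Fin m, (3 : ℤ) ^ (m - 1 - (i : ℕ)) ≤ ts (fun i => β i true ψ) m := by
      rw [ts, Finset.mul_sum]
      refine Finset.sum_le_sum fun i _ => ?_
      rw [if_pos i.2, mul_comm]
      exact mul_le_mul_of_nonneg_left (hb i) (by positivity)
    have h4 := three_tail (m := m) 0 (Nat.zero_le _)
    have h5 : ∑ i : Fin m, (if 0 ≤ (i : ℕ) then (3 : ℤ) ^ (m - 1 - (i : ℕ)) else 0) =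
        ∑ i : Fin m, (3 : ℤ) ^ (m - 1 - (i : ℕ)) :=
      Finset.sum_congr rfl fun i _ => if_pos (Nat.zero_le _)
    rw [h5, Nat.sub_zero] at h4
    have h6 : (3 : ℤ) ^ 2 ≤ 3 ^ m := pow_le_pow_right₀ (by norm_num) hm2
    rw [Lk_apply] at h1
    have h7 : (3 : ℤ) ^ m * N * 1 ≤ 3 ^ m * N * L0 ψ :=
      mul_le_mul_of_nonneg_left h2 (by positivity)
    nlinarith

/-- a field with nonzero value of weight `χ` does not kill a coordinate of weight `χ` -/
theorem crd_ne_zero (H : Hyp 𝒜) {y : FP 𝒜} {χ : Fin r → ℤ} {X : VF R} {t : R →ₗ[ℂ] ℂ}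
    (hXv : HV 𝒜 χ X) (ht : ValV y.q X t) (ht0 : t ≠ 0) (hpi : y.Pi χ) {d : ℕ} {u : R}
    (hu : Crd y χ d u) : t u ≠ 0 := by
  obtain ⟨-, -, t', h1, h2, h3⟩ := hu
  obtain ⟨c, c', hc, h4⟩ := H.mult y.q y.ν χ y.nv y.fix hpi t t' ht.isTangent
    (hXv.hasWeight H.hX y.nv y.fix ht) h1 h2
  intro h5
  have h6 := h4 u
  rw [h5, mul_zero, zero_add] at h6
  have h7 : c' = 0 := by
    rcases mul_eq_zero.1 h6 with h8 | h8
    · exact h8
    · exact absurd h8 h3
  apply ht0
  refine LinearMap.ext fun h => ?_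
  have h8 := h4 h
  rw [h7, zero_mul, add_zero] at h8
  rcases mul_eq_zero.1 h8 with h9 | h9
  · exact absurd h7 (by
      rcases hc with h10 | h10
      · exact absurd h9 h10
      · exact h10)
  · exact h9

end Vale.Agent.P280.N.E10d

namespace Vale.Agent.P280.N

open Vale.Agent.P280.N.E10d

variable {r : ℕ} {R : Type} [CommRing R] [IsDomain R] [Algebra ℂ R]
  {𝒜 : ℕ × (Fin r → ℤ) → Submodule ℂ R} [GradedAlgebra 𝒜]
variable {N : ℤ} {lam : Fin r → ℤ} {m : ℕ} {e : Fin m → Fin r → ℤ} {L0 : (Fin r → ℤ) →+ ℤ}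
  {β : Fin m → Bool → ((Fin r → ℤ) →+ ℤ)} {E F : Fin m → Bool → VF R}

/-- E10d. Case (ii). -/
theorem step_d (H : Hyp 𝒜) (hF : Face 𝒜 N lam m e L0 β E F) {k k' : Fin m}
    (hk : (k' : ℕ) = k + 1) (hm : (k : ℕ) + 2 = m) {v : VF R} (hv : HV 𝒜 lam v) {X : VF R}
    (hX : Glob X) (hXv : HV 𝒜 (e k - e k') X) (hX2 : ∀ l, l ≠ k' → ⁅X, E l true⁆ = 0)
    {s : ℂ} (hs : s ≠ 0) (hXs : ⁅X, E k' true⁆ = s • E k true)
    (hXspan : ⁅X, v⁆ ∈ Submodule.span (FractionRing R) (Set.range (wf E k)))
    {y : FP 𝒜} (hind : ∀ i : Fin m, (i : ℕ) < k + 1 → y.Pi (vx lam e i true))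
    (hk'y : ¬ y.Pi (vx lam e k' true)) (hb : y.Pi (-(e k')))
    (hoth : ∀ ψ, y.Pi ψ → ψ ≠ -(e k') → 0 < Lk N L0 β m ψ)
    (hz : ∀ d z, Crd y (-(e k')) d z → ∃ n : ℕ, RM y.q (Set.range (wf E k)) ((iK z) ^ n • v))
    (hrm : RM y.q (Set.range (wf E (k + 1))) v) : RM y.q (Set.range (wf E k)) v := by
  classical
  have hN := hF.N0
  set c := Lk N L0 β m with hcdef
  have hkk' : k ≠ k' := by
    intro h
    rw [h] at hk
    omega
  have hck' : c (e k') = N := by
    rw [hcdef, hF.Lk_e, if_pos k'.2]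
    have h2 : m - 1 - (k' : ℕ) = 0 := by omega
    rw [h2, pow_zero, one_mul]
  have hck : c (e k) = 3 * N := by
    rw [hcdef, hF.Lk_e, if_pos k.2]
    have h2 : m - 1 - (k : ℕ) = 1 := by omega
    rw [h2, pow_one]
  have hoth0 : ∀ ψ, y.Pi ψ → ψ ≠ -(e k') → 0 ≤ c ψ := fun ψ h1 h2 => (hoth ψ h1 h2).le
  -- the value of `X` at `y`
  obtain ⟨tX, htX⟩ := (hX.rgV (q := y.q)).val
  have htX0 : tX ≠ 0 := by
    intro h0
    rw [h0] at htX
    have h1 : ValV y.q (E k' true) 0 :=
      val_zero_of_not_pi H.hX (vx_ne_zero hF k' true) (hF.root k' true).hvE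
        (hF.root k' true).globE.rgV hk'y
    have h2 := lie_val_zero htX h1
    rw [hXs] at h2
    have h3 := h2.smulC s⁻¹
    rw [smul_smul, inv_mul_cancel₀ hs, one_smul, smul_zero] at h3
    exact (hF.root k true).atE y (hind k (Nat.lt_succ_self _)) h3
  have hb0ne : e k - e k' ≠ 0 := by
    intro h0
    have h1 := congrArg c h0
    rw [map_sub, hck, hck', map_zero] at h1
    omega
  have hb0 : y.Pi (e k - e k') := pi_of_val H.hX hb0ne hXv htX htX0
  -- coordinates
  obtain ⟨n, χ, hχinj, hχ, hcrd, hexp⟩ := coords H y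
  choose du u hu using hcrd
  obtain ⟨iz, hiz⟩ := (hχ _).1 hb
  obtain ⟨i0, hi0⟩ := (hχ _).1 hb0
  have hne0 : i0 ≠ iz := by
    rintro rfl
    rw [hi0] at hiz
    have h1 := congrArg c hiz
    rw [map_sub, map_neg, hck, hck'] at h1
    omega
  have hzc : Crd y (-(e k')) (du iz) (u iz) := by
    rw [← hiz]
    exact hu iz
  have huc : Crd y (e k - e k') (du i0) (u i0) := by
    rw [← hi0]
    exact hu i0
  set z := u iz with hzdef
  set dz := du iz with hdzdef
  have hz0 : Val y.q (iK z) 0 := by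
    have h1 := Vale.Agent.P280.N.Val.iK (q := y.q) z
    rwa [hzc.2.1] at h1
  have hzne : iK z ≠ 0 := by
    obtain ⟨t, -, -, ht⟩ := hzc.2.2
    refine iK_ne_zero ?_
    rintro h0
    rw [h0, map_zero] at ht
    exact ht rfl
  have hzH : HK 𝒜 dz (dz • y.ν + -(e k')) (iK z) := HK.ofR hzc.1
  -- `X z` is divisible by `z`
  obtain ⟨y1, hy1, hXz⟩ : ∃ y1, Rg y.q y1 ∧ X (iK z) = iK z * y1 := by
    refine lf2 H y c hoth0 hzc (hXv.app hzH) (hX.rgV z) ?_
    rw [map_sub, map_add, map_neg, map_sub, hck, hck', map_nsmul, nsmul_eq_mul]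
    push_cast
    linarith
  -- decomposition of `v`
  have hI := ind_wf hF hind
  obtain ⟨ρ, g, hρ, hρv, hgH, hvg⟩ := rm_hom H y hI hv hrm
  set kk : {i : Fin m // (i : ℕ) < k + 1} := ⟨k, Nat.lt_succ_self _⟩ with hkk
  have hgk : HK 𝒜 0 (e k) (g kk) := by
    have h1 := hgH kk
    refine h1.cast rfl ?_
    show vx lam e k true - lam = e k
    rw [vx, sg_true, one_smul]
    abel
  have hkT : kk ∉ {i : {i : Fin m // (i : ℕ) < k + 1} | (i.1 : ℕ) < k} := fun h => lt_irrefl (k : ℕ) h
  have hXg : Rg y.q (X (g kk)) := by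
    refine hI.coef_rm (T := {i | (i.1 : ℕ) < k}) (g := fun i => X (g i)) ?_ hkT
    rw [wf_image]
    have h1 : ∑ i, X (g i) • wf E (k + 1) i = ⁅X, v⁆ - ⁅X, ρ⁆ := by
      rw [hvg, vf_lie_add, vf_lie_sum, add_sub_cancel_left]
      refine Finset.sum_congr rfl fun i _ => ?_
      rw [lie_smul_vf]
      have h2 : ⁅X, wf E (k + 1) i⁆ = 0 := by
        refine hX2 i.1 ?_
        intro h3
        have h4 := i.2
        rw [h3, hk] at h4
        exact lt_irrefl _ h4
      rw [h2, smul_zero, add_zero]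
    rw [h1]
    exact (RM.of_mem hXspan).sub (hX.rgV.lie hρ).rm
  obtain ⟨n0, hn0⟩ := hz _ _ hzc
  have hzg : Rg y.q (iK z ^ n0 * g kk) := by
    refine hI.coef_rm (T := {i | (i.1 : ℕ) < k}) (g := fun i => iK z ^ n0 * g i) ?_ hkT
    rw [wf_image]
    have h1 : ∑ i, (iK z ^ n0 * g i) • wf E (k + 1) i = iK z ^ n0 • v - iK z ^ n0 • ρ := by
      rw [hvg]
      refine Derivation.ext fun x => ?_
      rw [sum_smul_apply, Derivation.sub_apply, Derivation.smul_apply, Derivation.smul_apply,
        Derivation.add_apply, sum_smul_apply, smul_eq_mul, smul_eq_mul, mul_add,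
        add_sub_cancel_left, Finset.mul_sum]
      exact Finset.sum_congr rfl fun i _ => by ring
    rw [h1]
    exact hn0.sub (RgV.smul (hz0.rg.pow n0) hρ).rm
  -- the descent
  have key : ∀ K : ℕ, Rg y.q (iK z ^ (K + 1) * g kk) → Rg y.q (iK z ^ K * g kk) := by
    intro K hK
    set x := iK z ^ (K + 1) * g kk with hxdef
    suffices hsuf : ∃ x', Rg y.q x' ∧ x = iK z * x' by
      obtain ⟨x', hx', hxx⟩ := hsuf
      have h1 : iK z * (iK z ^ K * g kk) = iK z * x' := by
        rw [← hxx, hxdef, pow_succ]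
        ring
      rw [mul_left_cancel₀ hzne h1]
      exact hx'
    -- the weight of `x`
    have hxH : HK 𝒜 (((K + 1) * dz : ℕ) : ℤ)
        ((((K + 1) * dz : ℕ) : ℤ) • y.ν + (e k - (K + 1) • e k')) x := by
      have h1 : HK 𝒜 (∑ i ∈ Finset.range (K + 1), (dz : ℤ))
          (∑ i ∈ Finset.range (K + 1), (dz • y.ν + -(e k'))) (iK z ^ (K + 1)) := by
        have h2 := HK.prod (𝒜 := 𝒜) (Finset.range (K + 1)) (f := fun _ => iK z)
          (d := fun _ => (dz : ℤ)) (m := fun _ => dz • y.ν + -(e k')) fun i _ => hzH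
        rwa [Finset.prod_const, Finset.card_range] at h2
      refine (h1.mul hgk).cast ?_ ?_
      · rw [Finset.sum_const, Finset.card_range, nsmul_eq_mul]
        push_cast
        ring
      · rw [Finset.sum_const, Finset.card_range, smul_add, smul_neg, ← mul_smul,
          natCast_zsmul]
        abel
    set D : ℕ := (K + 1) * dz with hD
    have hcx : ∀ ψ : Fin r → ℤ, c (((D : ℕ) : ℤ) • y.ν + (e k - (K + 1) • e k') - ψ) =
        D * c y.ν + (3 * N - (K + 1) * N) - c ψ := by
      intro ψ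
      rw [map_sub, map_add, map_zsmul, map_sub, map_nsmul, hck, hck', smul_eq_mul, nsmul_eq_mul]
      push_cast
      ring
    have hx0 : Val y.q x 0 := by
      refine val_zero y hxH hK ?_
      intro h0
      have h1 : e k - (K + 1) • e k' = 0 := by
        have h2 := sub_eq_zero.2 h0
        rwa [add_sub_cancel_left] at h2
      have h3 := congrArg (β k true) h1
      rw [map_sub, map_nsmul, hF.be, hF.be, if_pos rfl, if_neg (Ne.symm hkk'), smul_zero, sub_zero,
        map_zero, sg_true, one_mul] at h3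
      omega
    obtain ⟨x', hx', hxx⟩ := hexp du u hu _ _ x hxH hx0
    -- the cofactors outside `iz, i0` are divisible by `z`
    have hdiv : ∀ i, i ≠ iz → i ≠ i0 → ∃ x'', Rg y.q x'' ∧ x' i = iK z * x'' := by
      intro i h1 h2
      have h3 : y.Pi (χ i) := (hχ _).2 ⟨i, rfl⟩
      have h4 : χ i ≠ -(e k') := fun h => h1 (hχinj (h.trans hiz.symm))
      have h5 : χ i ≠ e k - e k' := fun h => h2 (hχinj (h.trans hi0.symm))
      have h6 := hoth _ h3 h4
      have h7 : 2 * N < c (χ i) := by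
        by_contra hcon
        push Not at hcon
        rcases small_c hF hk hm ⟨y, h3⟩ h6 hcon with h8 | ⟨h8, -⟩
        · rw [h8] at h3
          exact not_pi_neg H h3 hb
        · exact h5 h8
      refine lf2 H y c hoth0 hzc (hx' i).2 (hx' i).1 ?_
      rw [hcx, map_add, map_nsmul, nsmul_eq_mul]
      have h9 : (0 : ℤ) ≤ K * N := by positivity
      push_cast
      nlinarith
    -- the cofactor of `u i0`
    have hx0' := hx' i0
    by_cases hdi : ∃ x'', Rg y.q x'' ∧ x' i0 = iK z * x''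
    · -- everything is divisible by `z`
      have hall : ∀ i, ∃ x'', Rg y.q x'' ∧ iK (u i) * x' i = iK z * x'' := by
        intro i
        by_cases h1 : i = iz
        · subst h1
          exact ⟨x' i, (hx' i).1, rfl⟩
        · by_cases h2 : i = i0
          · subst h2
            obtain ⟨x'', h3, h4⟩ := hdi
            exact ⟨iK (u i) * x'', (Vale.Agent.P280.N.Rg.iK _).mul h3, by rw [h4]; ring⟩
          · obtain ⟨x'', h3, h4⟩ := hdiv i h1 h2
            exact ⟨iK (u i) * x'', (Vale.Agent.P280.N.Rg.iK _).mul h3, by rw [h4]; ring⟩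
      choose x'' h1 h2 using hall
      refine ⟨∑ i, x'' i, Rg.sum _ fun i _ => h1 i, ?_⟩
      rw [hxx, Finset.mul_sum]
      exact Finset.sum_congr rfl fun i _ => h2 i
    · exfalso
      -- `K = 0` and `x' i0` has a nonzero value
      have hK0 : K = 0 := by
        by_contra hK0
        apply hdi
        refine lf2 H y c hoth0 hzc hx0'.2 hx0'.1 ?_
        rw [hcx, map_add, map_nsmul, nsmul_eq_mul, hi0, map_sub, hck, hck']
        have h9 : 1 ≤ K := Nat.one_le_iff_ne_zero.2 hK0
        have h10 : N * 1 ≤ N * (K : ℤ) := mul_le_mul_of_nonneg_left (by exact_mod_cast h9) hN.le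
        push_cast
        nlinarith
      subst hK0
      obtain ⟨α, hα⟩ := hx0'.1.val
      have hα0 : α ≠ 0 := by
        rintro rfl
        apply hdi
        refine lf2' H y c hoth hzc hx0'.2 hx0'.1 ?_ hα
        rw [hcx, map_add, map_nsmul, nsmul_eq_mul, hi0, map_sub, hck, hck']
        push_cast
        ring
      -- `x = u a + z b`
      obtain ⟨b, hbr, hxb⟩ : ∃ b, Rg y.q b ∧ x = iK (u i0) * x' i0 + iK z * b := by
        have hall : ∀ i, ∃ x'', Rg y.q x'' ∧ (i ≠ i0 → iK (u i) * x' i = iK z * x'') := by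
          intro i
          by_cases h1 : i = iz
          · subst h1
            exact ⟨x' i, (hx' i).1, fun _ => rfl⟩
          · by_cases h2 : i = i0
            · exact ⟨0, Rg.zero, fun h => absurd h2 h⟩
            · obtain ⟨x'', h3, h4⟩ := hdiv i h1 h2
              exact ⟨iK (u i) * x'', (Vale.Agent.P280.N.Rg.iK _).mul h3, fun _ => by
                rw [h4]; ring⟩
        choose x'' h1 h2 using hall
        refine ⟨∑ i ∈ Finset.univ.erase i0, x'' i, Rg.sum _ fun i _ => h1 i, ?_⟩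
        rw [hxx, ← Finset.add_sum_erase _ _ (Finset.mem_univ i0), Finset.mul_sum]
        congr 1
        exact Finset.sum_congr rfl fun i hi => h2 i (Finset.ne_of_mem_erase hi)
      -- two computations of the value of `X x`
      have hXr : RgV y.q X := hX.rgV
      have e1 : Val y.q (X x) 0 := by
        have h1 : X x = y1 * x + iK z * X (g kk) := by
          rw [hxdef, zero_add, pow_one, Derivation.leibniz, smul_eq_mul, smul_eq_mul, hXz]
          ring
        obtain ⟨a1, ha1⟩ := hy1.val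
        obtain ⟨a2, ha2⟩ := hXg.val
        rw [h1]
        have h2 := (ha1.mul hx0).add (hz0.mul ha2)
        simpa using h2
      have hu0 : Val y.q (iK (u i0)) 0 := by
        have h1 := Vale.Agent.P280.N.Val.iK (q := y.q) (u i0)
        rwa [huc.2.1] at h1
      have e2 : Val y.q (X x) (α * tX (u i0)) := by
        have h1 : Val y.q (X (x' i0 * iK (u i0))) (α * tX (u i0)) :=
          val_app_mul hXr hα hu0 (htX (u i0))
        have h2 : Val y.q (X (iK z * b)) 0 := by
          obtain ⟨a3, ha3⟩ := hbr.val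
          obtain ⟨a4, ha4⟩ := hy1.val
          obtain ⟨a5, ha5⟩ := (hXr.rg hbr).val
          rw [Derivation.leibniz, smul_eq_mul, smul_eq_mul, hXz]
          have h3 := (hz0.mul ha5).add (ha3.mul (hz0.mul ha4))
          simpa using h3
        have h3 := h1.add h2
        rw [add_zero, ← map_add] at h3
        rw [hxb, mul_comm (iK (u i0)) (x' i0)]
        exact h3
      have e3 := e1.unique e2
      have e4 := crd_ne_zero H hXv htX htX0 hb0 huc
      exact (mul_ne_zero hα0 e4) e3.symm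
  have hgreg : Rg y.q (g kk) := by
    have h1 : ∀ K : ℕ, Rg y.q (iK z ^ K * g kk) → Rg y.q (g kk) := by
      intro K
      induction K with
      | zero =>
        intro h
        rwa [pow_zero, one_mul] at h
      | succ K ih => exact fun h => ih (key K h)
    exact h1 n0 hzg
  -- conclusion
  rw [hvg]
  refine hρ.rm.add (RM.sum _ fun i _ => ?_)
  by_cases hi : (i.1 : ℕ) < k
  · refine RM.of_mem (Submodule.smul_mem _ _ (Submodule.subset_span ?_))
    exact ⟨⟨i.1, hi⟩, rfl⟩
  · have h1 : i = kk := by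
      apply Subtype.ext
      apply Fin.ext
      have h2 := i.2
      show (i.1 : ℕ) = k
      omega
    rw [h1]
    exact (RgV.smul hgreg (hF.root k true).globE.rgV).rm

end Vale.Agent.P280.N
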