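import Vale.Agent.P280.N.E08
import Vale.Agent.P280.N.E09
import Vale.Agent.P280.N.E10a
import Vale.Agent.P280.N.E10b
import Vale.Agent.P280.N.E10d
import Vale.Agent.P280.N.A14
import Vale.Agent.P280.N.A17

/-! P280, plan N: package E10. -/

open DirectSum Vale.Agent.P280.T Vale.Agent.P280.H127

namespace Vale.Agent.P280.N

variable {r : ℕ} {R : Type} [CommRing R] [IsDomain R] [Algebra ℂ R]
  {𝒜 : ℕ × (Fin r → ℤ) → Submodule ℂ R} [GradedAlgebra 𝒜]
variable {N : ℤ} {lam : Fin r → ℤ} {m : ℕ} {e : Fin m → Fin r → ℤ} {L0 : (Fin r → ℤ) →+ ℤ}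
  {β : Fin m → Bool → ((Fin r → ℤ) →+ ℤ)} {E F : Fin m → Bool → VF R}

namespace H997

omit [IsDomain R] [GradedAlgebra 𝒜] in
/-- a coordinate in the direction of a tangent weight -/
theorem exists_crd {y : FP 𝒜} {χ : Fin r → ℤ} (hχ : y.Pi χ) (h0 : χ ≠ 0) :
    ∃ d z, Crd y χ d z := by
  obtain ⟨v, hv, hw, hne⟩ := hχ
  obtain ⟨d, n, h, hh, h1⟩ := hne 0
  rw [zero_mul, zero_mul] at h1
  have h2 := hw d n h hh h1
  subst h2
  refine ⟨d, h, hh, ?_, v, hv, hw, h1⟩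
  by_contra h3
  have h4 := y.fix d _ h hh h3
  apply h0
  have h5 : d • y.ν + χ = d • y.ν + 0 := by rw [h4, add_zero]
  exact add_left_cancel h5

omit [GradedAlgebra 𝒜] in
/-- the family `W_k` is independent where its weights are tangent weights -/
theorem ind_wf (hF : Face 𝒜 N lam m e L0 β E F) (k : ℕ) {y : FP 𝒜}
    (h : ∀ i : Fin m, (i : ℕ) < k → y.Pi (vx lam e i true)) :
    Ind y (wf E k) (fun i => vx lam e i.1 true) where
  glob i := (hF.root i.1 true).globE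
  hv i := (hF.root i.1 true).hvE
  inj _ _ hij := Subtype.ext (hF.vx_inj hij).1
  pi i := h i.1 i.2
  ne i := (hF.root i.1 true).atE y (h i.1 i.2)

/-- case (i) of the step: `w_{k'}` is independent of the other fields at `y`. -/
theorem case_one (hF : Face 𝒜 N lam m e L0 β E F) {k k' : Fin m} (hk : (k' : ℕ) = k + 1)
    {v Y : VF R} (hY : Glob Y) (hY1 : ⁅Y, E k true⁆ = E k' true)
    (hY2 : ∀ l, l ≠ k → ⁅Y, E l true⁆ = 0)
    (hYs : ⁅Y, v⁆ ∈ Submodule.span (FractionRing R) (Set.range (wf E k))) {y : FP 𝒜}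
    (hall : ∀ i : Fin m, (i : ℕ) < k + 2 → y.Pi (vx lam e i true))
    (hrm : RM y.q (Set.range (wf E (k + 1))) v) : RM y.q (Set.range (wf E k)) v := by
  classical
  obtain ⟨g, hg⟩ := rm_range.1 hrm
  set ρ : VF R := v - ∑ i, g i • wf E (k + 1) i with hρ
  have hv : v = ρ + ∑ i, g i • wf E (k + 1) i := by rw [hρ]; abel
  have hsub : Set.range (wf E k) ⊆ Set.range (wf E ((k : ℕ) + 1)) := by
    rintro _ ⟨i, rfl⟩
    exact ⟨⟨i.1, by have := i.2; omega⟩, rfl⟩
  set kk : {i : Fin m // (i : ℕ) < (k : ℕ) + 1} := ⟨k, by omega⟩ with hkk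
  -- the bracket
  have hbr : ⁅Y, v⁆ = ⁅Y, ρ⁆ + (∑ i, Y (g i) • wf E (k + 1) i + g kk • E k' true) := by
    conv_lhs => rw [hv]
    rw [vf_lie_add, vf_lie_sum]
    congr 1
    have h1 : ∀ i : {i : Fin m // (i : ℕ) < (k : ℕ) + 1}, ⁅Y, g i • wf E (k + 1) i⁆ =
        Y (g i) • wf E (k + 1) i + (if i = kk then g kk • E k' true else 0) := by
      intro i
      rw [lie_smul_vf]
      congr 1
      by_cases hi : i = kk
      · rw [if_pos hi, hi]
        show g kk • ⁅Y, E k true⁆ = _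
        rw [hY1]
      · rw [if_neg hi]
        have h2 : (i.1 : Fin m) ≠ k := fun h3 => hi (Subtype.ext h3)
        show g i • ⁅Y, E i.1 true⁆ = _
        rw [hY2 _ h2, smul_zero]
    rw [Finset.sum_congr rfl fun i _ => h1 i, Finset.sum_add_distrib, Finset.sum_ite_eq' Finset.univ kk,
      if_pos (Finset.mem_univ _)]
  -- coefficient of `w_{k'}`
  have hInd := ind_wf hF ((k : ℕ) + 2) hall
  set T : Set {i : Fin m // (i : ℕ) < (k : ℕ) + 2} := {i | (i.1 : ℕ) < (k : ℕ) + 1} with hT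
  set kk' : {i : Fin m // (i : ℕ) < (k : ℕ) + 2} := ⟨k', by omega⟩ with hkk'
  have hTsub : Set.range (wf E ((k : ℕ) + 1)) ⊆ wf E ((k : ℕ) + 2) '' T := by
    rintro _ ⟨i, rfl⟩
    exact ⟨⟨i.1, by have := i.2; omega⟩, i.2, rfl⟩
  have hsum : ∑ i, (Pi.single kk' (-(g kk)) : _ → FractionRing R) i • wf E ((k : ℕ) + 2) i =
      -(g kk • E k' true) := by
    rw [Finset.sum_eq_single kk']
    · rw [Pi.single_eq_same]
      show (-g kk) • E k' true = _
      refine Derivation.ext fun x => ?_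
      rw [Derivation.smul_apply, Derivation.neg_apply, Derivation.smul_apply, smul_eq_mul,
        smul_eq_mul, neg_mul]
    · intro i _ hi
      rw [Pi.single_eq_of_ne hi, zero_smul]
    · intro h
      exact absurd (Finset.mem_univ _) h
  have hrmT : RM y.q (wf E ((k : ℕ) + 2) '' T)
      (∑ i, (Pi.single kk' (-(g kk)) : _ → FractionRing R) i • wf E ((k : ℕ) + 2) i) := by
    rw [hsum]
    have h1 : -(g kk • E k' true) = ⁅Y, ρ⁆ - (⁅Y, v⁆ - ∑ i, Y (g i) • wf E (k + 1) i) := by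
      rw [hbr]; abel
    rw [h1]
    refine RM.sub (RgV.rm ((hY.rgV).lie hg)) (RM.of_mem ?_)
    refine Submodule.sub_mem _ (Submodule.span_mono (hsub.trans hTsub) hYs) ?_
    refine Submodule.sum_mem _ fun i _ => Submodule.smul_mem _ _ ?_
    exact Submodule.subset_span (hTsub ⟨i, rfl⟩)
  have hnT : kk' ∉ T := by
    intro h
    have h' : (k' : ℕ) < (k : ℕ) + 1 := h
    omega
  have h2 := hInd.coef_rm hrmT hnT
  rw [Pi.single_eq_same] at h2
  have h3 : Rg y.q (g kk) := by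
    have := h2.neg
    rwa [neg_neg] at this
  -- conclusion
  rw [hv]
  refine RM.add (RgV.rm hg) (RM.sum _ fun i _ => ?_)
  by_cases hi : i = kk
  · rw [hi]
    exact RgV.rm (RgV.smul h3 (hF.root k true).globE.rgV)
  · refine RM.of_mem (Submodule.smul_mem _ _ (Submodule.subset_span ⟨⟨i.1, ?_⟩, rfl⟩))
    have h4 := i.2
    have h5 : (i.1 : ℕ) ≠ k := fun h6 => hi (Subtype.ext (Fin.ext h6))
    omega

end H997

/-- E10. The step from `k + 1` to `k` (assembly of E06 - E10d, lpp, lemmaL). -/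
theorem e_step (H : Hyp 𝒜) (hF : Face 𝒜 N lam m e L0 β E F) {y0 : FP 𝒜}
    (h0 : Pos (Lk N L0 β m) y0) (hl : y0.Pi lam) (hA : ∀ j, y0.Pi (vx lam e j true))
    {t : R →ₗ[ℂ] ℂ} {k : ℕ} (hk : k + 2 ≤ m) {v : VF R}
    (hv : St 𝒜 N lam L0 β E y0 t (k + 1) v) : ∃ v', St 𝒜 N lam L0 β E y0 t k v' := by
  obtain ⟨k, rfl⟩ : ∃ kf : Fin m, (kf : ℕ) = k := ⟨⟨k, by omega⟩, rfl⟩
  obtain ⟨k', hk'⟩ : ∃ kf : Fin m, (kf : ℕ) = k + 1 := ⟨⟨k + 1, by omega⟩, rfl⟩
  have hne : k ≠ k' := by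
    intro h
    rw [h] at hk'
    omega
  obtain ⟨X, Y, hX, hY, hXv, hYv, hY1, hY2, hX2, ⟨s, hs, hXs⟩, hXY⟩ := exch H hF hne
  obtain ⟨b0, hb0, hb0h, hYs⟩ := step_a H hF h0 hl hA hk' hv hY hYv hY1 hY2
  have h0' : Pos L0 y0 := hF.pos_L0 h0
  set v' : VF R := v - b0 • E k true with hv'
  have hEk : HV 𝒜 (vx lam e k true) (E k true) := (hF.root k true).hvE
  have hHV : HV 𝒜 lam v' := by
    refine hv.hv.sub ((HV.smul hb0h hEk).cast ?_)
    rw [vx, sg_true, one_smul, add_sub_cancel_right]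
  have hb00 : Val y0.q b0 0 := by
    refine val_zero y0 hb0h hb0 ?_
    rw [zero_smul]
    exact hF.e_ne_zero k
  have hVal : ValV y0.q v' t := by
    obtain ⟨tE, htE⟩ := ((hF.root k true).globE.rgV (q := y0.q)).val
    have h1 := hv.val.sub (ValV.smul hb00 htE)
    rwa [zero_smul, sub_zero] at h1
  have hrm1 : ∀ y : FP 𝒜, Pos (Lk N L0 β ((k : ℕ) + 1)) y →
      RM y.q (Set.range (wf E ((k : ℕ) + 1))) v' := by
    intro y hy
    refine (hv.rm y hy).sub (RM.of_mem (Submodule.smul_mem _ _ (Submodule.subset_span ?_)))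
    exact ⟨⟨k, by omega⟩, rfl⟩
  have hXspan := step_b H hF h0 hl hA hk' hHV hVal.rgV hX hY hXv hYv hY1 hY2 hX2 (hXY v' hHV) hYs
  refine ⟨v', hHV, hVal, ?_⟩
  by_contra hnot
  have hindk : ∀ y : FP 𝒜, Pos (Lk N L0 β k) y →
      Ind y (wf E k) (fun i : {i : Fin m // (i : ℕ) < (k : ℕ)} => vx lam e i.1 true) :=
    fun y hy => H997.ind_wf hF k fun i hi => cnt H hF h0' hl hA k hy i hi
  obtain ⟨y, b, hlow, hnrm, hb, hcb, hoth, hz⟩ := lpp H (Lk N L0 β k) (Lk N L0 β m)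
    (fun μ hμ => Lk_ne hF hμ) (fun μ hμ => Lk_dom hF (by have := k.2; omega) hμ)
    (w := wf E k) (χ := fun i : {i : Fin m // (i : ℕ) < (k : ℕ)} => vx lam e i.1 true)
    (fun y hy => hindk y ((low_iff H _ y).1 hy)) hHV
    (fun y1 hy1 => same_RM H (pos_unique H _ (fun μ hμ => Lk_ne hF hμ) h0 hy1) hHV
      (hindk y0 (hF.pos_mono (by have := k.2; omega) h0)) hVal.rgV.rm)
    (fun h => hnot fun y hy => h y ((low_iff H _ y).2 hy))
  have hpos : Pos (Lk N L0 β k) y := (low_iff H _ y).1 hlow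
  apply hnrm
  have hcntk : ∀ i : Fin m, (i : ℕ) < k → y.Pi (vx lam e i true) :=
    fun i hi => cnt H hF h0' hl hA k hpos i hi
  rcases cnt_step H hF h0' hl hA hk' hpos hb hcb hoth with ⟨h1, h2⟩ | ⟨hm, -, h1, h2, rfl⟩ |
    ⟨hm, rfl⟩
  · -- case (i)
    have h3 := step_c H hF h0 hl hA hHV hrm1 hpos h1 hb hcb hoth hz
    refine H997.case_one hF hk' hY hY1 hY2 hYs (fun i hi => ?_) h3
    rcases Nat.lt_or_ge (i : ℕ) k with h4 | h4
    · exact hcntk i h4
    · rcases Nat.eq_or_lt_of_le h4 with h5 | h5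
      · rw [← Fin.ext h5]
        exact h1
      · have h6 : i = k' := Fin.ext (by omega)
        rw [h6]
        exact h2
  · -- case (ii)
    have h3 := step_c H hF h0 hl hA hHV hrm1 hpos h1 hb hcb hoth hz
    refine step_d H hF hk' hm hHV hX hXv hX2 hs hXs hXspan (fun i hi => ?_) h2 hb hoth hz h3
    rcases Nat.lt_or_ge (i : ℕ) k with h4 | h4
    · exact hcntk i h4
    · rw [show i = k from Fin.ext (by omega)]
      exact h1
  · -- case (iii)
    have hb0 : -(e k + e k') ≠ 0 := by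
      intro h
      have h1 := congrArg (Lk N L0 β m) h
      rw [map_neg, map_zero] at h1
      omega
    obtain ⟨d, z, hdz⟩ := H997.exists_crd hb hb0
    obtain ⟨n, hn⟩ := hz d z hdz
    have hNpos := hF.N0
    have hlamp := hF.Lk_lam_pos m
    have hbv : Lk N L0 β m (e k + e k') = 4 * N := by
      rw [map_add, hF.Lk_e, hF.Lk_e, if_pos k.2, if_pos k'.2,
        show m - 1 - (k : ℕ) = 1 by omega, show m - 1 - (k' : ℕ) = 0 by omega]
      ring
    refine lemmaL H y (H997.ind_wf hF k hcntk) (Lk N L0 β m) hdz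
      (fun ψ h1 h2 => (hoth ψ h1 h2).le) (fun ψ h1 h2 => ?_) hcb (by omega) hHV n hn
    have hW : Wt 𝒜 ψ := ⟨y, h1⟩
    rcases lt_or_eq_of_le (hF.max ψ hW) with h3 | h3
    · have := Lk_low hF m hW h3
      omega
    · rcases hF.top ψ hW h3 with rfl | ⟨j, s', rfl⟩
      · omega
      · rw [hF.Lk_vx, if_pos j.2, hbv]
        cases s' with
        | false =>
          rw [sg_false]
          have h4 : (0 : ℤ) < 3 ^ (m - 1 - (j : ℕ)) * N := by positivity
          linarith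
        | true =>
          rw [sg_true]
          have h5 : (k : ℕ) ≤ j := by
            by_contra h6
            exact h2 ⟨j, by omega⟩ rfl
          have h6 : m - 1 - (j : ℕ) ≤ 1 := by omega
          have h7 : (3 : ℤ) ^ (m - 1 - (j : ℕ)) ≤ 3 := by
            calc (3 : ℤ) ^ (m - 1 - (j : ℕ)) ≤ 3 ^ 1 :=
                  pow_le_pow_right₀ (by norm_num) h6
              _ = 3 := by norm_num
          nlinarith

/-- E11 (MC). -/
theorem mc (H : Hyp 𝒜) (hF : Face 𝒜 N lam m e L0 β E F) {y0 : FP 𝒜}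
    (h0 : Pos (Lk N L0 β m) y0) (hl : y0.Pi lam) {t : R →ₗ[ℂ] ℂ} (ht : IsTangent y0.q t)
    (htw : HasWeight 𝒜 y0.ν lam t) : ∃ D : VF R, Glob D ∧ HV 𝒜 lam D ∧ ValV y0.q D t := by
  have h0' : Pos L0 y0 := hF.pos_L0 h0
  have hN := hF.N0
  have hm2 := hF.m2
  have hA : ∀ j, y0.Pi (vx lam e j true) := by
    intro j
    by_contra h1
    have h2 := f2 H hF y0 h0' hl h1
    have h3 := h0 _ h2
    rw [map_neg, map_zsmul, hF.Lk_e, if_pos j.2, sg_true, one_smul] at h3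
    have h4 : (0 : ℤ) < 3 ^ (m - 1 - (j : ℕ)) * N := by positivity
    linarith
  obtain ⟨v, hv, hvt⟩ := locv H y0 ht htw
  have hSt : St 𝒜 N lam L0 β E y0 t m v := by
    refine ⟨hv, hvt, fun y hy => ?_⟩
    exact same_RM H (pos_unique H _ (fun μ hμ => Lk_ne hF hμ) h0 hy) hv
      (H997.ind_wf hF m fun i _ => hA i) hvt.rgV.rm
  obtain ⟨v1, hv1⟩ := e_last H hF h0 hl hA ht htw hSt
  have hdown : ∀ n : ℕ, n + 1 ≤ m → ∃ v', St 𝒜 N lam L0 β E y0 t (m - 1 - n) v' := by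
    intro n
    induction n with
    | zero => exact fun _ => ⟨v1, hv1⟩
    | succ n ih =>
      intro hn
      obtain ⟨v2, hv2⟩ := ih (by omega)
      have h1 : m - 1 - n = (m - 1 - (n + 1)) + 1 := by omega
      rw [h1] at hv2
      exact e_step H hF h0 hl hA (by omega) hv2
  obtain ⟨D, hD⟩ := hdown (m - 1) (by omega)
  rw [Nat.sub_self] at hD
  refine ⟨D, ?_, hD.hv, hD.val⟩
  refine ext0 H L0 hF.pos hF.max hD.hv fun y hy => ?_
  have h1 : Pos (Lk N L0 β 0) y := by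
    intro χ hχ
    have h2 := (low_iff H L0 y).1 hy χ hχ
    rw [Lk_apply, ts_zero, add_zero]
    positivity
  have h2 := hD.rm y h1
  have h3 : Set.range (wf E 0) = ∅ := by
    rw [Set.range_eq_empty_iff]
    exact ⟨fun i => absurd i.2 (Nat.not_lt_zero _)⟩
  rw [h3] at h2
  exact rm_empty.1 h2

end Vale.Agent.P280.N
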