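import Vale.Agent.P280.N.E10
import Vale.Agent.P280.N.B01
import Vale.Agent.P280.N.B02
import Vale.Agent.P280.N.B03
import Vale.Agent.P280.N.B05
import Vale.Agent.P280.H170.NL

/-! P280, plan N: package F01. -/

open DirectSum Vale.Agent.P280.T Vale.Agent.P280.H127

namespace Vale.Agent.P280.N

variable {r : ℕ} {R : Type} [CommRing R] [IsDomain R] [Algebra ℂ R]
  {𝒜 : ℕ × (Fin r → ℤ) → Submodule ℂ R} [GradedAlgebra 𝒜]
variable {N : ℤ} {lam : Fin r → ℤ} {m : ℕ} {e : Fin m → Fin r → ℤ} {L0 : (Fin r → ℤ) →+ ℤ}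
  {β : Fin m → Bool → ((Fin r → ℤ) →+ ℤ)} {E F : Fin m → Bool → VF R}

/-- A functional which separates the class of `lam`. -/
def kf (N : ℤ) {m : ℕ} (L0 : (Fin r → ℤ) →+ ℤ) (β : Fin m → Bool → ((Fin r → ℤ) →+ ℤ))
    (κ : Fin m → ℤ) : (Fin r → ℤ) →+ ℤ :=
  (4 * N * m + 1) • L0 + ∑ i, κ i • β i true

omit [IsDomain R] [Algebra ℂ R] [CommRing R] in
theorem kf_apply (N : ℤ) {m : ℕ} (L0 : (Fin r → ℤ) →+ ℤ)
    (β : Fin m → Bool → ((Fin r → ℤ) →+ ℤ)) (κ : Fin m → ℤ) (ω : Fin r → ℤ) :
    kf N L0 β κ ω = (4 * N * m + 1) * L0 ω + ∑ i, κ i * β i true ω := by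
  rw [kf, AddMonoidHom.add_apply, AddMonoidHom.finsetSum_apply]
  rfl

omit [GradedAlgebra 𝒜] in
theorem kf_e (hF : Face 𝒜 N lam m e L0 β E F) (κ : Fin m → ℤ) (j : Fin m) :
    kf N L0 β κ (e j) = κ j * N := by
  rw [kf_apply, hF.lze, mul_zero, zero_add]
  rw [Finset.sum_eq_single j]
  · rw [hF.be, if_pos rfl, sg_true, one_mul]
  · intro i _ hij
    rw [hF.be, if_neg (Ne.symm hij), mul_zero]
  · intro h
    exact absurd (Finset.mem_univ j) h

omit [GradedAlgebra 𝒜] in
theorem kf_vx (hF : Face 𝒜 N lam m e L0 β E F) (κ : Fin m → ℤ) (j : Fin m) (s : Bool) :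
    kf N L0 β κ (vx lam e j s) = kf N L0 β κ lam + sg s * (κ j * N) := by
  rw [vx, map_add, map_zsmul, kf_e hF, smul_eq_mul]

omit [GradedAlgebra 𝒜] in
theorem kf_bd (hF : Face 𝒜 N lam m e L0 β E F) {κ : Fin m → ℤ} (hκ : ∀ i, |κ i| ≤ 1)
    {ω : Fin r → ℤ} (hω : Wt 𝒜 ω) : |∑ i, κ i * β i true ω| ≤ 2 * N * m := by
  have h1 : ∀ i ∈ (Finset.univ : Finset (Fin m)), |κ i * β i true ω| ≤ 2 * N := by
    intro i _
    rw [abs_mul]
    have h2 := hF.abs_b_le i true hω
    have h3 := hκ i
    have h4 := abs_nonneg (κ i)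
    have h5 := abs_nonneg (β i true ω)
    nlinarith
  have h2 := (Finset.abs_sum_le_sum_abs (fun i => κ i * β i true ω) Finset.univ).trans
    (Finset.sum_le_sum h1)
  rw [Finset.sum_const, Finset.card_univ, Fintype.card_fin, nsmul_eq_mul] at h2
  linarith

omit [GradedAlgebra 𝒜] in
theorem kf_class (hF : Face 𝒜 N lam m e L0 β E F) {κ : Fin m → ℤ} (hκ : ∀ i, |κ i| ≤ 1)
    {ω : Fin r → ℤ} (hω : Wt 𝒜 ω) (h : kf N L0 β κ ω = kf N L0 β κ lam) :
    ω = lam ∨ ∃ j s, κ j = 0 ∧ ω = vx lam e j s := by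
  have hN := hF.N0
  have hm : (0 : ℤ) ≤ m := Int.natCast_nonneg m
  have h1 := abs_le.1 (kf_bd hF hκ hω)
  have h2 := abs_le.1 (kf_bd hF hκ hF.wt)
  have h3 := hF.max ω hω
  have hL : L0 ω = L0 lam := by
    by_contra hne
    have h4 : L0 ω + 1 ≤ L0 lam := Int.add_one_le_iff.2 (lt_of_le_of_ne h3 hne)
    rw [kf_apply, kf_apply] at h
    have h5 : 0 ≤ 4 * N * m := by positivity
    nlinarith
  rcases hF.top ω hω hL with h4 | ⟨j, s, rfl⟩
  · exact Or.inl h4
  · refine Or.inr ⟨j, s, ?_, rfl⟩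
    rw [kf_vx hF] at h
    have h5 : sg s * (κ j * N) = 0 := by linarith
    rcases mul_eq_zero.1 h5 with h6 | h6
    · exact absurd h6 (sg_ne_zero s)
    · exact (mul_eq_zero.1 h6).resolve_right hN.ne'

omit [GradedAlgebra 𝒜] in
theorem kf_lam_ne (hF : Face 𝒜 N lam m e L0 β E F) {κ : Fin m → ℤ} (hκ : ∀ i, |κ i| ≤ 1) :
    kf N L0 β κ lam ≠ 0 := by
  have hN := hF.N0
  have hm : (0 : ℤ) ≤ m := Int.natCast_nonneg m
  have h2 := abs_le.1 (kf_bd hF hκ hF.wt)
  have h3 := hF.pos
  have h5 : 0 ≤ 4 * N * m := by positivity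
  have h6 : 0 ≤ 2 * N * m := by positivity
  rw [kf_apply]
  intro h
  nlinarith

/-- A `c`-negative direction at a point where all fields of weight `lam` vanish. -/
theorem neg_dir (H : Hyp 𝒜) (hF : Face 𝒜 N lam m e L0 β E F) {y : FP 𝒜} (hy : Pos L0 y)
    (hl : y.Pi lam)
    (ih : ∀ y' : FP 𝒜, Pos L0 y' → y'.Pi lam → Lk N L0 β m y'.ν < Lk N L0 β m y.ν →
      ∃ D : VF R, Glob D ∧ HV 𝒜 lam D ∧ ¬ ValV y'.q D 0)
    (hbad : ∀ D : VF R, Glob D → HV 𝒜 lam D → ValV y.q D 0) {a : Fin r → ℤ} (ha : y.Pi a)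
    (hc : Lk N L0 β m a < 0) : ∃ j, a = -(e j) ∧ ¬ y.Pi (vx lam e j true) := by
  classical
  have hN := hF.N0
  have hL0a : L0 a = 0 := by
    by_contra hne
    have h1 : 0 < L0 a := lt_of_le_of_ne (hy a ha) (Ne.symm hne)
    exact absurd (hF.Lk_pos_of_L0 ha.wt h1 m) (not_lt.2 hc.le)
  obtain ⟨y', n, φ, hφ⟩ := exists_curve H y ha
  have hL : L0 y'.ν = L0 y.ν := by
    rw [hφ.nu, map_add, map_nsmul, hL0a, smul_zero, add_zero]
  have hy' : Pos L0 y' := by
    apply low_pos
    have h1 := low_of_pos H.hX hy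
    intro d m' h hh hne
    rw [hL]
    exact h1 d m' h hh hne
  have hlt : Lk N L0 β m y'.ν < Lk N L0 β m y.ν := by
    rw [hφ.nu, map_add, map_nsmul, nsmul_eq_mul]
    have h1 : (1 : ℤ) ≤ n := by exact_mod_cast hφ.n1
    nlinarith
  have hne : ∀ k : ℤ, lam ≠ k • a := by
    intro k hk
    have h1 := hF.pos
    rw [hk, map_zsmul, hL0a, smul_zero] at h1
    exact lt_irrefl _ h1
  -- the weights of the face at `y`
  have hface : ∀ k : ℕ, y.Pi (lam + k • a) → lam + k • a = lam ∨ ∃ j s, lam + k • a = vx lam e j s := by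
    intro k hk
    refine hF.top _ hk.wt ?_
    rw [map_add, map_nsmul, hL0a, smul_zero, add_zero]
  rcases hF.S a ha.wt hL0a with ⟨j, s, has⟩ | ⟨i, j, s, s', hij, rfl⟩
  · -- `a = ± e j`
    have hs : s = false := by
      cases s
      · rfl
      · exfalso
        rw [has, sg_true, one_smul, hF.Lk_e, if_pos j.2] at hc
        have h1 : (0 : ℤ) < 3 ^ (m - 1 - (j : ℕ)) * N := by positivity
        omega
    subst hs
    have hae : sg false • e j = -(e j) := by
      rw [sg_false, neg_smul, one_smul]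
    rw [hae] at has
    subst has
    have hej : y'.Pi (e j) := by
      have h1 := hφ.ya'
      rwa [neg_neg] at h1
    have hlam' : y'.Pi lam := by
      have h1 := nef_string H hN (hF.root j false) y' (hF.not_neg_vx hy' j false) hej ?_ ?_ ?_
      · have h2 : e j + vx lam e j false = lam := by
          rw [vx, hae]
          abel
        rwa [h2] at h1
      · intro k hk
        have h1 := congrArg L0 hk
        rw [hF.lze, map_zsmul, hF.L0_vx, smul_eq_mul] at h1
        have h2 := hF.pos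
        have h3 : k = 0 := by
          rcases mul_eq_zero.1 h1.symm with h4 | h4
          · exact h4
          · omega
        rw [h3, zero_smul] at hk
        exact hF.e_ne_zero j hk
      · intro h1
        have h2 := hy' _ h1
        rw [map_sub, hF.lze, hF.L0_vx] at h2
        have h3 := hF.pos
        omega
      · rw [hF.be, if_pos rfl, sg_false]
        omega
    refine ⟨j, rfl, fun htrue => ?_⟩
    have hfalse : y.Pi (vx lam e j false) := by
      by_contra h1
      have h2 := f2 H hF y hy hl h1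
      rw [hae] at h2
      exact H170.not_pi_neg H ha h2
    obtain ⟨D, hD, hDv, hD'⟩ := ih y' hy' hlam' hlt
    have hfalse' : ¬ y'.Pi (vx lam e j false) := by
      intro h1
      apply hD'
      have hv : lam + -(e j) = vx lam e j false := by
        rw [vx, hae]
      refine curve_td H hφ hD hDv hne (hbad D hD hDv) (hF.root j false).globE
        (by rw [hv]; exact (hF.root j false).hvE) ((hF.root j false).atE y hfalse)
        ((hF.root j false).atE y' h1) ?_
      intro k hk hyk
      rcases hface k hyk with h2 | ⟨l, t, h2⟩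
      · have h3 := congrArg (β j true) h2
        rw [map_add, map_nsmul, map_neg, hF.be, if_pos rfl, sg_true, nsmul_eq_mul] at h3
        have h4 : (2 : ℤ) ≤ k := by exact_mod_cast hk
        nlinarith
      · have h3 := congrArg (β j true) h2
        rw [map_add, map_nsmul, map_neg, hF.be, if_pos rfl, sg_true, nsmul_eq_mul, hF.b_vx,
          hF.bl, sg_true, one_mul] at h3
        have h4 : (2 : ℤ) ≤ k := by exact_mod_cast hk
        by_cases hlj : l = j
        · rw [if_pos hlj] at h3
          cases t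
          · rw [sg_false] at h3
            nlinarith
          · rw [sg_true] at h3
            nlinarith
        · rw [if_neg hlj] at h3
          nlinarith
    -- counting
    set κ : Fin m → ℤ := fun i => if i = j then 0 else 1 with hκd
    have hκ : ∀ i, |κ i| ≤ 1 := by
      intro i
      by_cases h1 : i = j
      · simp [hκd, h1]
      · simp [hκd, h1]
    have hκj : κ j = 0 := by simp [hκd]
    have hκ0 : ∀ i, κ i = 0 → i = j := by
      intro i hi
      by_contra h1
      simp [hκd, h1] at hi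
    have hcount := curve_count H hφ (kf N L0 β κ) (by rw [map_neg, kf_e hF, hκj]; ring)
      (kf N L0 β κ lam) (kf_lam_ne hF hκ)
    have h3 : ({lam, vx lam e j true, vx lam e j false} : Set (Fin r → ℤ)) ⊆
        {χ | y.Pi χ ∧ kf N L0 β κ χ = kf N L0 β κ lam} := by
      rintro χ (rfl | rfl | h1)
      · exact ⟨hl, rfl⟩
      · exact ⟨htrue, by rw [kf_vx hF, hκj]; ring⟩
      · rw [Set.mem_singleton_iff] at h1
        subst h1
        exact ⟨hfalse, by rw [kf_vx hF, hκj]; ring⟩
    have h4 : {χ | y'.Pi χ ∧ kf N L0 β κ χ = kf N L0 β κ lam} ⊆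
        ({lam, vx lam e j true} : Set (Fin r → ℤ)) := by
      rintro χ ⟨h1, h2⟩
      rcases kf_class hF hκ h1.wt h2 with rfl | ⟨l, t, hl0, rfl⟩
      · exact Or.inl rfl
      · have h5 := hκ0 l hl0
        subst h5
        cases t
        · exact absurd h1 hfalse'
        · exact Or.inr rfl
    have h5 := Set.ncard_le_ncard h3 ((H170.pi_finite H y).subset fun χ h => h.1)
    have h6 := Set.ncard_le_ncard h4 (Set.toFinite _)
    have h7 : ({lam, vx lam e j true, vx lam e j false} : Set (Fin r → ℤ)).ncard = 3 := by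
      rw [Set.ncard_eq_three]
      refine ⟨_, _, _, (hF.vx_ne_lam j true).symm, (hF.vx_ne_lam j false).symm, ?_, rfl⟩
      intro h8
      have := (hF.vx_inj h8).2
      exact absurd this (by decide)
    have h8 : ({lam, vx lam e j true} : Set (Fin r → ℤ)).ncard = 2 :=
      Set.ncard_pair (hF.vx_ne_lam j true).symm
    omega
  · -- `a = ± e i ± e j`
    exfalso
    have hji : j ≠ i := Ne.symm hij
    set a : Fin r → ℤ := sg s • e i + sg s' • e j with had
    have hbi : β i true a = sg s * N := by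
      rw [had, map_add, map_zsmul, map_zsmul, hF.be, hF.be, if_pos rfl, if_neg hji, sg_true,
        smul_eq_mul, smul_eq_mul]
      ring
    have hbj : β j true a = sg s' * N := by
      rw [had, map_add, map_zsmul, map_zsmul, hF.be, hF.be, if_pos rfl, if_neg hij, sg_true,
        smul_eq_mul, smul_eq_mul]
      ring
    set κ : Fin m → ℤ := fun l => if l = j then -(sg s * sg s') else 1 with hκd
    have hκj : κ j = -(sg s * sg s') := by simp [hκd]
    have hκi : κ i = 1 := by simp [hκd, hij]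
    have hκ : ∀ l, |κ l| ≤ 1 := by
      intro l
      by_cases h1 : l = j
      · rw [h1, hκj, abs_neg, abs_mul, abs_sg, abs_sg]
        norm_num
      · simp [hκd, h1]
    have hκ0 : ∀ l, κ l ≠ 0 := by
      intro l
      by_cases h1 : l = j
      · rw [h1, hκj]
        exact neg_ne_zero.2 (mul_ne_zero (sg_ne_zero s) (sg_ne_zero s'))
      · simp [hκd, h1]
    have hka : kf N L0 β κ a = 0 := by
      rw [had, map_add, map_zsmul, map_zsmul, kf_e hF, kf_e hF, hκi, hκj, smul_eq_mul, smul_eq_mul]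
      have h1 := sg_mul_self s'
      linear_combination (-(sg s * N)) * h1
    have hcount := curve_count H hφ (kf N L0 β κ) hka (kf N L0 β κ lam) (kf_lam_ne hF hκ)
    have h1 : {χ | y.Pi χ ∧ kf N L0 β κ χ = kf N L0 β κ lam}.ncard ≠ 0 := by
      rw [Ne, Set.ncard_eq_zero ((H170.pi_finite H y).subset fun ω h => h.1)]
      exact Set.nonempty_iff_ne_empty.1 ⟨lam, hl, rfl⟩
    rw [hcount] at h1
    obtain ⟨χ, h2, h3⟩ := Set.nonempty_of_ncard_ne_zero h1
    have hlam' : y'.Pi lam := by
      rcases kf_class hF hκ h2.wt h3 with rfl | ⟨l, t, hl0, -⟩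
      · exact h2
      · exact absurd hl0 (hκ0 l)
    obtain ⟨D, hD, hDv, hD'⟩ := ih y' hy' hlam' hlt
    obtain ⟨k, hk, hyk⟩ := curve_ta H hφ hD hDv hne (hbad D hD hDv) hD'
    have hk' : (1 : ℤ) ≤ k := by exact_mod_cast hk
    rcases hface k hyk with h4 | ⟨l, t, h4⟩
    · have h5 := congrArg (β i true) h4
      rw [map_add, map_nsmul, hbi, nsmul_eq_mul] at h5
      have h6 : (k : ℤ) * (sg s * N) = 0 := by linarith
      rcases mul_eq_zero.1 h6 with h7 | h7
      · omega
      · exact (mul_ne_zero (sg_ne_zero s) hN.ne') h7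
    · have h5 := congrArg (β i true) h4
      have h6 := congrArg (β j true) h4
      rw [map_add, map_nsmul, hbi, nsmul_eq_mul, hF.b_vx, hF.bl] at h5
      rw [map_add, map_nsmul, hbj, nsmul_eq_mul, hF.b_vx, hF.bl] at h6
      have h7 : (k : ℤ) * (sg s * N) ≠ 0 :=
        mul_ne_zero (by omega) (mul_ne_zero (sg_ne_zero s) hN.ne')
      have h8 : (k : ℤ) * (sg s' * N) ≠ 0 :=
        mul_ne_zero (by omega) (mul_ne_zero (sg_ne_zero s') hN.ne')
      have h9 : l = i := by
        by_contra h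
        rw [if_neg h, mul_zero] at h5
        apply h7
        linarith
      have h10 : l = j := by
        by_contra h
        rw [if_neg h, mul_zero] at h6
        apply h8
        linarith
      exact hij (h9.symm.trans h10)

/-- The source for `c` with the last `e` flipped. -/
theorem pos_flip (H : Hyp 𝒜) (hF : Face 𝒜 N lam m e L0 β E F) {y : FP 𝒜} (hy : Pos L0 y)
    {j : Fin m} (hj : (j : ℕ) + 1 = m) (ha : y.Pi (-(e j)))
    (hall : ∀ χ, y.Pi χ → χ ≠ -(e j) → 0 ≤ Lk N L0 β m χ) :
    Pos (Lk N L0 (fun (k : Fin m) (s : Bool) =>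
      β ((Equiv.refl (Fin m)) k) (s == decide (k ≠ j))) m) y := by
  have hN := hF.N0
  have hF' := hF.symm (Equiv.refl (Fin m)) (fun k => decide (k ≠ j))
  set c' := Lk N L0 (fun (k : Fin m) (s : Bool) =>
      β ((Equiv.refl (Fin m)) k) (s == decide (k ≠ j))) m with hc'
  have hpj : (3 : ℤ) ^ (m - 1 - (j : ℕ)) = 1 := by
    have h1 : m - 1 - (j : ℕ) = 0 := by omega
    rw [h1, pow_zero]
  have hcj : Lk N L0 β m (e j) = N := by
    rw [hF.Lk_e, if_pos j.2, hpj, one_mul]
  have hcj' : c' (e j) = -N := by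
    have h1 := hF'.Lk_e m j
    rw [if_pos j.2, hpj, one_mul, ← hc'] at h1
    simp only [ne_eq, not_true_eq_false, decide_false, sg_false, Equiv.refl_apply] at h1
    rw [neg_smul, one_smul, map_neg] at h1
    linarith
  have hci' : ∀ i, i ≠ j → c' (e i) = Lk N L0 β m (e i) := by
    intro i hij
    have h1 := hF'.Lk_e m i
    rw [if_pos i.2, ← hc'] at h1
    simp only [ne_eq, hij, not_false_eq_true, decide_true, sg_true, Equiv.refl_apply] at h1
    rw [one_smul] at h1
    rw [h1, hF.Lk_e, if_pos i.2]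
  have hci : ∀ i, i ≠ j → 3 * N ≤ Lk N L0 β m (e i) := by
    intro i hij
    rw [hF.Lk_e, if_pos i.2]
    have h1 : (i : ℕ) < j := by
      have h2 := i.2
      have h3 : (i : ℕ) ≠ j := fun h => hij (Fin.ext h)
      omega
    have h4 : (3 : ℤ) ^ 1 ≤ 3 ^ (m - 1 - (i : ℕ)) :=
      pow_le_pow_right₀ (by norm_num) (by omega)
    rw [pow_one] at h4
    nlinarith
  intro χ hχ
  rcases (hy χ hχ).lt_or_eq with h0 | h0
  · exact (hF'.Lk_pos_of_L0 hχ.wt h0 m).le
  rcases hF.S χ hχ.wt h0.symm with ⟨i, s, rfl⟩ | ⟨i, k, s, s', hik, rfl⟩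
  · by_cases hij : i = j
    · subst hij
      cases s
      · rw [map_zsmul, hcj', sg_false, smul_eq_mul]
        linarith
      · exfalso
        rw [sg_true, one_smul] at hχ
        exact H170.not_pi_neg H hχ ha
    · have h1 := hall _ hχ (by
        intro h2
        have h3 := congrArg (β i true) h2
        rw [map_zsmul, map_neg, hF.be, hF.be, if_pos rfl, if_neg (Ne.symm hij), sg_true,
          smul_eq_mul, neg_zero] at h3
        rcases mul_eq_zero.1 h3 with h4 | h4
        · exact sg_ne_zero s h4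
        · omega)
      rw [map_zsmul] at h1 ⊢
      rwa [hci' i hij]
  · have h1 := hall _ hχ (by
      intro h2
      have h3 := congrArg (β i true) h2
      have h4 := congrArg (β k true) h2
      rw [map_add, map_zsmul, map_zsmul, map_neg, hF.be, hF.be, hF.be, if_pos rfl,
        if_neg (Ne.symm hik), sg_true, smul_eq_mul, smul_eq_mul, mul_zero, add_zero] at h3
      rw [map_add, map_zsmul, map_zsmul, map_neg, hF.be, hF.be, hF.be, if_pos rfl,
        if_neg hik, sg_true, smul_eq_mul, smul_eq_mul, mul_zero, zero_add] at h4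
      have h5 : j = i := by
        by_contra h
        rw [if_neg h, neg_zero] at h3
        rcases mul_eq_zero.1 h3 with h6 | h6
        · exact sg_ne_zero s h6
        · omega
      have h6 : j = k := by
        by_contra h
        rw [if_neg h, neg_zero] at h4
        rcases mul_eq_zero.1 h4 with h6 | h6
        · exact sg_ne_zero s' h6
        · omega
      exact hik (h5.symm.trans h6))
    rw [map_add, map_zsmul, map_zsmul, smul_eq_mul, smul_eq_mul] at h1 ⊢
    by_cases hij : i = j
    · subst hij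
      have h2 := hci k (Ne.symm hik)
      rw [hcj', hci' k (Ne.symm hik)]
      rw [hcj] at h1
      cases s <;> cases s' <;> simp only [sg_true, sg_false] at h1 ⊢ <;> linarith
    · by_cases hkj : k = j
      · subst hkj
        have h2 := hci i hij
        rw [hcj', hci' i hij]
        rw [hcj] at h1
        cases s <;> cases s' <;> simp only [sg_true, sg_false] at h1 ⊢ <;> linarith
      · rw [hci' i hij, hci' k hkj]
        exact h1

theorem good_of_pos (H : Hyp 𝒜) (hF : Face 𝒜 N lam m e L0 β E F) {y : FP 𝒜}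
    (hc : Pos (Lk N L0 β m) y) (hl : y.Pi lam) :
    ∃ D : VF R, Glob D ∧ HV 𝒜 lam D ∧ ¬ ValV y.q D 0 := by
  obtain ⟨v, hv, hw, hne⟩ := hl
  obtain ⟨D, hD, hDv, hval⟩ := mc H hF hc ⟨v, hv, hw, hne⟩ hv hw
  refine ⟨D, hD, hDv, fun h0 => ?_⟩
  have h1 := hval.unique h0
  obtain ⟨d, m', h, -, h2⟩ := hne 0
  rw [zero_mul, zero_mul, h1] at h2
  exact h2 rfl

theorem good (H : Hyp 𝒜) (hF : Face 𝒜 N lam m e L0 β E F) (B : ℤ)
    (hB : ∀ y : FP 𝒜, B ≤ Lk N L0 β m y.ν) (n : ℕ) : ∀ y : FP 𝒜, Pos L0 y → y.Pi lam →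
      Lk N L0 β m y.ν < B + n → ∃ D : VF R, Glob D ∧ HV 𝒜 lam D ∧ ¬ ValV y.q D 0 := by
  induction n with
  | zero =>
    intro y _ _ h
    have h1 := hB y
    rw [Nat.cast_zero, add_zero] at h
    exact absurd h (not_lt.2 h1)
  | succ n IH =>
    intro y hy hl hn
    by_contra hcon
    have hN := hF.N0
    have hbad : ∀ D : VF R, Glob D → HV 𝒜 lam D → ValV y.q D 0 := by
      intro D hD hDv
      by_contra h
      exact hcon ⟨D, hD, hDv, h⟩
    have ih : ∀ y' : FP 𝒜, Pos L0 y' → y'.Pi lam → Lk N L0 β m y'.ν < Lk N L0 β m y.ν →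
        ∃ D : VF R, Glob D ∧ HV 𝒜 lam D ∧ ¬ ValV y'.q D 0 := by
      intro y' h1 h2 h3
      refine IH y' h1 h2 ?_
      push_cast at hn
      linarith
    have key := fun (a : Fin r → ℤ) (ha : y.Pi a) (hc : Lk N L0 β m a < 0) =>
      neg_dir H hF hy hl ih hbad ha hc
    by_cases hneg : ∃ a, y.Pi a ∧ Lk N L0 β m a < 0
    · obtain ⟨a, ha, hca⟩ := hneg
      obtain ⟨j, rfl, hj⟩ := key a ha hca
      have hi : ∀ i, i ≠ j → y.Pi (vx lam e i true) := by
        intro i hij
        rcases f3 H hF y hy hl i with h | h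
        · exact h
        exfalso
        have h1 := f1 H hF y (Ne.symm hij) hj h
        rw [sg_false, sg_true, neg_smul, one_smul, one_smul] at h1
        have h2 : Lk N L0 β m (-(e i) - e j) < 0 := by
          rw [map_sub, map_neg, hF.Lk_e, hF.Lk_e, if_pos i.2, if_pos j.2]
          have h3 : (0 : ℤ) < 3 ^ (m - 1 - (i : ℕ)) * N := by positivity
          have h4 : (0 : ℤ) < 3 ^ (m - 1 - (j : ℕ)) * N := by positivity
          linarith
        obtain ⟨l, h3, -⟩ := key _ h1 h2
        have h4 := congrArg (β i true) h3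
        have h5 := congrArg (β j true) h3
        rw [map_sub, map_neg, map_neg, hF.be, hF.be, hF.be, if_pos rfl, if_neg (Ne.symm hij),
          sg_true] at h4
        rw [map_sub, map_neg, map_neg, hF.be, hF.be, hF.be, if_pos rfl, if_neg hij,
          sg_true] at h5
        have h6 : l = i := by
          by_contra h
          rw [if_neg h] at h4
          omega
        have h7 : l = j := by
          by_contra h
          rw [if_neg h] at h5
          omega
        exact hij (h6.symm.trans h7)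
      have hall : ∀ χ, y.Pi χ → χ ≠ -(e j) → 0 ≤ Lk N L0 β m χ := by
        intro χ hχ hne
        by_contra h
        obtain ⟨l, h1, h2⟩ := key χ hχ (not_le.1 h)
        by_cases hlj : l = j
        · exact hne (hlj ▸ h1)
        · exact h2 (hi l hlj)
      have hjm : (j : ℕ) + 1 = m := by
        by_contra hlt
        have h0 := j.2
        have hlt' : (j : ℕ) + 1 < m := by omega
        have hij : (⟨(j : ℕ) + 1, hlt'⟩ : Fin m) ≠ j := by
          intro h
          have := congrArg Fin.val h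
          simp at this
        set i : Fin m := ⟨(j : ℕ) + 1, hlt'⟩ with hid
        have h1 := f1 H hF y (Ne.symm hij) hj (hi i hij)
        rw [sg_true, one_smul, one_smul] at h1
        have h2 := hall _ h1 (by
          intro h2
          have h4 := congrArg (β i true) h2
          rw [map_sub, map_neg, hF.be, hF.be, if_pos rfl, if_neg (Ne.symm hij), sg_true] at h4
          omega)
        rw [map_sub, hF.Lk_e, hF.Lk_e, if_pos i.2, if_pos j.2] at h2
        have h3 : (3 : ℤ) ^ (m - 1 - (i : ℕ)) < 3 ^ (m - 1 - (j : ℕ)) := by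
          apply pow_lt_pow_right₀ (by norm_num)
          have h5 : (i : ℕ) = j + 1 := rfl
          omega
        nlinarith
      apply hcon
      exact good_of_pos H (hF.symm (Equiv.refl (Fin m)) (fun k => decide (k ≠ j)))
        (pos_flip H hF hy hjm ha hall) hl
    · apply hcon
      refine good_of_pos H hF ?_ hl
      intro χ hχ
      by_contra h
      exact hneg ⟨χ, hχ, not_le.1 h⟩

/-- F01 (P4'). -/
theorem p4 (H : Hyp 𝒜) (hF : Face 𝒜 N lam m e L0 β E F) (y : FP 𝒜) (hy : Pos L0 y)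
    (hl : y.Pi lam) {t : R →ₗ[ℂ] ℂ} (ht : IsTangent y.q t) (htw : HasWeight 𝒜 y.ν lam t) :
    ∃ D : VF R, Glob D ∧ HV 𝒜 lam D ∧ ValV y.q D t := by
  obtain ⟨B, hB⟩ := (((finite_weights H.hX).image (Lk N L0 β m)).bddBelow)
  have hB' : ∀ z : FP 𝒜, B ≤ Lk N L0 β m z.ν := fun z => hB ⟨z.ν, H170.nu_mem H z, rfl⟩
  obtain ⟨D, hD, hDv, h0⟩ := good H hF B hB' (Lk N L0 β m y.ν - B + 1).toNat y hy hl (by
    have h1 := hB' y
    have h2 := Int.toNat_of_nonneg (a := Lk N L0 β m y.ν - B + 1) (by omega)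
    omega)
  obtain ⟨t1, ht1⟩ := hD.rgV.val (q := y.q)
  have hne : t1 ≠ 0 := by
    rintro rfl
    exact h0 ht1
  obtain ⟨c, c', hcc, hrel⟩ := H.mult y.q y.ν lam y.nv y.fix hl t1 t ht1.isTangent
    (hDv.hasWeight H.hX y.nv y.fix ht1) ht htw
  have hc' : c' ≠ 0 := by
    rintro rfl
    have hc : c ≠ 0 := hcc.resolve_right (fun h => h rfl)
    apply hne
    ext h
    have h1 := hrel h
    rw [zero_mul, add_zero] at h1
    rw [LinearMap.zero_apply]
    exact (mul_eq_zero.1 h1).resolve_left hc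
  refine ⟨(-(c / c')) • D, hD.smulC _, hDv.smulC _, ?_⟩
  have h2 : t = (-(c / c')) • t1 := by
    ext h
    have h1 := hrel h
    rw [LinearMap.smul_apply, smul_eq_mul]
    field_simp
    linear_combination h1
  rw [h2]
  exact ht1.smulC _

end Vale.Agent.P280.N
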