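import Vale.Agent.P280.N.Defs
import Vale.Agent.P280.H939.Fin2

/-! P280, plan N, M1: refinement of the grading by a derivation of weight `0`. -/

open DirectSum Vale.Agent.P280.T Vale.Agent.P280.H127

namespace Vale.Agent.P280.N

namespace M1

section ev
variable {R : Type} [CommRing R] [Algebra ℂ R]

/-- The generalised eigenspaces of a derivation. -/
def Ev (D : Derivation ℂ R R) (κ : ℂ) : Submodule ℂ R :=
  Module.End.maxGenEigenspace (D : R →ₗ[ℂ] R) κ

theorem mem_Ev {D : Derivation ℂ R R} {κ : ℂ} {h : R} :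
    h ∈ Ev D κ ↔ ∃ n : ℕ, (((D : R →ₗ[ℂ] R) - κ • (1 : Module.End ℂ R)) ^ n) h = 0 :=
  Module.End.mem_maxGenEigenspace _ _ _

theorem leib (D : Derivation ℂ R R) (κ κ' : ℂ) : ∀ (N i j : ℕ) (a b : R), i + j = N →
    (((D : R →ₗ[ℂ] R) - κ • (1 : Module.End ℂ R)) ^ i) a = 0 →
    (((D : R →ₗ[ℂ] R) - κ' • (1 : Module.End ℂ R)) ^ j) b = 0 →
    (((D : R →ₗ[ℂ] R) - (κ + κ') • (1 : Module.End ℂ R)) ^ N) (a * b) = 0 := by
  intro N
  induction N with
  | zero =>
    intro i j a b hN ha hb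
    obtain rfl : i = 0 := by omega
    have : a = 0 := by simpa using ha
    simp [this]
  | succ N ih =>
    intro i j a b hN ha hb
    rcases i with _ | i
    · have : a = 0 := by simpa using ha
      simp [this]
    rcases j with _ | j
    · have : b = 0 := by simpa using hb
      simp [this]
    have key : ((D : R →ₗ[ℂ] R) - (κ + κ') • (1 : Module.End ℂ R)) (a * b) =
        ((D : R →ₗ[ℂ] R) - κ • (1 : Module.End ℂ R)) a * b +
          a * ((D : R →ₗ[ℂ] R) - κ' • (1 : Module.End ℂ R)) b := by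
      simp only [LinearMap.sub_apply, LinearMap.smul_apply, LinearMap.add_apply,
        Module.End.one_apply, Derivation.coeFn_coe, Derivation.leibniz, smul_eq_mul, add_smul,
        sub_mul, mul_sub, smul_mul_assoc, mul_smul_comm]
      ring
    rw [pow_succ, Module.End.mul_apply, key, map_add]
    rw [ih i (j + 1) _ _ (by omega) (by rwa [pow_succ, Module.End.mul_apply] at ha) hb,
      ih (i + 1) j _ _ (by omega) ha (by rwa [pow_succ, Module.End.mul_apply] at hb), add_zero]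

theorem Ev_mul {D : Derivation ℂ R R} {κ κ' : ℂ} {a b : R} (ha : a ∈ Ev D κ) (hb : b ∈ Ev D κ') :
    a * b ∈ Ev D (κ + κ') := by
  rw [mem_Ev] at *
  obtain ⟨i, hi⟩ := ha
  obtain ⟨j, hj⟩ := hb
  exact ⟨i + j, leib D κ κ' _ i j a b rfl hi hj⟩

theorem Ev_one (D : Derivation ℂ R R) : (1 : R) ∈ Ev D 0 := by
  rw [mem_Ev]
  exact ⟨1, by simp⟩

theorem Ev_indep (D : Derivation ℂ R R) : iSupIndep (Ev D) :=
  Module.End.independent_maxGenEigenspace _

theorem Ev_iter {D : Derivation ℂ R R} {κ : ℂ} {h : R} (hh : h ∈ Ev D κ) :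
    ∃ n : ℕ, (fun x : R => D x - κ • x)^[n] h = 0 := by
  obtain ⟨n, hn⟩ := mem_Ev.1 hh
  refine ⟨n, ?_⟩
  rw [Module.End.pow_apply] at hn
  exact hn

/-- In an invariant finite-dimensional subspace. -/
theorem Ev_top {D : Derivation ℂ R R} {p : Submodule ℂ R} [FiniteDimensional ℂ p]
    (hp : ∀ x ∈ p, D x ∈ p) : p ≤ ⨆ κ, p ⊓ Ev D κ := by
  intro h hh
  set g : Module.End ℂ p := LinearMap.restrict (D : R →ₗ[ℂ] R) hp with hg
  have h1 : (⟨h, hh⟩ : p) ∈ ⨆ κ, g.maxGenEigenspace κ := by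
    rw [Module.End.iSup_maxGenEigenspace_eq_top]; trivial
  have h2 : h ∈ Submodule.map p.subtype (⨆ κ, g.maxGenEigenspace κ) := ⟨_, h1, rfl⟩
  rw [Submodule.map_iSup] at h2
  have h4 : (⨆ κ, Submodule.map p.subtype (g.maxGenEigenspace κ)) ≤ ⨆ κ, p ⊓ Ev D κ := by
    refine iSup_mono fun κ => ?_
    rintro x ⟨y, hy, rfl⟩
    refine ⟨y.2, ?_⟩
    have := Module.End.genEigenspace_restrict (D : R →ₗ[ℂ] R) p ⊤ κ hp
    have h3 : y ∈ (g.genEigenspace κ) ⊤ := hy
    rw [this] at h3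
    exact h3
  exact h4 h2

/-- The eigenvalues on a finite-dimensional subspace are finitely many. -/
theorem Ev_fin {D : Derivation ℂ R R} {p : Submodule ℂ R} [FiniteDimensional ℂ p]
    (hp : ∀ x ∈ p, D x ∈ p) : {κ | p ⊓ Ev D κ ≠ ⊥}.Finite := by
  set g : Module.End ℂ p := LinearMap.restrict (D : R →ₗ[ℂ] R) hp with hg
  have h1 : {κ | g.maxGenEigenspace κ ≠ ⊥}.Finite :=
    WellFoundedGT.finite_ne_bot_of_iSupIndep g.independent_maxGenEigenspace
  refine h1.subset ?_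
  intro κ hκ
  obtain ⟨x, hx, hx0⟩ := (Submodule.ne_bot_iff _).1 hκ
  have := Module.End.genEigenspace_restrict (D : R →ₗ[ℂ] R) p ⊤ κ hp
  refine (Submodule.ne_bot_iff _).2 ⟨⟨x, hx.1⟩, ?_, fun h => hx0 (congrArg Subtype.val h)⟩
  have h3 : (⟨x, hx.1⟩ : p) ∈ (g.genEigenspace κ) ⊤ := by
    rw [this]; exact hx.2
  exact h3

end ev

section indep
variable {R : Type} [AddCommGroup R] [Module ℂ R] {ι κ : Type*}

theorem indep_inf {A : ι → Submodule ℂ R} {E : κ → Submodule ℂ R} (hA : iSupIndep A)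
    (hE : iSupIndep E) : iSupIndep fun i : ι × κ => A i.1 ⊓ E i.2 := by
  classical
  rw [iSupIndep_iff_finsetSum_eq_zero_imp_eq_zero] at *
  intro s v hv hs p hp
  set v' : ι × κ → R := fun q => if q ∈ s then v q else 0 with hv'
  have hm : ∀ q, v' q ∈ A q.1 ⊓ E q.2 := by
    intro q
    simp only [hv']
    split_ifs with h
    · exact hv q h
    · exact Submodule.zero_mem _
  have hsum : ∑ i ∈ s.image Prod.fst, ∑ k ∈ s.image Prod.snd, v' (i, k) = 0 := by
    rw [← Finset.sum_product', ← hs]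
    symm
    rw [Finset.sum_congr rfl (fun q hq => (by simp [hv', hq] : v q = v' (q.1, q.2)))]
    apply Finset.sum_subset
    · intro q hq
      exact Finset.mem_product.2 ⟨Finset.mem_image_of_mem _ hq, Finset.mem_image_of_mem _ hq⟩
    · intro q _ hq
      simp [hv', hq]
  have h1 := hA (s.image Prod.fst) (fun i => ∑ k ∈ s.image Prod.snd, v' (i, k))
    (fun i _ => Submodule.sum_mem _ fun k _ => (hm (i, k)).1) hsum p.1
    (Finset.mem_image_of_mem _ hp)
  have h2 := hE (s.image Prod.snd) (fun k => v' (p.1, k)) (fun k _ => (hm (p.1, k)).2) h1 p.2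
    (Finset.mem_image_of_mem _ hp)
  simpa [hv', hp] using h2

end indep

end M1

variable {r : ℕ} {R : Type} [CommRing R] [Algebra ℂ R]
  {𝒜 : ℕ × (Fin r → ℤ) → Submodule ℂ R}

/-- `D` acts on the pieces of `𝒜` with one generalised eigenvalue, given by an affine function of
the weight. -/
def Diag (𝒜 : ℕ × (Fin r → ℤ) → Submodule ℂ R) (D : Derivation ℂ R R) (α : ℂ)
    (β : (Fin r → ℤ) →+ ℂ) : Prop :=
  ∀ d m, ∀ h ∈ 𝒜 (d, m), ∃ n : ℕ, (fun x : R => D x - ((d : ℂ) * α + β m) • x)^[n] h = 0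

/-- The torus of the grading is maximal (up to nilpotent derivations). -/
def MaxTor (𝒜 : ℕ × (Fin r → ℤ) → Submodule ℂ R) : Prop :=
  ∀ D : Derivation ℂ R R, (∀ d m, ∀ h ∈ 𝒜 (d, m), D h ∈ 𝒜 (d, m)) → ∃ α β, Diag 𝒜 D α β

namespace M1

/-- The pieces of degree one generate: every piece is the sum of its generalised eigenspaces with
eigenvalues in a subgroup containing those of degree one. -/
theorem piece_le [GradedAlgebra 𝒜] (hX : IsTorusManifold 𝒜) {D : Derivation ℂ R R}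
    {Λ : Submodule ℤ ℂ} (h1 : ∀ m, 𝒜 (1, m) ≤ ⨆ κ : Λ, 𝒜 (1, m) ⊓ Ev D κ) (i : ℕ × (Fin r → ℤ)) :
    𝒜 i ≤ ⨆ κ : Λ, 𝒜 i ⊓ Ev D κ := by
  classical
  set T : Submodule ℂ R := ⨆ q : (ℕ × (Fin r → ℤ)) × Λ, 𝒜 q.1 ⊓ Ev D q.2 with hT
  have hTm : ∀ a b, a ∈ T → b ∈ T → a * b ∈ T := by
    intro a b ha hb
    refine Submodule.iSup_induction _ (motive := fun a => a * b ∈ T) ha ?_ ?_ ?_
    · intro q a ha
      refine Submodule.iSup_induction _ (motive := fun b => a * b ∈ T) hb ?_ ?_ ?_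
      · intro q' b hb
        refine Submodule.mem_iSup_of_mem (q.1 + q'.1, q.2 + q'.2) ⟨?_, ?_⟩
        · exact SetLike.mul_mem_graded ha.1 hb.1
        · exact Ev_mul ha.2 hb.2
      · simp
      · intro b b' hb hb'
        rw [mul_add]; exact T.add_mem hb hb'
    · simp
    · intro a a' ha ha'
      rw [add_mul]; exact T.add_mem ha ha'
  have hT1 : (1 : R) ∈ T := by
    refine Submodule.mem_iSup_of_mem (0, 0) ⟨SetLike.one_mem_graded 𝒜, ?_⟩
    exact Ev_one D
  have hTt : T = ⊤ := by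
    have : Algebra.adjoin ℂ {h : R | ∃ m, h ∈ 𝒜 (1, m)} ≤ T.toSubalgebra hT1 hTm := by
      rw [Algebra.adjoin_le_iff]
      rintro h ⟨m, hm⟩
      have h2 := h1 m hm
      refine (iSup_le fun κ => ?_ : (⨆ κ : Λ, 𝒜 (1, m) ⊓ Ev D κ) ≤ T) h2
      exact le_iSup (fun q : (ℕ × (Fin r → ℤ)) × Λ => 𝒜 q.1 ⊓ Ev D q.2) ((1, m), κ)
    rw [hX.gen] at this
    rw [eq_top_iff]
    intro x _
    exact this (Algebra.mem_top (x := x))
  have hproj : ∀ x ∈ T, (DirectSum.decompose 𝒜 x i : R) ∈ ⨆ κ : Λ, 𝒜 i ⊓ Ev D κ := by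
    intro x hx
    refine Submodule.iSup_induction _
      (motive := fun x => (DirectSum.decompose 𝒜 x i : R) ∈ ⨆ κ : Λ, 𝒜 i ⊓ Ev D κ) hx ?_ ?_ ?_
    · intro q x hx
      by_cases hq : q.1 = i
      · subst hq
        rw [DirectSum.decompose_of_mem_same 𝒜 hx.1]
        exact Submodule.mem_iSup_of_mem q.2 hx
      · rw [DirectSum.decompose_of_mem_ne 𝒜 hx.1 hq]
        exact Submodule.zero_mem _
    · simp
    · intro x y hx hy
      rw [DirectSum.decompose_add, DirectSum.add_apply, Submodule.coe_add]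
      exact Submodule.add_mem _ hx hy
  intro h hh
  have := hproj h (hTt ▸ Submodule.mem_top)
  rwa [DirectSum.decompose_of_mem_same 𝒜 hh] at this

end M1

open M1 in
/-- M1. The generalised eigenspaces of a derivation of weight `0` refine the grading. -/
theorem exists_refine [GradedAlgebra 𝒜] (hX : IsTorusManifold 𝒜) (D : Derivation ℂ R R)
    (hD : ∀ d m, ∀ h ∈ 𝒜 (d, m), D h ∈ 𝒜 (d, m)) :
    ∃ (r' : ℕ) (𝒜' : ℕ × (Fin r' → ℤ) → Submodule ℂ R) (_ : GradedAlgebra 𝒜')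
      (π : (Fin r' → ℤ) →+ (Fin r → ℤ)) (lam : (Fin r' → ℤ) →+ ℂ),
      (∀ d m', 𝒜' (d, m') ≤ 𝒜 (d, π m')) ∧ Diag 𝒜' D 0 lam := by
  classical
  -- the eigenvalues in degree one
  have hdeg := H939.finite_deg hX 1
  have hle : ∀ m, 𝒜 (1, m) ≤ H939.deg 𝒜 1 := fun m => le_iSup (fun m => 𝒜 (1, m)) m
  have hDdeg : ∀ x ∈ H939.deg 𝒜 1, D x ∈ H939.deg 𝒜 1 := by
    intro x hx
    refine Submodule.iSup_induction _ (motive := fun x => D x ∈ H939.deg 𝒜 1) hx ?_ ?_ ?_
    · intro m x hx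
      exact hle m (hD 1 m x hx)
    · simp
    · intro x y hx hy
      rw [map_add]; exact Submodule.add_mem _ hx hy
  set S : Set ℂ := {κ | H939.deg 𝒜 1 ⊓ Ev D κ ≠ ⊥} with hS
  have hSf : S.Finite := Ev_fin hDdeg
  set Λ : Submodule ℤ ℂ := Submodule.span ℤ S with hΛ
  have : Module.Finite ℤ Λ := Module.Finite.span_of_finite ℤ hSf
  have h1 : ∀ m, 𝒜 (1, m) ≤ ⨆ κ : Λ, 𝒜 (1, m) ⊓ Ev D κ := by
    intro m
    have : FiniteDimensional ℂ (𝒜 (1, m)) := Submodule.finiteDimensional_of_le (hle m)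
    refine (Ev_top (D := D) (hD 1 m)).trans (iSup_le fun κ => ?_)
    by_cases hκ : κ ∈ S
    · exact le_iSup (fun κ : Λ => 𝒜 (1, m) ⊓ Ev D κ) ⟨κ, Submodule.subset_span hκ⟩
    · have h0 : H939.deg 𝒜 1 ⊓ Ev D κ = ⊥ := by simpa [hS] using hκ
      refine (inf_le_inf_right _ (hle m)).trans (h0.le.trans bot_le)
  have hall := piece_le hX h1
  -- the basis of the group of eigenvalues
  set b := Module.finBasis ℤ Λ with hb
  set k := Module.finrank ℤ Λ with hk
  let π : (Fin (r + k) → ℤ) →+ (Fin r → ℤ) :=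
    { toFun := fun m' i => m' (Fin.castAdd k i), map_zero' := rfl, map_add' := fun _ _ => rfl }
  let lam : (Fin (r + k) → ℤ) →+ ℂ :=
    { toFun := fun m' => ((b.equivFun.symm fun j => m' (Fin.natAdd r j) : Λ) : ℂ)
      map_zero' := by
        have : (fun j : Fin k => (0 : Fin (r + k) → ℤ) (Fin.natAdd r j)) = 0 := rfl
        rw [this, map_zero]; rfl
      map_add' := fun x y => by
        have : (fun j : Fin k => (x + y) (Fin.natAdd r j)) =
          (fun j => x (Fin.natAdd r j)) + (fun j => y (Fin.natAdd r j)) := rfl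
        rw [this, map_add]; rfl }
  have hinj : Function.Injective fun q : ℕ × (Fin (r + k) → ℤ) => ((q.1, π q.2), lam q.2) := by
    rintro ⟨d, x⟩ ⟨d', y⟩ h
    simp only [Prod.mk.injEq] at h
    obtain ⟨⟨rfl, hp⟩, hl⟩ := h
    refine Prod.ext rfl (funext fun i => ?_)
    refine Fin.addCases (fun i => congrFun hp i) (fun j => ?_) i
    exact congrFun (b.equivFun.symm.injective (Subtype.ext hl)) j
  have hsurj : ∀ (m : Fin r → ℤ) (κ : Λ), ∃ m', π m' = m ∧ lam m' = κ := by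
    intro m κ
    refine ⟨Fin.append m (b.equivFun κ), ?_, ?_⟩
    · funext i
      exact Fin.append_left _ _ i
    · have : (fun j => Fin.append m (b.equivFun κ) (Fin.natAdd r j)) = b.equivFun κ :=
        funext fun j => Fin.append_right _ _ j
      change ((b.equivFun.symm fun j => Fin.append m (b.equivFun κ) (Fin.natAdd r j) : Λ) : ℂ) = κ
      rw [this, LinearEquiv.symm_apply_apply]
  let 𝒜' : ℕ × (Fin (r + k) → ℤ) → Submodule ℂ R := fun q => 𝒜 (q.1, π q.2) ⊓ Ev D (lam q.2)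
  have hind : iSupIndep 𝒜' :=
    (indep_inf (DirectSum.Decomposition.isInternal 𝒜).submodule_iSupIndep (Ev_indep D)).comp hinj
  have htop : iSup 𝒜' = ⊤ := by
    rw [eq_top_iff, ← (DirectSum.Decomposition.isInternal 𝒜).submodule_iSup_eq_top]
    refine iSup_le fun i => (hall i).trans (iSup_le fun κ => ?_)
    obtain ⟨m', h, h'⟩ := hsurj i.2 κ
    refine le_trans (le_of_eq ?_) (le_iSup 𝒜' (i.1, m'))
    change 𝒜 i ⊓ Ev D κ = 𝒜 (i.1, π m') ⊓ Ev D (lam m')
    rw [h, h']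
  have hint : DirectSum.IsInternal 𝒜' :=
    DirectSum.isInternal_submodule_of_iSupIndep_of_iSup_eq_top hind htop
  let inst : GradedAlgebra 𝒜' :=
    { hint.chooseDecomposition 𝒜' with
      one_mem := by
        refine ⟨?_, ?_⟩
        · have := SetLike.one_mem_graded 𝒜
          change (1 : R) ∈ 𝒜 (0, π 0)
          rw [map_zero]
          exact this
        · have := Ev_one D
          change (1 : R) ∈ Ev D (lam 0)
          rw [map_zero]
          exact this
      mul_mem := fun i j a b' ha hb' => by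
        refine ⟨?_, ?_⟩
        · have := SetLike.mul_mem_graded ha.1 hb'.1
          change a * b' ∈ 𝒜 (i.1 + j.1, π (i.2 + j.2))
          rw [map_add]
          exact this
        · have := Ev_mul ha.2 hb'.2
          change a * b' ∈ Ev D (lam (i.2 + j.2))
          rw [map_add]
          exact this }
  refine ⟨r + k, 𝒜', inst, π, lam, fun d m' => inf_le_left, fun d m' h hh => ?_⟩
  obtain ⟨n, hn⟩ := Ev_iter hh.2
  exact ⟨n, by simpa using hn⟩

end Vale.Agent.P280.N
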