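import Vale.Agent.P280.N.M1
import Vale.Agent.P280.N.M4
import Vale.Agent.P280.H939.Fin2

/-! P280, plan N, M2: a maximal refinement. -/

open DirectSum Vale.Agent.P280.T Vale.Agent.P280.H127

namespace Vale.Agent.P280.N

variable {r : ℕ} {R : Type} [CommRing R] [Algebra ℂ R]
  {𝒜 : ℕ × (Fin r → ℤ) → Submodule ℂ R}

namespace M2

/-- The exponents of degree one. -/
def S1 (𝒜 : ℕ × (Fin r → ℤ) → Submodule ℂ R) : Set (ℤ × (Fin r → ℤ)) :=
  {x | x.1 = 1 ∧ 𝒜 (1, x.2) ≠ ⊥}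

/-- The group generated by the exponents of degree one. -/
def G1 (𝒜 : ℕ × (Fin r → ℤ) → Submodule ℂ R) : Submodule ℤ (ℤ × (Fin r → ℤ)) :=
  Submodule.span ℤ (S1 𝒜)

/-- The exponents of a ring generated in degree one. -/
theorem mem_of_gen [GradedAlgebra 𝒜]
    (hgen : Algebra.adjoin ℂ {h : R | ∃ m : Fin r → ℤ, h ∈ 𝒜 (1, m)} = ⊤)
    (P : AddSubmonoid (ℕ × (Fin r → ℤ))) (hP : ∀ m, 𝒜 (1, m) ≠ ⊥ → (1, m) ∈ P) :
    ∀ i, 𝒜 i ≠ ⊥ → i ∈ P := by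
  classical
  let W : Submodule ℂ R := ⨆ i : {i : ℕ × (Fin r → ℤ) // i ∈ P}, 𝒜 i.1
  have hW : ∀ i ∈ P, 𝒜 i ≤ W := fun i hi => le_iSup (fun i : {i // i ∈ P} => 𝒜 i.1) ⟨i, hi⟩
  have hWW : W * W ≤ W := by
    show (⨆ i : {i : ℕ × (Fin r → ℤ) // i ∈ P}, 𝒜 i.1) * W ≤ W
    rw [Submodule.iSup_mul]
    refine iSup_le fun i => ?_
    show 𝒜 i.1 * (⨆ j : {j : ℕ × (Fin r → ℤ) // j ∈ P}, 𝒜 j.1) ≤ W
    rw [Submodule.mul_iSup]
    refine iSup_le fun j => ?_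
    refine le_trans ?_ (hW (i.1 + j.1) (P.add_mem i.2 j.2))
    rw [Submodule.mul_le]
    exact fun a ha b hb => SetLike.mul_mem_graded ha hb
  have h1 : (1 : R) ∈ W := hW 0 P.zero_mem SetLike.GradedOne.one_mem
  have htop : ∀ x : R, x ∈ W := by
    intro x
    have hx : x ∈ Algebra.adjoin ℂ {h : R | ∃ m : Fin r → ℤ, h ∈ 𝒜 (1, m)} := by
      rw [hgen]
      trivial
    induction hx using Algebra.adjoin_induction with
    | mem x hx =>
      obtain ⟨m, hm⟩ := hx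
      by_cases h0 : 𝒜 (1, m) = ⊥
      · rw [h0, Submodule.mem_bot] at hm
        rw [hm]
        exact W.zero_mem
      · exact hW _ (hP m h0) hm
    | algebraMap c =>
      rw [Algebra.algebraMap_eq_smul_one]
      exact W.smul_mem c h1
    | add x y _ _ hx hy => exact W.add_mem hx hy
    | mul x y _ _ hx hy => exact hWW (Submodule.mul_mem_mul hx hy)
  intro i hi
  by_contra hiP
  apply hi
  rw [Submodule.eq_bot_iff]
  intro x hx
  have h2 : ∀ y ∈ W, (decompose 𝒜 y i : R) = 0 := by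
    intro y hy
    induction hy using Submodule.iSup_induction' with
    | mem j y hy =>
      rw [decompose_of_mem_ne 𝒜 hy]
      rintro rfl
      exact hiP j.2
    | zero => rw [decompose_zero]; rfl
    | add y z _ _ h1 h2 =>
      rw [decompose_add, DirectSum.add_apply, Submodule.coe_add, h1, h2, add_zero]
  have h3 := h2 x (htop x)
  rwa [decompose_of_mem_same 𝒜 hx] at h3

theorem mem_G1 [GradedAlgebra 𝒜] (hX : IsTorusManifold 𝒜) {d : ℕ} {m : Fin r → ℤ}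
    (h : 𝒜 (d, m) ≠ ⊥) : ((d : ℤ), m) ∈ G1 𝒜 := by
  let f : ℕ × (Fin r → ℤ) →+ ℤ × (Fin r → ℤ) :=
    AddMonoidHom.prodMap (Nat.castAddMonoidHom ℤ) (AddMonoidHom.id _)
  have h1 := mem_of_gen hX.gen ((G1 𝒜).toAddSubgroup.toAddSubmonoid.comap f) (fun m hm => by
    refine Submodule.subset_span ⟨?_, hm⟩
    simp [f]) (d, m) h
  exact h1

/-- The rank is bounded. -/
theorem finrank_le [GradedAlgebra 𝒜] (hX : IsTorusManifold 𝒜) {W : Submodule ℂ R}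
    [FiniteDimensional ℂ W] (hW : ∀ m, 𝒜 (1, m) ≤ W) :
    Module.finrank ℤ (G1 𝒜) ≤ Module.finrank ℂ W := by
  classical
  have hfin : (S1 𝒜).Finite := by
    refine Set.Finite.subset ((finite_weights hX).image fun m => ((1 : ℤ), m)) ?_
    rintro ⟨a, m⟩ ⟨ha, hm⟩
    obtain ⟨x, hx, hx0⟩ := (Submodule.ne_bot_iff _).1 hm
    simp only at ha hm
    subst ha
    exact ⟨m, ⟨x, hx, hx0⟩, rfl⟩
  haveI : Fintype (S1 𝒜) := hfin.fintype
  refine (finrank_span_le_card (S1 𝒜)).trans ?_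
  rw [Set.toFinset_card]
  have hex : ∀ x : S1 𝒜, ∃ v : R, v ∈ 𝒜 (1, x.1.2) ∧ v ≠ 0 := fun x =>
    (Submodule.ne_bot_iff _).1 x.2.2
  choose v hv hv0 using hex
  have hind : iSupIndep (fun x : S1 𝒜 => 𝒜 (1, x.1.2)) := by
    have h1 : iSupIndep 𝒜 := (DirectSum.Decomposition.isInternal 𝒜).submodule_iSupIndep
    refine h1.comp (f := fun x : S1 𝒜 => ((1 : ℕ), x.1.2)) ?_
    rintro ⟨⟨a, m⟩, ha, hm⟩ ⟨⟨a', m'⟩, ha', hm'⟩ h
    simp only [Prod.mk.injEq, true_and] at h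
    simp only at ha ha'
    subst ha ha' h
    rfl
  have hli : LinearIndependent ℂ v := hind.linearIndependent _ hv hv0
  let v' : S1 𝒜 → W := fun x => ⟨v x, hW _ (hv x)⟩
  have hli' : LinearIndependent ℂ v' := LinearIndependent.of_comp W.subtype hli
  exact hli'.fintype_card_le_finrank

end M2

open M2

/-- M2. Some refinement has a maximal torus: one with the largest rank of the group generated by the
`(1, m)` with `𝒜' (1, m) ≠ 0` (at most `dim R_1`). -/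
theorem exists_maxTor [GradedAlgebra 𝒜] (hX : IsTorusManifold 𝒜) :
    ∃ (r' : ℕ) (𝒜' : ℕ × (Fin r' → ℤ) → Submodule ℂ R) (_ : GradedAlgebra 𝒜')
      (π : (Fin r' → ℤ) →+ (Fin r → ℤ)), (∀ d m', 𝒜' (d, m') ≤ 𝒜 (d, π m')) ∧ MaxTor 𝒜' := by
  classical
  -- the possible ranks
  let P : Set ℕ := {k | ∃ (r' : ℕ) (𝒜' : ℕ × (Fin r' → ℤ) → Submodule ℂ R) (_ : GradedAlgebra 𝒜')
      (π : (Fin r' → ℤ) →+ (Fin r → ℤ)), (∀ d m', 𝒜' (d, m') ≤ 𝒜 (d, π m')) ∧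
        Module.finrank ℤ (G1 𝒜') = k}
  have hfd : FiniteDimensional ℂ (H939.deg 𝒜 1) := H939.finite_deg hX 1
  have hne : P.Nonempty := ⟨_, r, 𝒜, inferInstance, AddMonoidHom.id _, fun d m' => le_rfl, rfl⟩
  have hbd : BddAbove P := by
    refine ⟨Module.finrank ℂ (H939.deg 𝒜 1), ?_⟩
    rintro k ⟨r', 𝒜', hg, π, hr, rfl⟩
    exact finrank_le (ref_torusManifold hr hX) fun m' =>
      (hr 1 m').trans (le_iSup (fun m => 𝒜 (1, m)) (π m'))
  obtain ⟨r', 𝒜', hg, π, hr, hk⟩ := Nat.sSup_mem hne hbd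
  refine ⟨r', 𝒜', hg, π, hr, fun D hD => ?_⟩
  have hX' : IsTorusManifold 𝒜' := ref_torusManifold hr hX
  obtain ⟨r2, 𝒜2, hg2, π2, lam, hr2, hdiag⟩ := exists_refine hX' D hD
  have hX2 : IsTorusManifold 𝒜2 := ref_torusManifold hr2 hX'
  -- the ranks
  have hrank : Module.finrank ℤ (G1 𝒜2) ≤ Module.finrank ℤ (G1 𝒜') := by
    rw [hk]
    exact le_csSup hbd ⟨r2, 𝒜2, hg2, π.comp π2, fun d m' =>
      (hr2 d m').trans (hr d (π2 m')), rfl⟩
  let F : (ℤ × (Fin r2 → ℤ)) →ₗ[ℤ] (ℤ × (Fin r' → ℤ)) :=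
    LinearMap.prodMap LinearMap.id π2.toIntLinearMap
  have hF : ∀ a m, F (a, m) = (a, π2 m) := fun a m => rfl
  have hmap : (G1 𝒜2).map F = G1 𝒜' := by
    show (Submodule.span ℤ (S1 𝒜2)).map F = Submodule.span ℤ (S1 𝒜')
    rw [Submodule.map_span]
    congr 1
    ext ⟨a, m⟩
    constructor
    · rintro ⟨⟨a', m'⟩, ⟨h1, h2⟩, h3⟩
      rw [hF] at h3
      simp only [Prod.mk.injEq] at h3
      obtain ⟨rfl, rfl⟩ := h3
      refine ⟨h1, fun h4 => h2 ?_⟩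
      have h5 := hr2 1 m'
      simp only at h4
      rw [h4] at h5
      exact le_bot_iff.1 h5
    · rintro ⟨h1, h2⟩
      simp only at h1 h2
      subst h1
      rw [ref_sup hr2] at h2
      by_contra hcon
      apply h2
      refine iSup_eq_bot.2 fun m' => ?_
      by_contra h3
      exact hcon ⟨(1, m'.1), ⟨rfl, h3⟩, by rw [hF, m'.2]⟩
  let f : G1 𝒜2 →ₗ[ℤ] G1 𝒜' := F.restrict fun x hx => by
    rw [← hmap]
    exact Submodule.mem_map_of_mem hx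
  have hfs : Function.Surjective f := by
    rintro ⟨y, hy⟩
    rw [← hmap] at hy
    obtain ⟨x, hx, rfl⟩ := hy
    exact ⟨⟨x, hx⟩, rfl⟩
  have hfi : Function.Injective f := by
    rw [← LinearMap.ker_eq_bot]
    have h1 := Submodule.finrank_quotient_add_finrank (R := ℤ) (LinearMap.ker f)
    have h2 : Module.finrank ℤ ((G1 𝒜2) ⧸ LinearMap.ker f) = Module.finrank ℤ (G1 𝒜') :=
      LinearEquiv.finrank_eq (f.quotKerEquivOfSurjective hfs)
    have h3 : Module.finrank ℤ (LinearMap.ker f) = 0 := by omega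
    have h4 := (Module.finrank_eq_zero_iff (R := ℤ) (M := LinearMap.ker f)).1 h3
    rw [Submodule.eq_bot_iff]
    intro x hx
    obtain ⟨a, ha, hax⟩ := h4 ⟨x, hx⟩
    have h5 : a • (x : ℤ × (Fin r2 → ℤ)) = 0 := congrArg
      (fun z : LinearMap.ker f => ((z : G1 𝒜2) : ℤ × (Fin r2 → ℤ))) hax
    exact Subtype.ext ((smul_eq_zero.1 h5).resolve_left ha)
  let g : G1 𝒜2 ≃ₗ[ℤ] G1 𝒜' := LinearEquiv.ofBijective f ⟨hfi, hfs⟩
  let φ : G1 𝒜' →+ ℂ := lam.comp ((AddMonoidHom.snd ℤ (Fin r2 → ℤ)).comp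
    ((G1 𝒜2).subtype.toAddMonoidHom.comp g.symm.toLinearMap.toAddMonoidHom))
  obtain ⟨ψ, hψ⟩ := (Module.Baer.of_divisible ℂ).extension_property_addMonoidHom
    (G1 𝒜').subtype.toAddMonoidHom Subtype.val_injective φ
  have hψ' : ∀ (d : ℤ) (m2 : Fin r2 → ℤ), (d, m2) ∈ G1 𝒜2 → ψ (d, π2 m2) = lam m2 := by
    intro d m2 hm
    have h1 : g ⟨(d, m2), hm⟩ = ⟨(d, π2 m2), by
        rw [← hmap]; exact ⟨(d, m2), hm, rfl⟩⟩ := rfl
    have h2 := DFunLike.congr_fun hψ (g ⟨(d, m2), hm⟩)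
    have h3 : φ (g ⟨(d, m2), hm⟩) = lam m2 := by
      show lam (((g.symm (g ⟨(d, m2), hm⟩) : G1 𝒜2) : ℤ × (Fin r2 → ℤ)).2) = lam m2
      rw [LinearEquiv.symm_apply_apply]
    rw [h3] at h2
    exact h2
  refine ⟨ψ (1, 0), ψ.comp (AddMonoidHom.inr ℤ (Fin r' → ℤ)), fun d m h hh => ?_⟩
  by_cases h0 : h = 0
  · exact ⟨0, h0⟩
  have h1 : ∃ m2 : {m2 : Fin r2 → ℤ // π2 m2 = m}, 𝒜2 (d, m2.1) ≠ ⊥ := by
    by_contra hcon
    push Not at hcon
    rw [ref_sup hr2, iSup_eq_bot.2 hcon, Submodule.mem_bot] at hh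
    exact h0 hh
  obtain ⟨⟨m2, hm2⟩, hbot⟩ := h1
  simp only at hbot
  have hmem := mem_G1 hX2 hbot
  have h2 : h ∈ 𝒜2 (d, m2) := by
    rw [ref_sup hr2] at hh
    refine (iSup_le fun m3 => ?_ : (⨆ m' : {m' : Fin r2 → ℤ // π2 m' = m}, 𝒜2 (d, m'.1)) ≤
      𝒜2 (d, m2)) hh
    by_cases hb3 : 𝒜2 (d, m3.1) = ⊥
    · rw [hb3]
      exact bot_le
    · have hmem3 := mem_G1 hX2 hb3
      have h3 : f ⟨((d : ℤ), m3.1), hmem3⟩ = f ⟨((d : ℤ), m2), hmem⟩ := by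
        apply Subtype.ext
        show F ((d : ℤ), m3.1) = F ((d : ℤ), m2)
        rw [hF, hF, m3.2, hm2]
      have h4 := congrArg (fun z : G1 𝒜2 => (z : ℤ × (Fin r2 → ℤ)).2) (hfi h3)
      simp only at h4
      rw [h4]
  obtain ⟨n, hn⟩ := hdiag d m2 h h2
  refine ⟨n, ?_⟩
  have h3 : (d : ℂ) * ψ (1, 0) + (ψ.comp (AddMonoidHom.inr ℤ (Fin r' → ℤ))) m =
      (d : ℂ) * 0 + lam m2 := by
    have h4 := hψ' d m2 hmem
    have h5 : (((d : ℤ), π2 m2) : ℤ × (Fin r' → ℤ)) =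
        (d : ℤ) • ((1 : ℤ), (0 : Fin r' → ℤ)) + (0, m) := by
      rw [hm2]
      ext <;> simp
    rw [h5, map_add, map_zsmul] at h4
    rw [mul_zero, zero_add, ← h4]
    simp [zsmul_eq_mul]
  rw [h3]
  exact hn

end Vale.Agent.P280.N
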